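import Vale.Agent.P301Z.Dg.Sk

/-!
# P301Z, block DEF, geometric half: row ONE
-/

open scoped Manifold ContDiff ComplexOrder Topology Matrix
open Filter Set Metric Complex
open Vale.Agent.P272.K Vale.Agent.P299.IX Vale.Agent.P299.IX.Fock
open Vale.Agent.P281Z (Mf)
open Vale.Agent.P281Z.Hg Vale.Agent.P301Z.Lat
open Vale.Agent.P301Z.Rot (bv cxL trn)

noncomputable section

namespace Vale.Agent.P301Z.Dg

namespace OneH

variable {d : ℕ}

theorem lv_ap (u : Fo d) (v : Cm d) : lv u v = ∑ c, u {c} * cx v c := by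
  simp only [lv, sum_apply, smul_apply, Rot.cxL_apply, smul_eq_mul]

theorem iot_ap {n : ℕ} (x : Fin n → ℂ) (u : Fk n) : (iotV x *ᵥ u) ∅ = ∑ c, u {c} * x c := by
  simp only [iotV, Matrix.sum_mulVec, Matrix.smul_mulVec, Finset.sum_apply, Pi.smul_apply,
    iot_mulVec, smul_eq_mul]
  exact Finset.sum_congr rfl fun c _ => by simp [sg, mul_comm]

theorem lv_eq (u : Fo d) (v : Cm d) : lv u v = (iotV (cx v) *ᵥ u) ∅ := by rw [lv_ap, iot_ap]

theorem o1_hl (l : Cm d →L[ℝ] ℂ) (j : Fin d) :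
    o1 l {hl j} = (l (Pi.single j 1) - I * l (Pi.single j I)) / 2 := by
  simp [o1, ev, Finset.sum_apply, Pi.single_apply, F1bH.hl_inj, F1bH.hl_ne]

theorem o1_ah (l : Cm d →L[ℝ] ℂ) (j : Fin d) :
    o1 l {ah j} = (l (Pi.single j 1) + I * l (Pi.single j I)) / 2 := by
  simp [o1, ev, Finset.sum_apply, Pi.single_apply, F1bH.ah_inj, (F1bH.hl_ne _ _).symm]

theorem o1_ne (l : Cm d →L[ℝ] ℂ) {K : FI (d + d)} (h : K.card ≠ 1) : o1 l K = 0 := by
  have k : ∀ c, ev {c} K = 0 := fun c =>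
    Pi.single_eq_of_ne (fun e => h (by rw [e, Finset.card_singleton])) _
  simp [o1, Finset.sum_apply, k]

theorem dg_o1 (l : Cm d →L[ℝ] ℂ) : dg 1 *ᵥ o1 l = o1 l := by
  funext K
  rw [dg_mulVec]
  split_ifs with h
  · rfl
  · exact (o1_ne l h).symm

theorem lv_one (u : Fo d) (j : Fin d) : lv u (Pi.single j 1) = u {hl j} + u {ah j} := by
  simp [lv_ap, Rot.cx_one, mul_add, Finset.sum_add_distrib, Pi.single_apply]

theorem lv_I (u : Fo d) (j : Fin d) : lv u (Pi.single j I) = I * u {hl j} - I * u {ah j} := by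
  simp [lv_ap, Rot.cx_I, mul_add, Finset.sum_add_distrib, Pi.single_apply]
  ring

theorem lv_o1 (l : Cm d →L[ℝ] ℂ) : lv (o1 l) = l := by
  ext1 v
  have h1 : v = ∑ j, ((v j).re • (Pi.single j 1 : Cm d) + (v j).im • (Pi.single j I : Cm d)) := by
    funext k
    simp [Finset.sum_apply, Pi.single_apply, Finset.sum_add_distrib]
  rw [h1, map_sum, map_sum]
  refine Finset.sum_congr rfl fun j _ => ?_
  rw [map_add, map_add, map_smul, map_smul, map_smul, map_smul, lv_one, lv_I, o1_hl, o1_ah]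
  congr 2
  · ring
  · linear_combination (-l (Pi.single j I)) * I_sq

theorem o1_lv (u : Fo d) : o1 (lv u) = dg 1 *ᵥ u := by
  funext K
  rw [dg_mulVec]
  split_ifs with h
  · obtain ⟨c, rfl⟩ := Finset.card_eq_one.1 h
    refine F1bH.idx (P := fun c => o1 (lv u) {c} = u {c}) (fun j => ?_) (fun j => ?_) c
    · rw [o1_hl, lv_one, lv_I]
      linear_combination (-(u {hl j} - u {ah j}) / 2) * I_sq
    · rw [o1_ah, lv_one, lv_I]
      linear_combination ((u {hl j} - u {ah j}) / 2) * I_sq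
  · exact o1_ne _ h

theorem lv_cd {m : WithTop ℕ∞} : ContDiff ℝ m (lv : Fo d → Cm d →L[ℝ] ℂ) :=
  ContDiff.sum fun c _ => (contDiff_apply ℝ ℂ ({c} : FI (d + d))).smul_const (cxL c)

theorem o1_cd : ContDiff ℝ ∞ (o1 : (Cm d →L[ℝ] ℂ) → Fo d) := by
  have h : ∀ v : Cm d, ContDiff ℝ ∞ fun l : Cm d →L[ℝ] ℂ => l v := fun v =>
    contDiff_id.clm_apply contDiff_const
  refine ContDiff.add (ContDiff.sum fun j _ => ?_) (ContDiff.sum fun j _ => ?_)
  · exact (((h _).sub (contDiff_const.mul (h _))).div_const _).smul_const _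
  · exact (((h _).add (contDiff_const.mul (h _))).div_const _).smul_const _

theorem lv_jc {ψ : Cm d → Cm d} {z : Cm d} (u : Fo d) (h : DifferentiableAt ℝ ψ z) :
    lv (lam (jc ψ z) *ᵥ u) = (lv u).comp (fderiv ℝ ψ z) := by
  ext1 v
  rw [ContinuousLinearMap.comp_apply, lv_eq, lv_eq, Matrix.mulVec_mulVec, iotV_lam,
    ← Matrix.mulVec_mulVec, Rot.lam_empty, Rot.cx_jc h]

theorem lv_cjv (u : Fo d) (v : Cm d) : lv (cjv u) v = star (lv u v) := by
  rw [lv_eq, cjv, Matrix.mulVec_mulVec, iotV_lam, ← Matrix.mulVec_mulVec, Rot.lam_empty,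
    Rot.cx_swm, iot_ap, lv_ap]
  simp only [star_sum, star_mul', Pi.star_apply]

theorem bv_dT {u : Cm d → Fo d} {z : Cm d} (v v' : Cm d) (hu : DifferentiableAt ℝ u z) :
    bv (dT u z) v v' = dl (fun y => lv (u y)) z v v' := by
  have h : DifferentiableAt ℝ (fun y => lv (u y)) z :=
    ((lv_cd (m := 1)).differentiable one_ne_zero _).comp z hu
  have k : ∀ a b : Cm d, fderiv ℝ (fun y => lv (u y)) z a b =
      ∑ c, cx a c * (iotV (cx b) *ᵥ Dv c u z) ∅ := fun a b => by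
    have e := congrArg (· a) (fderiv_clm_apply h (differentiableAt_const b))
    simp only [fderiv_fun_const, Pi.zero_apply, ContinuousLinearMap.comp_zero, zero_add,
      ContinuousLinearMap.flip_apply] at e
    rw [← e, Ka.fd]
    refine Finset.sum_congr rfl fun c _ => ?_
    rw [← Ka.Dv_mul _ hu]
    simp only [lv_eq]
    rfl
  simp only [dl, k, bv, Rot.ev2, dT, Matrix.mulVec_sum, Finset.sum_apply, Rot.iotV_eps_mv,
    Matrix.mulVec_sub, Matrix.mulVec_smul, Pi.sub_apply, Pi.smul_apply, smul_eq_mul,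
    eps_mulVec_empty, sub_zero, Finset.sum_sub_distrib, Finset.sum_const_zero]

end OneH

open OneH in
/-- row ONE -/
theorem one : ONE where
  lv_o1 := lv_o1
  o1_lv := o1_lv
  dg_o1 := dg_o1
  lv_add u u' := by
    ext1 v
    simp only [add_apply, lv_eq, Matrix.mulVec_add, Pi.add_apply]
  lv_sub u u' := by
    ext1 v
    simp only [sub_apply, lv_eq, Matrix.mulVec_sub, Pi.sub_apply]
  lv_smul c u := by
    ext1 v
    simp only [smul_apply, lv_eq, Matrix.mulVec_smul, Pi.smul_apply]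
  o1_zero := by simp [o1]
  lv_cd := lv_cd
  o1_cd := o1_cd
  lv_hol v := by
    simp only [lv_ap]
    fun_prop
  lv_jc := lv_jc
  o1_jc {d ψ z} l h := by
    have k := o1_lv (lam (jc ψ z) *ᵥ o1 l)
    rw [lv_jc _ h, lv_o1, Matrix.mulVec_mulVec, dg_lam, ← Matrix.mulVec_mulVec, dg_o1] at k
    exact k.symm
  lv_ch u e e' x h h' := by
    rw [(vl_isF u).ch e e' x h h']
    exact lv_jc _ ((Rot.at_cd h h').differentiableAt (by simp))
  lv_cjv := lv_cjv
  bv_dT := bv_dT

end Vale.Agent.P301Z.Dg
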