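import Vale.Agent.P301Z.Dg.Sk

/-!
# P301Z, block DEF: the deformed line bundle
-/

open scoped Manifold ContDiff ComplexOrder Topology Matrix
open Filter Set Metric Complex
open Vale.Agent.P272.K Vale.Agent.P299.IX Vale.Agent.P299.IX.Fock
open Vale.Agent.P281Z (Mf)
open Vale.Agent.P281Z.Hg Vale.Agent.P301Z.Lat
open Vale.Agent.P301Z.Rot
open Vale.Agent.P301Z.An (Dy)
open Vale.Agent.P301.H599 (LineBundle IsMetric)

noncomputable section

namespace Vale.Agent.P301Z.Dg

namespace Bun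

variable {d : ℕ}

section top

variable {X : Type} [TopologicalSpace X] {c e : Chart d X} {x : X}

theorem ev_mem (h : x ∈ c.source) {O : Set X} (hO : O ∈ 𝓝 x) :
    ∀ᶠ z in 𝓝 (c x), c.symm z ∈ O :=
  (c.continuousAt_symm (c.map_source h)).eventually_mem (by rwa [c.left_inv h])

theorem ev_comp {G : Type} (F : X → G) (h : x ∈ c.source) (h' : x ∈ e.source) :
    (fun z => F (c.symm z)) =ᶠ[𝓝 (c x)] fun z => F (e.symm (trn c e z)) := by
  filter_upwards [ev_mem h (e.open_source.mem_nhds h')] with z hz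
  simp only [trn, e.left_inv hz]

theorem fd_comp {G : Type} [NormedAddCommGroup G] [NormedSpace ℝ G] (F : X → G)
    (h : x ∈ c.source) (h' : x ∈ e.source) (d1 : ContDiffAt ℝ ∞ (trn c e) (c x))
    (d2 : DifferentiableAt ℝ (fun z => F (e.symm z)) (e x)) :
    HasFDerivAt (fun z => F (c.symm z))
      ((fderiv ℝ (fun z => F (e.symm z)) (e x)).comp (fderiv ℝ (trn c e) (c x))) (c x) := by
  have k : HasFDerivAt (fun z => F (e.symm z)) (fderiv ℝ (fun z => F (e.symm z)) (e x))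
      (trn c e (c x)) := by
    rw [trn_at e h]
    exact d2.hasFDerivAt
  exact (k.comp _ (d1.differentiableAt (by simp)).hasFDerivAt).congr_of_eventuallyEq
    (ev_comp F h h')

theorem cd_comp {G : Type} [NormedAddCommGroup G] [NormedSpace ℝ G] (F : X → G)
    (h : x ∈ c.source) (h' : x ∈ e.source) (d1 : ContDiffAt ℝ ∞ (trn c e) (c x))
    (d2 : ContDiffAt ℝ ∞ (fun z => F (e.symm z)) (e x)) :
    ContDiffAt ℝ ∞ (fun z => F (c.symm z)) (c x) := by
  rw [← trn_at e h] at d2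
  exact (d2.comp _ d1).congr_of_eventuallyEq (ev_comp F h h')

end top

variable {V : Mf d} {Om : Fs V} {e e' c : Chart d V.X} {x : V.X}

/-- functions with complex linear differential are holomorphic in adapted charts -/
theorem an (H : Cov Om) (hc : Adp Om c) (hx : x ∈ c.source) {O : Set V.X} (hO : O ∈ 𝓝 x)
    (F : V.X → ℂ) (h : ∀ y ∈ O, At e y ∧ DifferentiableAt ℝ (fun z => F (e.symm z)) (e y) ∧
      CL (vl Om e (e y)) (fderiv ℝ (fun z => F (e.symm z)) (e y))) :
    AnalyticAt ℂ (fun z => F (c.symm z)) (c x) := by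
  refine P299.H954.analyticAt_of_dzb ?_
  filter_upwards [ev_mem hx hO, c.open_target.mem_nhds (c.map_source hx)] with z hz ht
  obtain ⟨h1, h2, h3⟩ := h _ hz
  have hy := c.map_target ht
  obtain ⟨a1, a2, a3⟩ := hc e _ h1 hy
  have k := fd_comp F hy h1.2 a2 h2
  have lin : ∀ v, fderiv ℝ (fun z => F (c.symm z)) (c (c.symm z)) (I • v) =
      I * fderiv ℝ (fun z => F (c.symm z)) (c (c.symm z)) v := fun v => by
    obtain ⟨a', ha⟩ := H.cs e _ h1 (fderiv ℝ (trn c e) (c (c.symm z)) v)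
    have k1 := a3 _ _ ha
    rw [trn_inv hy h1.2 a2 a1] at k1
    rw [k.fderiv, ContinuousLinearMap.comp_apply, ContinuousLinearMap.comp_apply, ← k1,
      trn_inv h1.2 hy a1 a2, h3 _ _ ha, smul_eq_mul]
  rw [c.right_inv ht] at k lin
  refine ⟨k.differentiableAt, fun l => ?_⟩
  have k2 : (Pi.single l I : Cm d) = I • Pi.single l 1 := by
    rw [← Pi.single_smul, smul_eq_mul, mul_one]
  rw [dzb, k2, lin, ← mul_assoc, I_mul_I]
  simp

theorem uq {l : Cm d → ℂ} (h1 : ∀ v, l (I • v) = I * l v) (h2 : ∀ v, l v + star (l v) = 0)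
    (v : Cm d) : l v = 0 := by
  have a := congrArg re (h2 v)
  have b := congrArg re (h2 (I • v))
  rw [h1] at b
  apply Complex.ext
  · simp at a ⊢
    linarith
  · simp at b ⊢
    linarith

theorem fd_lin {G : Cm d → ℂ} {z : Cm d} (h : DifferentiableAt ℂ G z) (v : Cm d) :
    fderiv ℝ G z (I • v) = I * fderiv ℝ G z v := by
  rw [h.fderiv_restrictScalars ℝ]
  simp

theorem fd_log {G : Cm d → ℂ} {z : Cm d} (h : DifferentiableAt ℝ G z) (h0 : G z ≠ 0) (v : Cm d) :
    ((fderiv ℝ (fun y => Real.log (‖G y‖ ^ 2)) z v : ℝ) : ℂ) =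
      fderiv ℝ G z v / G z + star (fderiv ℝ G z v / G z) := by
  have k := (h.hasFDerivAt.norm_sq.log (pow_ne_zero 2 (norm_ne_zero_iff.2 h0))).fderiv
  rw [k, star_def, add_conj, div_re, normSq_eq_norm_sq]
  refine congrArg _ ?_
  simp [Complex.inner]
  ring

variable {ι : Type} {L : LineBundle d V.X ι} {ρ : ι → V.X → ℝ} {i j : ι}

/-- change of frame and chart for the differential of the weight -/
theorem del_ch (hD : DL) (hm : IsMetric L ρ) (h : At e x) (h' : At e' x) (hi : x ∈ L.U i)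
    (hj : x ∈ L.U j) (v : Cm d) :
    del (fun z => ρ i (e.symm z)) (e x) v =
      del (fun z => ρ j (e'.symm z)) (e' x) (fderiv ℝ (trn e e') (e x) v) +
        fderiv ℝ (fun z => L.g i j (e.symm z)) (e x) v / L.g i j x := by
  have g1 := (L.holo i j e x h hi hj).differentiableAt
  have g2 : DifferentiableAt ℝ (fun z => L.g i j (e.symm z)) (e x) := g1.restrictScalars ℝ
  have g0 : (fun z => L.g i j (e.symm z)) (e x) ≠ 0 := by
    simp only [e.left_inv h.2]
    exact L.ne_zero i j x hi hj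
  have r1 := (hm.smooth i e x h hi).differentiableAt (by simp)
  have r2 := (hm.smooth j e' x h' hj).differentiableAt (by simp)
  have r3 := fd_comp (ρ j) h.2 h'.2 (at_cd h h') r2
  have r4 : (fun z => ρ i (e.symm z)) =ᶠ[𝓝 (e x)]
      fun z => ρ j (e.symm z) + Real.log (‖L.g i j (e.symm z)‖ ^ 2) := by
    filter_upwards [ev_mem h.2 ((L.isOpen i).mem_nhds hi), ev_mem h.2 ((L.isOpen j).mem_nhds hj)]
      with z h1 h2
    exact hm.change i j _ h1 h2
  have r5 : DifferentiableAt ℝ (fun z => Real.log (‖L.g i j (e.symm z)‖ ^ 2)) (e x) :=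
    (g2.norm_sq ℝ).log (pow_ne_zero 2 (norm_ne_zero_iff.2 g0))
  rw [← sub_eq_zero]
  refine uq (l := fun v => del (fun z => ρ i (e.symm z)) (e x) v -
    (del (fun z => ρ j (e'.symm z)) (e' x) (fderiv ℝ (trn e e') (e x) v) +
      fderiv ℝ (fun z => L.g i j (e.symm z)) (e x) v / L.g i j x)) (fun v => ?_) (fun v => ?_) v
  · simp only [fd_jac h h', Matrix.mulVec_smul, hD.del_lin, fd_lin g1]
    ring
  · have a1 := hD.del_re v r1
    have a2 := hD.del_re (fderiv ℝ (trn e e') (e x) v) r2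
    have a3 := fd_log g2 g0 v
    rw [r4.fderiv_eq, fderiv_fun_add r3.differentiableAt r5, r3.fderiv,
      _root_.add_apply, ContinuousLinearMap.comp_apply, ofReal_add, a3, ← a2] at a1
    simp only [e.left_inv h.2] at a1
    simp only [star_sub, star_add]
    linear_combination a1

variable {b : ℕ} {a : Cm b → Fs V}

theorem cn_ch (h1 : ONE) (hD : DL) (hm : IsMetric L ρ) (h : At e x) (h' : At e' x)
    (hi : x ∈ L.U i) (hj : x ∈ L.U j) (t : Cm b) (v : Cm d) :
    cn ρ a j e' (t, e' x) (fderiv ℝ (trn e e') (e x) v) = cn ρ a i e (t, e x) v +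
      fderiv ℝ (fun z => L.g i j (e.symm z)) (e x) v / L.g i j x := by
  simp only [cn, _root_.sub_apply, _root_.neg_apply,
    _root_.smul_apply, h1.lv_ch (a t) h h', ContinuousLinearMap.comp_apply,
    del_ch hD hm h h' hi hj v]
  ring

variable {Ω : Cm b → Fs V} {r : ℝ} {N : ℕ}

theorem f_cd (D : GD Ω L ρ a r N) {t : Cm b} (ht : t ∈ ball (0 : Cm b) r) {k : Fin N}
    (hk : x ∈ D.U k) : ContDiffAt ℝ ∞ (fun z => D.f k (t, z)) (D.e k x) :=
  (D.lq t ht k x hk).fsm.comp _ (contDiffAt_const.prodMk contDiffAt_id)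

theorem f_ev (D : GD Ω L ρ a r N) (t : Cm b) {k : Fin N} (hk : x ∈ D.U k) :
    (fun z => D.f k (t, D.e k ((D.e k).symm z))) =ᶠ[𝓝 (D.e k x)] fun z => D.f k (t, z) := by
  filter_upwards [(D.e k).eventually_right_inverse' (D.mem k x hk).1.2] with z hz
  rw [hz]

theorem g_cl (h1 : ONE) (hD : DL) (hm : IsMetric L ρ) (D : GD Ω L ρ a r N) {t : Cm b}
    (ht : t ∈ ball (0 : Cm b) r) {k k' : Fin N} (hk : x ∈ D.U k) (hk' : x ∈ D.U k') :
    DifferentiableAt ℝ (fun z => D.g t k k' ((D.e k).symm z)) (D.e k x) ∧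
      CL (vl (Ω t) (D.e k) (D.e k x))
        (fderiv ℝ (fun z => D.g t k k' ((D.e k).symm z)) (D.e k x)) := by
  obtain ⟨h, hi⟩ := D.mem k x hk
  obtain ⟨h', hj⟩ := D.mem k' x hk'
  have f1 : HasFDerivAt (fun z => D.f k (t, D.e k ((D.e k).symm z))) (Dy (D.f k) (t, D.e k x))
      (D.e k x) :=
    ((f_cd D ht hk).differentiableAt (by simp)).hasFDerivAt.congr_of_eventuallyEq (f_ev D t hk)
  have f2 : HasFDerivAt (fun z => D.f k' (t, z)) (Dy (D.f k') (t, D.e k' x))
      (trn (D.e k) (D.e k') (D.e k x)) := by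
    rw [trn_at _ h.2]
    exact ((f_cd D ht hk').differentiableAt (by simp)).hasFDerivAt
  have f3 := f2.comp _ ((at_cd h h').differentiableAt (by simp)).hasFDerivAt
  have g2 : DifferentiableAt ℝ (fun z => L.g (D.i k) (D.i k') ((D.e k).symm z)) (D.e k x) :=
    (L.holo _ _ _ x h hi hj).differentiableAt.restrictScalars ℝ
  have k1 := (f3.sub f1).cexp.mul g2.hasFDerivAt
  have k2 : HasFDerivAt (fun z => D.g t k k' ((D.e k).symm z)) _ (D.e k x) := k1
  refine ⟨k2.differentiableAt, fun v v' hv => ?_⟩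
  have c1 := (D.lq t ht k x hk).fcl v v' hv
  have c2 := (D.lq t ht k' x hk').fcl _ _ (jr_ch h h' hv)
  have g0 := L.ne_zero _ _ x hi hj
  rw [_root_.add_apply, _root_.add_apply, smul_eq_mul] at c1 c2
  rw [cn_ch h1 hD hm h h' hi hj, cn_ch h1 hD hm h h' hi hj] at c2
  rw [k2.fderiv]
  simp only [_root_.add_apply, _root_.smul_apply,
    _root_.sub_apply, ContinuousLinearMap.comp_apply, smul_eq_mul,
    (D.e k).left_inv h.2]
  generalize cexp _ = E
  have c3 := congrArg (fun s => E * L.g (D.i k) (D.i k') x * s) (sub_eq_zero.2 c2)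
  have c4 := congrArg (fun s => E * L.g (D.i k) (D.i k') x * s) (sub_eq_zero.2 c1)
  simp only [mul_zero] at c3 c4
  field_simp at c3
  linear_combination c3 - c4

end Bun

open Bun in
theorem bun_of (h : ONE) (hD : DL) : BUN := by
  intro d b V ι Ω L ρ a r N D hm t ht H
  refine ⟨⟨D.U, D.opn, D.cov, D.g t, fun k k' c x hc hk hk' => ?_, fun k k' x hk hk' => ?_,
    fun k k' k'' x hk hk' hk'' => ?_⟩, ⟨rfl, rfl⟩, fun k c x hc hk => ?_, fun k k' x hk hk' => ?_⟩
  · exact an H hc.1 hc.2 (((D.opn k).inter (D.opn k')).mem_nhds ⟨hk, hk'⟩) (D.g t k k')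
      fun y hy => ⟨(D.mem k y hy.1).1, g_cl h hD hm D ht hy.1 hy.2⟩
  · exact mul_ne_zero (exp_ne_zero _) (L.ne_zero _ _ x (D.mem k x hk).2 (D.mem k' x hk').2)
  · simp only [GD.g]
    rw [← L.cocycle _ _ _ x (D.mem k x hk).2 (D.mem k' x hk').2 (D.mem k'' x hk'').2,
      mul_mul_mul_comm, ← exp_add]
    ring_nf
  · obtain ⟨he, hi⟩ := D.mem k x hk
    refine cd_comp (D.wt t k) hc.2 he.2 (hc.1 _ x he hc.2).2.1 ?_
    exact (hm.smooth _ _ x he hi).sub (contDiffAt_const.mul (reCLM.contDiff.contDiffAt.comp _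
      ((f_cd D ht hk).congr_of_eventuallyEq (f_ev D t hk))))
  · have g0 := L.ne_zero _ _ x (D.mem k x hk).2 (D.mem k' x hk').2
    show D.wt t k x = D.wt t k' x + Real.log (‖D.g t k k' x‖ ^ 2)
    simp only [GD.wt, GD.g]
    rw [hm.change _ _ x (D.mem k x hk).2 (D.mem k' x hk').2, norm_mul, mul_pow,
      Real.log_mul (pow_ne_zero 2 (norm_ne_zero_iff.2 (exp_ne_zero _)))
        (pow_ne_zero 2 (norm_ne_zero_iff.2 g0)), norm_exp, Real.log_pow (Real.exp _),
      Real.log_exp, sub_re]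
    push_cast
    ring

end Vale.Agent.P301Z.Dg
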