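import Vale.Agent.P301Z.Dg.Sk

/-!
# P301Z, block DEF: the curvature of the deformed line bundle
-/

open scoped Manifold ContDiff ComplexOrder Topology Matrix
open Filter Set Metric Complex
open Vale.Agent.P272.K Vale.Agent.P299.IX Vale.Agent.P299.IX.Fock
open Vale.Agent.P281Z (Mf)
open Vale.Agent.P281Z.Hg Vale.Agent.P301Z.Lat
open Vale.Agent.P301Z.Rot
open Vale.Agent.P301.H599 (LineBundle IsMetric curvature)

noncomputable section

namespace Vale.Agent.P301Z.Dg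

namespace BuncX

variable {d : ℕ}

theorem alg {f f' r r' a a' : ℂ} (h : f' + (-r' - I * a') = I * (f + (-r - I * a))) :
    I * f + (-I * r + (a + -1 * (1 / 2 * (a - star a - I * (a' - star a'))))) =
      -I * (1 / 2 * (r + star r - (f + star f) - I * (r' + star r' - (f' + star f')))) := by
  have k := congrArg star h
  simp only [star_add, star_mul', star_sub, star_neg, Complex.star_def, conj_I] at k ⊢
  linear_combination (-1 / 2) * h + (-1 / 2) * k + ((r' + (starRingEnd ℂ) r' - f' -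
    (starRingEnd ℂ) f') * (-1 / 2) + (a + (starRingEnd ℂ) a) * (1 / 2)) * I_sq

theorem pt (hD : DL) {ψ : Cm d → Cm d} {w : Cm d} {ρ φ : Cm d → ℝ} {F : Cm d → ℂ}
    {α γ : Cm d →L[ℝ] ℂ} {J : Cm d →L[ℝ] Cm d} (hψ : DifferentiableAt ℝ ψ w)
    (hρ : DifferentiableAt ℝ ρ (ψ w)) (hF : DifferentiableAt ℝ F (ψ w))
    (hφ : φ =ᶠ[𝓝 w] fun w => ρ (ψ w) - 2 * (F (ψ w)).re)
    (hA : ∀ v, fderiv ℝ ψ w (I • v) = J (fderiv ℝ ψ w v))
    (hB : ∀ x, (fderiv ℝ F (ψ w) + (-del ρ (ψ w) - I • α)) (J x) =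
      I • (fderiv ℝ F (ψ w) + (-del ρ (ψ w) - I • α)) x) (hγ : ∀ x, γ x = α x - star (α x)) :
    (I • fderiv ℝ F (ψ w) + ((-I) • del ρ (ψ w) + (α + (-1 : ℂ) • p10 J γ))).comp
      (fderiv ℝ ψ w) = (-I) • del φ w := by
  have h1 := ofRealCLM.hasFDerivAt.comp w (((hρ.hasFDerivAt.comp w hψ.hasFDerivAt).sub
    ((reCLM.hasFDerivAt.comp w (hF.hasFDerivAt.comp w hψ.hasFDerivAt)).const_mul 2)
      ).congr_of_eventuallyEq hφ)
  have h2 : ∀ v, fderiv ℝ (fun y => (φ y : ℂ)) w v =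
      del ρ (ψ w) (fderiv ℝ ψ w v) + star (del ρ (ψ w) (fderiv ℝ ψ w v)) -
        (fderiv ℝ F (ψ w) (fderiv ℝ ψ w v) + star (fderiv ℝ F (ψ w) (fderiv ℝ ψ w v))) := by
    intro v
    rw [hD.del_re _ hρ, Complex.star_def, add_conj, ← ofReal_sub]
    exact congrArg (fun L : Cm d →L[ℝ] ℂ => L v) h1.fderiv
  ext1 v
  have h3 := alg (f := fderiv ℝ F (ψ w) (fderiv ℝ ψ w v)) (r := del ρ (ψ w) (fderiv ℝ ψ w v))
    (f' := fderiv ℝ F (ψ w) (J (fderiv ℝ ψ w v))) (r' := del ρ (ψ w) (J (fderiv ℝ ψ w v)))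
    (a := α (fderiv ℝ ψ w v)) (a' := α (J (fderiv ℝ ψ w v))) (hB (fderiv ℝ ψ w v))
  rw [← hγ, ← hγ, ← h2, ← hA, ← h2, hA] at h3
  exact h3

theorem core (h : ONE) (hD : DL) (hJ : JS) (hL : D11) {b N : ℕ} {V : Mf d} {ι : Type}
    {Ω a : Cm b → Fs V} {L : LineBundle d V.X ι} {ρ : ι → V.X → ℝ} {r : ℝ} (D : GD Ω L ρ a r N)
    {η θ : Fs V} (hm : IsMetric L ρ) (hη : Is11 (curvature L ρ) η) {t : Cm b} (ht : t ∈ ball 0 r)
    (hcs : CsF (Ω t)) (hθ : IsP (Ω t) (a t - (dR V).cj (a t)) θ) {c : Chart d V.X} {y : V.X}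
    (hc : Adp (Ω t) c) (hy : y ∈ c.source) {k : Fin N} (hk : y ∈ D.U k)
    (hφ : ContDiffAt ℝ ∞ (fun z => D.wt t k (c.symm z)) (c y)) (v v' : Cm d) :
    bv (vl (η + (dR V).d (a t) - (dR V).d θ) (D.e k) (D.e k y)) (fderiv ℝ (trn c (D.e k)) (c y) v)
      (fderiv ℝ (trn c (D.e k)) (c y) v') =
      bv (f11 (cHess (fun z => D.wt t k (c.symm z)) (c y))) v v' := by
  have hF : ∀ x ∈ D.U k, ContDiffAt ℝ ∞ (fun z => D.f k (t, z)) (D.e k x) := fun x hx =>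
    (D.lq t ht k x hx).fsm.comp _ (contDiffAt_const.prodMk contDiffAt_id)
  have hρ : ∀ x ∈ D.U k, ContDiffAt ℝ ∞ (fun z => ρ (D.i k) ((D.e k).symm z)) (D.e k x) :=
    fun x hx => hm.smooth _ _ x (D.mem k x hx).1 (D.mem k x hx).2
  have he := (D.mem k y hk).1
  have n0 : (∞ : WithTop ℕ∞) ≠ 0 := by simp
  have hs : ∀ u : Fs V, DifferentiableAt ℝ (vl u (D.e k)) (D.e k y) := fun u =>
    ((vl_isF u).sm _ y he).differentiableAt n0
  have hl : ∀ u : Fs V, DifferentiableAt ℝ (fun z => lv (vl u (D.e k) z)) (D.e k y) := fun u =>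
    (h.lv_cd.differentiable n0 _).comp _ (hs u)
  have d1 : DifferentiableAt ℝ (fderiv ℝ fun z => D.f k (t, z)) (D.e k y) :=
    ((hF y hk).fderiv_right (m := ∞) (by simp)).differentiableAt n0
  have d2 := (hD.del_cd (hρ y hk)).differentiableAt n0
  have d3 := (hl θ).fun_const_smul (-1 : ℂ)
  have d4 := (hl (a t)).fun_add d3
  have d5 := (d2.fun_const_smul (-I)).fun_add d4
  have d6 := (d1.fun_const_smul I).fun_add d5
  have a2 := (hc _ y he hy).2.1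
  have e0 : trn c (D.e k) (c y) = D.e k y := trn_at _ hy
  have k1 := hD.del_dl v v' hφ
  have k2 := hD.smul _ (-I) _ _ v v' ((hD.del_cd hφ).differentiableAt n0)
  have k3 := hD.pb _ _ (trn c (D.e k)) _ (c y) v v' a2 (e0.symm ▸ d6)
  have k4 := hD.congr _ _ _ (c y) (show (fun w => (I • fderiv ℝ (fun z => D.f k (t, z))
      (trn c (D.e k) w) + ((-I) • del (fun z => ρ (D.i k) ((D.e k).symm z)) (trn c (D.e k) w) +
        (lv (vl (a t) (D.e k) (trn c (D.e k) w)) +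
          (-1 : ℂ) • lv (vl θ (D.e k) (trn c (D.e k) w))))).comp (fderiv ℝ (trn c (D.e k)) w))
      =ᶠ[𝓝 (c y)] fun w => (-I) • del (fun z => D.wt t k (c.symm z)) w by
    have o1 : ∀ x ∈ c.source, x ∈ D.U k → ∀ᶠ w in 𝓝 (c x), c.symm w ∈ D.U k := fun x hx hx' =>
      (c.continuousAt_symm (c.map_source hx)).eventually_mem
        (by rw [c.left_inv hx]; exact (D.opn k).mem_nhds hx')
    filter_upwards [o1 y hy hk, c.open_target.mem_nhds (c.map_source hy)] with w hw hw'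
    obtain ⟨x, hx, rfl⟩ : ∃ x ∈ c.source, c x = w := ⟨_, c.map_target hw', c.right_inv hw'⟩
    rw [c.left_inv hx] at hw
    have he' := (D.mem k x hw).1
    obtain ⟨b1, b2, b3⟩ := hc _ x he' hx
    have e1 : trn c (D.e k) (c x) = D.e k x := trn_at _ hx
    have hj := hJ.jr (hcs _ x he')
    have k5 := pt hD (α := lv (vl (a t) (D.e k) (D.e k x)))
      (γ := lv (vl (a t - (dR V).cj (a t)) (D.e k) (D.e k x))) (J := Jf (vl (Ω t) (D.e k) (D.e k x)))
      (φ := fun z => D.wt t k (c.symm z)) (b2.differentiableAt n0)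
      (e1.symm ▸ (hρ x hw).differentiableAt n0) (e1.symm ▸ (hF x hw).differentiableAt n0)
      (by
        filter_upwards [o1 x hx hw] with w' hw'
        simp only [GD.wt, trn, (D.e k).left_inv (D.mem k _ hw').1.2])
      (fun v => by
        have k6 := b3 _ _ (hj (fderiv ℝ (trn c (D.e k)) (c x) v))
        rw [trn_inv hx he'.2 b2 b1] at k6
        rw [← k6, trn_inv he'.2 hx b1 b2])
      (fun v => by
        rw [e1]
        exact (D.lq t ht k x hw).fcl _ _ (hj v))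
      fun v => by rw [vl_sub, h.lv_sub, (dR_real V).cj _ _ x he', sub_apply, h.lv_cjv]
    rw [e1] at k5 ⊢
    rw [hθ _ x he', h.lv_o1]
    exact k5)
  rw [k4, k2, k1, e0, hD.add _ _ _ _ _ _ (d1.fun_const_smul I) d5, hD.smul _ _ _ _ _ _ d1,
    hD.fd _ _ _ _ _ (hF y hk), hD.add _ _ _ _ _ _ (d2.fun_const_smul (-I)) d4,
    hD.smul _ _ _ _ _ _ d2, hD.del_dl _ _ (hρ y hk), hD.add _ _ _ _ _ _ (hl _) d3,
    hD.smul _ _ _ _ _ _ (hl θ), ← h.bv_dT _ _ (hs _), ← h.bv_dT _ _ (hs _)] at k3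
  rw [vl_sub, vl_add, bv_sub, bv_add, hη _ y he, (hL.curv hm).2 _ _ y he (D.mem k y hk).2,
    (dR_real V).d _ _ y he, (dR_real V).d _ _ y he]
  change bv (f11 (cHess _ _)) _ _ + _ - _ = _
  linear_combination -k3 + (bv (f11 (cHess (fun z => ρ (D.i k) ((D.e k).symm z)) (D.e k y)))
    (fderiv ℝ (trn c (D.e k)) (c y) v) (fderiv ℝ (trn c (D.e k)) (c y) v') -
      bv (f11 (cHess (fun z => D.wt t k (c.symm z)) (c y))) v v') * I_sq

end BuncX

theorem bunc_of (h : ONE) (hD : DL) (hJ : JS) (hL : D11) : BUNC := by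
  intro d b V ι Ω L ρ a r N D η θ hm hη t ht hcs hθ hcl H M T hM hm' hT c y hc
  obtain ⟨k, hk⟩ := D.cov y
  have hy : y ∈ M.U k := by rw [hM.1]; exact hk
  refine bv_ext (cl_dg (cl_pb (smo_idOf_symm H) hT hcl) hc) (dg_om _) fun v v' => ?_
  rw [(hL.curv hm').2 k c y hc hy]
  exact (bv_pb (smo_idOf_symm H) hT _ hc (D.mem k y hk).1 v v').trans
    (BuncX.core h hD hJ hL D hm hη ht hcs hθ hc.1 hc.2 hk (hm'.smooth k c y hc hy) v v')

end Vale.Agent.P301Z.Dg
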