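import Vale.Agent.P301Z.Dg.Sk

/-!
# P301Z, block DEF, geometric half: adapted charts and the holomorphic family of pairs
-/

open scoped Manifold ContDiff Topology
open Filter Set Metric
open Vale.Agent.P272.K
open Vale.Agent.P301Z.Rot (Adp adp_of_W trn mfOf idOf)

noncomputable section

namespace Vale.Agent.P301Z.Dg

theorem ade : ADE := by
  intro d b V ι Ω L ρ a r N D t ht k e y he hy
  rw [D.src t ht] at hy
  have h0 := (D.mem k y hy).1
  have hO := (D.opn k).mem_nhds hy
  have h1 : ∀ᶠ z in 𝓝 (D.e k y), (D.e k).symm z ∈ D.U k :=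
    ((D.e k).continuousAt_symm h0.mem_target).eventually_mem (by rwa [h0.left_inv])
  obtain ⟨c, c1, c2, c3, c4⟩ := adp_of_W (Om := Ω t) (W := fun z => D.W k (t, z)) h0 hO (by
    filter_upwards [h0.nhds_target, h1] with z hz hz'
    have h2 := D.lq t ht k _ hz'
    rw [(D.e k).right_inv hz] at h2
    exact ⟨h2.Wsm.comp z (contDiffAt_const.prodMk contDiffAt_id), h2.Wbij, h2.Wcl⟩)
  have h2 : ∀ x ∈ D.U k, D.E t k x = c x := fun x hx => (D.val t ht k x hx).trans (c4 x).symm
  obtain ⟨k1, k2, k3⟩ := c1 e y he c2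
  have h3 : trn e (D.E t k) =ᶠ[𝓝 (e y)] trn e c := by
    filter_upwards [(e.continuousAt_symm he.mem_target).eventually_mem
      (show D.U k ∈ 𝓝 (e.symm (e y)) by rwa [he.left_inv])] with z hz
    exact h2 _ hz
  have h4 : trn (D.E t k) e =ᶠ[𝓝 (c y)] trn c e := by
    filter_upwards [c.open_target.mem_nhds (c.map_source c2)] with z hz
    have k4 := (c3 (c.map_target hz)).2
    have k5 := (D.E t k).left_inv (x := c.symm z) (by rwa [D.src t ht])
    rw [h2 _ k4, c.right_inv hz] at k5
    exact congrArg e k5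
  rw [h2 y hy, h3.fderiv_eq]
  exact ⟨k1.congr_of_eventuallyEq h3, k2.congr_of_eventuallyEq h4, k3⟩

theorem cf_of (h : ADE) : CF := by
  intro d b V ι Ω L ρ a r N D π H M hπ hM
  have hb : ∀ t ∈ ball (0 : Cm b) r, π t ∈ ball (0 : Cm b) r := fun t ht => by rwa [hπ t ht]
  have hv : ∀ t ∈ ball (0 : Cm b) r, ∀ k, ∀ x ∈ D.U k, D.E (π t) k x = D.W k (t, D.e k x) :=
    fun t ht k x hx => by rw [hπ t ht, D.val t ht k x hx]
  have hg : ∀ t ∈ ball (0 : Cm b) r, ∀ k k' (x : V.X), (M t).g k k' x = D.g t k k' x :=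
    fun t ht k k' x => by rw [(hM t).2, hπ t ht]
  have hc : ∀ k, ∀ p : Cm b × V.X, p.2 ∈ D.U k →
      ContinuousAt (fun p : Cm b × V.X => (p.1, D.e k p.2)) p := fun k p hp =>
    continuousAt_fst.prodMk (((D.e k).continuousAt (D.mem k _ hp).1.2).comp continuousAt_snd)
  have hL : ∀ k k', ∀ x ∈ D.U k ∩ D.U k', ContinuousAt (L.g (D.i k) (D.i k')) x := by
    intro k k' x hx
    have he := (D.mem k x hx.1).1
    refine ((L.holo _ _ _ x he (D.mem k x hx.1).2 (D.mem k' x hx.2).2).continuousAt.comp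
      (f := D.e k) ((D.e k).continuousAt he.2)).congr ?_
    filter_upwards [(D.e k).open_source.mem_nhds he.2] with y hy
    exact congrArg _ ((D.e k).left_inv hy)
  refine ⟨{
    φ := fun t => idOf (H t)
    V := D.U
    e := fun t k => D.E (π t) k
    i := fun _ k => k
    isOpen := D.opn
    cover := D.cov
    chart := fun t ht k => IsManifold.subset_maximalAtlas (h D (π t) (hb t ht) k)
    source := fun t ht k x hx => ⟨(D.src _ (hb t ht) k).symm ▸ hx, (hM t).1.symm ▸ hx⟩
    hol := fun k x hx => DifferentiableOn.congr (f := fun t => D.W k (t, D.e k x))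
      (fun t ht => (D.lq t ht k x hx).Whol.differentiableWithinAt) fun t ht => hv t ht k x hx
    cont := fun k => ContinuousOn.congr (f := fun p : Cm b × V.X => D.W k (p.1, D.e k p.2))
      (fun p hp => ((D.lq _ hp.1 k _ hp.2).Wsm.continuousAt.comp
        (f := fun p : Cm b × V.X => (p.1, D.e k p.2)) (hc k p hp.2)).continuousWithinAt)
      fun p hp => hv _ hp.1 k _ hp.2
    holg := fun k k' x hx => DifferentiableOn.congr (f := fun t => D.g t k k' x)
      (fun t ht => (((D.lq t ht k' x hx.2).fhol.sub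
        (D.lq t ht k x hx.1).fhol).cexp.mul_const _).differentiableWithinAt)
      fun t ht => hg t ht k k' x
    contg := fun k k' => ContinuousOn.congr (f := fun p : Cm b × V.X => D.g p.1 k k' p.2)
      (fun p hp => ?_) fun p hp => hg _ hp.1 k k' _ }⟩
  exact ((((D.lq _ hp.1 k' _ hp.2.2).fsm.continuousAt.comp
    (f := fun p : Cm b × V.X => (p.1, D.e k' p.2)) (hc k' p hp.2.2)).sub
    ((D.lq _ hp.1 k _ hp.2.1).fsm.continuousAt.comp
    (f := fun p : Cm b × V.X => (p.1, D.e k p.2)) (hc k p hp.2.1))).cexp.mul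
    ((hL k k' _ hp.2).comp continuousAt_snd)).continuousWithinAt

end Vale.Agent.P301Z.Dg
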