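import Vale.Agent.P301Z.Dg.Sk

/-!
# P301Z, block DEF, row COEF: analytic coefficients along the tangent space of the quadric
-/

open scoped Manifold ContDiff ComplexOrder Topology Matrix
open Filter Set Metric Complex
open Vale.Agent.P272.K
open Vale.Agent.P301Z.Lat

noncomputable section

namespace Vale.Agent.P301Z.Dg

namespace CoefH

variable {r b : ℕ}

lemma q_add (q : Matrix (Fin r) (Fin r) ℤ) (x y z : Fin r → ℂ) :
    qC q x (y + z) = qC q x y + qC q x z := by
  simp only [qC, Pi.add_apply, mul_add, Finset.sum_add_distrib]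

lemma q_smul (q : Matrix (Fin r) (Fin r) ℤ) (c : ℂ) (x y : Fin r → ℂ) :
    qC q x (c • y) = c * qC q x y := by
  simp only [qC, Pi.smul_apply, smul_eq_mul, Finset.mul_sum]
  exact Finset.sum_congr rfl fun i _ => Finset.sum_congr rfl fun j _ => by ring

lemma q_comm {q : Matrix (Fin r) (Fin r) ℤ} (hq : qᵀ = q) (x y : Fin r → ℂ) :
    qC q x y = qC q y x := by
  simp only [qC]
  rw [Finset.sum_comm]
  refine Finset.sum_congr rfl fun i _ => Finset.sum_congr rfl fun j _ => ?_
  have : q j i = q i j := by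
    have := congrFun (congrFun hq i) j
    simpa [Matrix.transpose_apply] using this
  rw [this]
  ring

lemma q_zero (q : Matrix (Fin r) (Fin r) ℤ) (x : Fin r → ℂ) : qC q x 0 = 0 := by
  simp [qC]

/-- the form as a continuous bilinear map -/
def qL (q : Matrix (Fin r) (Fin r) ℤ) : (Fin r → ℂ) →L[ℂ] (Fin r → ℂ) →L[ℂ] ℂ :=
  ∑ i, ∑ j, (q i j : ℂ) •
    (ContinuousLinearMap.proj (R := ℂ) (φ := fun _ : Fin r => ℂ) i).smulRight
      (ContinuousLinearMap.proj (R := ℂ) (φ := fun _ : Fin r => ℂ) j)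

lemma qL_apply (q : Matrix (Fin r) (Fin r) ℤ) (x y : Fin r → ℂ) : qL q x y = qC q x y := by
  simp [qL, qC]

/-- the derivative of an isotropic curve is orthogonal to it -/
lemma q_fd {q : Matrix (Fin r) (Fin r) ℤ} (hq : qᵀ = q) {p : Cm b → Fin r → ℂ} {t : Cm b}
    (hp : DifferentiableAt ℂ p t) (h0 : ∀ᶠ s in 𝓝 t, qC q (p s) (p s) = 0) (v : Cm b) :
    qC q (p t) (fderiv ℂ p t v) = 0 := by
  have h1 := ((qL q).hasFDerivAt.comp t hp.hasFDerivAt).clm_apply hp.hasFDerivAt
  have h2 : HasFDerivAt (fun s => ((qL q) ∘ p) s (p s)) (0 : Cm b →L[ℂ] ℂ) t := by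
    refine (hasFDerivAt_const (0 : ℂ) t).congr_of_eventuallyEq ?_
    filter_upwards [h0] with s hs
    simp only [Function.comp_apply, qL_apply, hs]
  have h3 := congrArg (fun L : Cm b →L[ℂ] ℂ => L v) (h1.unique h2)
  simp only [add_apply, ContinuousLinearMap.comp_apply, Function.comp_apply,
    ContinuousLinearMap.flip_apply, qL_apply, zero_apply] at h3
  rw [q_comm hq (fderiv ℂ p t v)] at h3
  linear_combination h3 / 2

/-- the frame `p t`, `dp_t`, `w` as one linear map -/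
def Ph (p : Cm b → Fin r → ℂ) (w : Fin r → ℂ) (t : Cm b) : (ℂ × Cm b × ℂ) →L[ℂ] (Fin r → ℂ) :=
  (ContinuousLinearMap.fst ℂ ℂ (Cm b × ℂ)).smulRight (p t) +
    (fderiv ℂ p t).comp ((ContinuousLinearMap.fst ℂ (Cm b) ℂ).comp
      (ContinuousLinearMap.snd ℂ ℂ (Cm b × ℂ))) +
    ((ContinuousLinearMap.snd ℂ (Cm b) ℂ).comp
      (ContinuousLinearMap.snd ℂ ℂ (Cm b × ℂ))).smulRight w

lemma Ph_apply (p : Cm b → Fin r → ℂ) (w : Fin r → ℂ) (t : Cm b) (y : ℂ × Cm b × ℂ) :
    Ph p w t y = y.1 • p t + fderiv ℂ p t y.2.1 + y.2.2 • w := by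
  simp [Ph]

lemma Ph_an {p : Cm b → Fin r → ℂ} (w : Fin r → ℂ) {t : Cm b} (hp : AnalyticAt ℂ p t) :
    ContDiffAt ℂ ω (Ph p w) t := by
  have h1 : ContDiffAt ℂ ω p t := hp.contDiffAt
  have h2 : ContDiffAt ℂ ω (fderiv ℂ p) t := hp.fderiv.contDiffAt
  unfold Ph
  refine (ContDiffAt.add ?_ (h2.clm_comp contDiffAt_const)).add contDiffAt_const
  exact contDiffAt_const.smulRight h1

lemma Ph_inv {q : Matrix (Fin r) (Fin r) ℤ} (hq : qᵀ = q) {p : Cm b → Fin r → ℂ}
    (hp : AnalyticAt ℂ p 0) (hb : b + 2 = r) (h0 : ∀ᶠ t in 𝓝 (0 : Cm b), qC q (p t) (p t) = 0)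
    (hi : ∀ (c : ℂ) (v : Cm b), c • p 0 + fderiv ℂ p 0 v = 0 → c = 0 ∧ v = 0)
    {w : Fin r → ℂ} (hw : qC q (p 0) w ≠ 0) : (Ph p w 0).IsInvertible := by
  have hinj : Function.Injective (Ph p w 0).toLinearMap := by
    rw [← LinearMap.ker_eq_bot, LinearMap.ker_eq_bot']
    intro y hy
    have hy' : Ph p w 0 y = 0 := hy
    rw [Ph_apply] at hy'
    have h1 := congrArg (qC q (p 0)) hy'
    rw [q_add, q_add, q_smul, q_smul, h0.self_of_nhds, q_fd hq hp.differentiableAt h0, q_zero] at h1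
    have h2 : y.2.2 = 0 := by
      have : y.2.2 * qC q (p 0) w = 0 := by linear_combination h1
      exact (mul_eq_zero.1 this).resolve_right hw
    rw [h2, zero_smul, add_zero] at hy'
    obtain ⟨h3, h4⟩ := hi _ _ hy'
    exact Prod.ext h3 (Prod.ext h4 h2)
  have hd : Module.finrank ℂ (ℂ × Cm b × ℂ) = Module.finrank ℂ (Fin r → ℂ) := by
    simp only [Module.finrank_prod, Module.finrank_self, Module.finrank_fintype_fun_eq_card,
      Fintype.card_fin]
    omega
  exact ⟨(LinearMap.linearEquivOfInjective _ hinj hd).toContinuousLinearEquiv, by ext y <;> rfl⟩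

end CoefH

open CoefH in
theorem coef : COEF := by
  intro r b q p hq hp hb h0 hi hw
  set w := star (p 0) with hwd
  have hI := Ph_inv hq hp hb h0 hi hw
  have hA : ContDiffAt ℂ ω (Ph p w) 0 := Ph_an w hp
  have hB : AnalyticAt ℂ (fun t => ContinuousLinearMap.inverse (Ph p w t)) 0 :=
    ((hI.contDiffAt_map_inverse (n := ω)).comp 0 hA).analyticAt
  have hU : ∀ᶠ t in 𝓝 (0 : Cm b), (Ph p w t).IsInvertible := by
    obtain ⟨e, he⟩ := hI
    have := hA.continuousAt (he ▸ ContinuousLinearEquiv.nhds e)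
    filter_upwards [this] with t ht
    exact ht
  have hW : ∀ᶠ t in 𝓝 (0 : Cm b), qC q (p t) w ≠ 0 := by
    have hc : ContinuousAt (fun t => qC q (p t) w) 0 := by
      have := (((qL q).continuous.continuousAt.comp hp.continuousAt).clm_apply
        (continuousAt_const (y := w)))
      simpa only [Function.comp_apply, qL_apply] using this
    exact hc.eventually_ne hw
  refine ⟨fun t => (LinearMap.fst ℂ ℂ (Cm b × ℂ)).comp
      (ContinuousLinearMap.inverse (Ph p w t)).toLinearMap,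
    fun t => ((LinearMap.fst ℂ (Cm b) ℂ).comp (LinearMap.snd ℂ ℂ (Cm b × ℂ))).comp
      (ContinuousLinearMap.inverse (Ph p w t)).toLinearMap, ?_⟩
  filter_upwards [hB.eventually_analyticAt, hU, hW, hp.eventually_analyticAt,
    h0.eventually_nhds] with t h1 h2 h3 h4 h5 x
  have h6 : AnalyticAt ℂ (fun t => ContinuousLinearMap.inverse (Ph p w t) x) t :=
    ((ContinuousLinearMap.apply ℂ (ℂ × Cm b × ℂ) x).analyticAt _).comp h1
  refine ⟨analyticAt_fst.comp h6, analyticAt_fst.comp (analyticAt_snd.comp h6), fun hx => ?_⟩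
  have h7 := h2.self_apply_inverse x
  rw [Ph_apply] at h7
  have h8 := congrArg (qC q (p t)) h7
  rw [q_add, q_add, q_smul, q_smul, h5.self_of_nhds, q_fd hq h4.differentiableAt h5, hx] at h8
  have h9 : (ContinuousLinearMap.inverse (Ph p w t) x).2.2 = 0 := by
    have : (ContinuousLinearMap.inverse (Ph p w t) x).2.2 * qC q (p t) w = 0 := by
      linear_combination h8
    exact (mul_eq_zero.1 this).resolve_right h3
  rw [h9, zero_smul, add_zero] at h7
  exact h7.symm

end Vale.Agent.P301Z.Dg
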