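import Vale.Agent.P301Z.Dg.Sk

/-!
# P301Z, block DEF, geometric half: the exterior derivative of one-forms
-/

open scoped ContDiff Topology Matrix
open Filter Complex
open Vale.Agent.P272.K
open Vale.Agent.P301Z.Rot (bv bv_f11)

noncomputable section

namespace Vale.Agent.P301Z.Dg

namespace DlA

section gen

variable {E E' : Type} [NormedAddCommGroup E] [NormedSpace ℝ E] [NormedAddCommGroup E']
  [NormedSpace ℝ E']

theorem has_app {l : E → E' →L[ℝ] ℂ} {z : E} (h : DifferentiableAt ℝ l z) (u : E') :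
    HasFDerivAt (fun y => l y u) ((fderiv ℝ l z).flip u) z :=
  (ContinuousLinearMap.apply ℝ ℂ u).hasFDerivAt.comp z h.hasFDerivAt

theorem fd_app {l : E → E' →L[ℝ] ℂ} {z : E} (h : DifferentiableAt ℝ l z) (u : E') (v : E) :
    fderiv ℝ (fun y => l y u) z v = fderiv ℝ l z v u := by
  rw [(has_app h u).fderiv]
  rfl

theorem fd_two {l : E → E' →L[ℝ] ℂ} {z : E} (h : DifferentiableAt ℝ l z) (a b : ℂ) (u u' : E')
    (v : E) : fderiv ℝ (fun y => a * l y u + b * l y u') z v =
      a * fderiv ℝ l z v u + b * fderiv ℝ l z v u' := by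
  have h1 : HasFDerivAt (fun y => a * l y u + b * l y u')
      (a • (fderiv ℝ l z).flip u + b • (fderiv ℝ l z).flip u') z :=
    ((has_app h u).const_mul a).add ((has_app h u').const_mul b)
  rw [h1.fderiv]
  rfl

theorem diff_fd {f : E → E'} {z : E} (h : ContDiffAt ℝ ∞ f z) :
    DifferentiableAt ℝ (fderiv ℝ f) z :=
  (h.fderiv_right (m := ∞) (by simp)).differentiableAt (by simp)

theorem symm_fd {f : E → E'} {z : E} (h : ContDiffAt ℝ ∞ f z) (v v' : E) :
    fderiv ℝ (fderiv ℝ f) z v v' = fderiv ℝ (fderiv ℝ f) z v' v :=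
  (h.isSymmSndFDerivAt (by
    rw [minSmoothness_of_isRCLikeNormedField]
    exact WithTop.coe_le_coe.2 (le_top (a := (2 : ℕ∞))))).eq v v'

end gen

variable {d : ℕ}

theorem expand (L : Cm d →L[ℝ] ℂ) (v : Cm d) :
    L v = ∑ j, ((v j).re * L (Pi.single j 1) + (v j).im * L (Pi.single j I)) := by
  have e : v = ∑ j, ((v j).re • (Pi.single j 1 : Cm d) + (v j).im • (Pi.single j I : Cm d)) := by
    conv_lhs => rw [← Finset.univ_sum_single v]
    refine Finset.sum_congr rfl fun j _ => ?_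
    rw [← Pi.single_smul, ← Pi.single_smul, ← Pi.single_add]
    congr 1
    rw [real_smul, real_smul, mul_one, re_add_im]
  conv_lhs => rw [e]
  rw [map_sum]
  refine Finset.sum_congr rfl fun j _ => ?_
  rw [map_add, map_smul, map_smul, real_smul, real_smul]

theorem sum_hol (L : Cm d →L[ℝ] ℂ) (v : Cm d) :
    ∑ j, v j * (L (Pi.single j 1) - I * L (Pi.single j I)) = L v - I * L (I • v) := by
  rw [expand L v, expand L (I • v), Finset.mul_sum, ← Finset.sum_sub_distrib]
  refine Finset.sum_congr rfl fun j _ => ?_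
  have e := re_add_im (v j)
  simp only [Pi.smul_apply, smul_eq_mul, mul_re, mul_im, I_re, I_im, zero_mul, one_mul, zero_sub,
    zero_add, ofReal_neg]
  linear_combination (-(L (Pi.single j 1) - I * L (Pi.single j I))) * e -
    ((v j).im : ℂ) * L (Pi.single j I) * I_mul_I

theorem sum_anti (L : Cm d →L[ℝ] ℂ) (v : Cm d) :
    ∑ j, (L (Pi.single j 1) + I * L (Pi.single j I)) * star (v j) = L v + I * L (I • v) := by
  rw [expand L v, expand L (I • v), Finset.mul_sum, ← Finset.sum_add_distrib]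
  refine Finset.sum_congr rfl fun j _ => ?_
  have e : star (v j) = ((v j).re : ℂ) - (v j).im * I := by
    apply Complex.ext <;> simp
  simp only [Pi.smul_apply, smul_eq_mul, mul_re, mul_im, I_re, I_im, zero_mul, one_mul, zero_sub,
    zero_add, ofReal_neg]
  rw [e]
  linear_combination (-((v j).im : ℂ) * L (Pi.single j I)) * I_mul_I

theorem del_apply (ρ : Cm d → ℝ) (z v : Cm d) : del ρ z v =
    1 / 2 * fderiv ℝ (fun y => (ρ y : ℂ)) z v +
      -I / 2 * fderiv ℝ (fun y => (ρ y : ℂ)) z (I • v) := by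
  show (1 / 2 : ℂ) * (fderiv ℝ (fun y => (ρ y : ℂ)) z v -
    I * fderiv ℝ (fun y => (ρ y : ℂ)) z (I • v)) = _
  ring

theorem cd_C {ρ : Cm d → ℝ} {z : Cm d} (h : ContDiffAt ℝ ∞ ρ z) :
    ContDiffAt ℝ ∞ (fun y => (ρ y : ℂ)) z := ofRealCLM.contDiff.contDiffAt.comp z h

theorem del_cd {ρ : Cm d → ℝ} {z : Cm d} (h : ContDiffAt ℝ ∞ ρ z) : ContDiffAt ℝ ∞ (del ρ) z := by
  have h1 : ContDiffAt ℝ ∞ (fderiv ℝ fun y => (ρ y : ℂ)) z :=
    (cd_C h).fderiv_right (m := ∞) (by simp)
  exact (h1.sub ((h1.clm_comp contDiffAt_const).const_smul I)).const_smul (1 / 2 : ℂ)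

theorem hess {g : Cm d → ℂ} {z : Cm d} (h : DifferentiableAt ℝ (fderiv ℝ g) z) (v v' : Cm d) :
    4 * (v ⬝ᵥ (Matrix.of fun j k => dz j (dzb k g) z) *ᵥ star v') =
      fderiv ℝ (fderiv ℝ g) z v v' + I * fderiv ℝ (fderiv ℝ g) z v (I • v') -
        I * (fderiv ℝ (fderiv ℝ g) z (I • v) v' + I * fderiv ℝ (fderiv ℝ g) z (I • v) (I • v')) := by
  have e1 : ∀ k w, fderiv ℝ (dzb k g) z w = (fderiv ℝ (fderiv ℝ g) z w (Pi.single k 1) +
      I * fderiv ℝ (fderiv ℝ g) z w (Pi.single k I)) / 2 := by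
    intro k w
    have e : dzb k g = fun y => 1 / 2 * fderiv ℝ g y (Pi.single k 1) +
        I / 2 * fderiv ℝ g y (Pi.single k I) := by
      funext y
      unfold dzb
      ring
    rw [e, fd_two h]
    ring
  have e2 : ∀ j, 4 * ((Matrix.of fun j k => dz j (dzb k g) z) *ᵥ star v') j =
      ((fderiv ℝ (fderiv ℝ g) z).flip v' + I • (fderiv ℝ (fderiv ℝ g) z).flip (I • v'))
        (Pi.single j 1) - I * ((fderiv ℝ (fderiv ℝ g) z).flip v' +
          I • (fderiv ℝ (fderiv ℝ g) z).flip (I • v')) (Pi.single j I) := by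
    intro j
    show 4 * ∑ k, dz j (dzb k g) z * star (v' k) =
      fderiv ℝ (fderiv ℝ g) z (Pi.single j 1) v' +
        I * fderiv ℝ (fderiv ℝ g) z (Pi.single j 1) (I • v') -
      I * (fderiv ℝ (fderiv ℝ g) z (Pi.single j I) v' +
        I * fderiv ℝ (fderiv ℝ g) z (Pi.single j I) (I • v'))
    rw [← sum_anti, ← sum_anti, Finset.mul_sum, Finset.mul_sum, ← Finset.sum_sub_distrib]
    refine Finset.sum_congr rfl fun k _ => ?_
    unfold dz
    rw [e1, e1]
    ring
  have e3 := sum_hol ((fderiv ℝ (fderiv ℝ g) z).flip v' +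
    I • (fderiv ℝ (fderiv ℝ g) z).flip (I • v')) v
  refine Eq.trans ?_ e3
  rw [dotProduct, Finset.mul_sum]
  refine Finset.sum_congr rfl fun j _ => ?_
  rw [← e2]
  ring

end DlA

open DlA in
theorem dlT : DL where
  congr := fun E _ _ _ l l' z h => by
    funext v v'
    unfold dl
    rw [h.fderiv_eq]
  add := fun E _ _ _ l l' z v v' h h' => by
    have e : HasFDerivAt (fun y => l y + l' y) (fderiv ℝ l z + fderiv ℝ l' z) z :=
      h.hasFDerivAt.add h'.hasFDerivAt
    unfold dl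
    rw [e.fderiv]
    simp only [add_apply]
    ring
  smul := fun E _ _ _ c l z v v' h => by
    have e : HasFDerivAt (fun y => c • l y) (c • fderiv ℝ l z) z := h.hasFDerivAt.const_smul c
    unfold dl
    rw [e.fderiv]
    simp only [smul_apply, smul_eq_mul]
    ring
  fd := fun E _ _ _ f z v v' h => by
    unfold dl
    rw [symm_fd h v v', sub_self]
  pb := fun E _ _ _ E' _ _ _ ψ l z v v' hψ hl => by
    have h1 : HasFDerivAt (fun y => l (ψ y)) ((fderiv ℝ l (ψ z)).comp (fderiv ℝ ψ z)) z :=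
      hl.hasFDerivAt.comp z (hψ.differentiableAt (by simp)).hasFDerivAt
    have h2 := (h1.clm_comp (diff_fd hψ).hasFDerivAt).fderiv
    have e : ∀ w w', fderiv ℝ (fun y => (l (ψ y)).comp (fderiv ℝ ψ y)) z w w' =
        l (ψ z) (fderiv ℝ (fderiv ℝ ψ) z w w') +
          fderiv ℝ l (ψ z) (fderiv ℝ ψ z w) (fderiv ℝ ψ z w') := by
      intro w w'
      rw [h2]
      rfl
    unfold dl
    rw [e, e, symm_fd hψ v v']
    ring
  lin := fun E _ _ _ _ _ l z v x h hl => by
    have e : ∀ w u, fderiv ℝ l z w (I • u) = I * fderiv ℝ l z w u := by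
      intro w u
      have e1 : (fun y => l y (I • u)) =ᶠ[𝓝 z] fun y => I * l y u + 0 * l y u :=
        hl.mono fun y hy => by
          show l y (I • u) = I * l y u + 0 * l y u
          rw [hy, zero_mul, add_zero]
      rw [← fd_app h, e1.fderiv_eq, fd_two h, zero_mul, add_zero]
    unfold f1e dl
    simp only [e]
    linear_combination (fderiv ℝ l z v x - fderiv ℝ l z x v) * I_mul_I
  del_cd := del_cd
  del_lin := fun ρ z v => by
    rw [del_apply, del_apply, smul_smul, I_mul_I, neg_smul, one_smul, map_neg]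
    linear_combination (fderiv ℝ (fun y => (ρ y : ℂ)) z (I • v) / 2) * I_mul_I
  del_re := fun {d ρ z} v h => by
    have h1 : HasFDerivAt (fun y => (ρ y : ℂ)) (ofRealCLM.comp (fderiv ℝ ρ z)) z :=
      ofRealCLM.hasFDerivAt.comp z h.hasFDerivAt
    rw [del_apply, h1.fderiv]
    apply Complex.ext <;> simp <;> ring
  del_dl := fun {d ρ z} v v' h => by
    have h1 := diff_fd (cd_C h)
    have h2 : DifferentiableAt ℝ (del ρ) z := (del_cd h).differentiableAt (by simp)
    have e : ∀ w w', fderiv ℝ (del ρ) z w w' =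
        1 / 2 * fderiv ℝ (fderiv ℝ fun y => (ρ y : ℂ)) z w w' +
          -I / 2 * fderiv ℝ (fderiv ℝ fun y => (ρ y : ℂ)) z w (I • w') := by
      intro w w'
      rw [← fd_app h2, ← fd_two h1]
      simp only [del_apply]
    have a1 := hess h1 v v'
    have a2 := hess h1 v' v
    have s1 := symm_fd (cd_C h) v v'
    have s2 := symm_fd (cd_C h) (I • v) v'
    have s3 := symm_fd (cd_C h) (I • v') v
    have s4 := symm_fd (cd_C h) (I • v) (I • v')
    unfold dl
    rw [e, e, bv_f11]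
    unfold cHess
    rw [s1, s2, s4] at a1
    rw [s3] at a2
    rw [s1, ← mul_assoc, I_mul_I]
    linear_combination (1 / 4 : ℂ) * a1 - (1 / 4 : ℂ) * a2

end Vale.Agent.P301Z.Dg
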