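import Vale.Agent.P301Z.Dg.Sk
import Vale.Agent.P277.H60.L.Dolb

/-!
# P301Z, block DEF, geometric half: the lemma of Dolbeault (row DOLC)
-/

open scoped ContDiff Topology
open Filter Set Metric Complex
open Vale.Agent.P272.K Vale.Agent.P277.H60.L

noncomputable section

namespace Vale.Agent.P301Z.Dg

namespace DolcX

theorem lin {n : ℕ} (L : Cm n →L[ℝ] ℂ)
    (h : ∀ j, L (Pi.single j 1) + I * L (Pi.single j I) = 0) (v : Cm n) : L (I • v) = I * L v := by
  have h1 : DifferentiableAt ℂ L 0 := differentiableAt_of_dzb L.differentiableAt fun l => by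
    rw [dzb, L.fderiv, h, zero_div]
  have h2 : ∀ w, L w = fderiv ℂ L 0 w := fun w => by rw [← fderivR_of_holo h1, L.fderiv]
  rw [h2, h2, map_smul, smul_eq_mul]

end DolcX

theorem dolc : DOLC := by
  intro E _ _ _ _ _ β x₀ hβ hc
  have : Module.Finite ℂ E := Module.Finite.of_restrictScalars_finite ℝ ℂ E
  let e : Cm (Module.finrank ℂ E) ≃L[ℂ] E := ContinuousLinearEquiv.ofFinrankEq (by simp)
  let A : Cm (Module.finrank ℂ E) →L[ℝ] E := (e : _ →L[ℂ] E).restrictScalars ℝ
  let A' : E →L[ℝ] Cm (Module.finrank ℂ E) := (e.symm : E →L[ℂ] _).restrictScalars ℝ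
  have hA : ∀ x, A (A' x) = x := e.apply_symm_apply
  have hA' : ∀ z, A' (A z) = z := e.symm_apply_apply
  have hI : ∀ j, A (Pi.single j I) = I • A (Pi.single j 1) := fun j => by
    refine Eq.trans (congrArg A ?_) (e.map_smul I (Pi.single j 1))
    rw [← Pi.single_smul, smul_eq_mul, mul_one]
  have ht : Tendsto A (𝓝 (A' x₀)) (𝓝 x₀) := by
    simpa only [ContinuousAt, hA] using A.continuous.continuousAt (x := A' x₀)
  obtain ⟨R, hR, hb⟩ := Metric.eventually_nhds_iff_ball.1 (ht.eventually (hβ.and hc))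
  have hs : ∀ w : E, ∀ z ∈ ball (A' x₀) R, ContDiffAt ℝ ∞ (fun y => β (A y) w) z := fun w z hz =>
    ((hb z hz).1.comp z A.contDiff.contDiffAt).clm_apply contDiffAt_const
  have hd : ∀ w : E, ∀ z ∈ ball (A' x₀) R, ∀ v,
      fderiv ℝ (fun y => β (A y) w) z v = fderiv ℝ β (A z) (A v) w := fun w z hz v => by
    refine (DFunLike.congr_fun ((((hb z hz).1.differentiableAt (by simp)).hasFDerivAt.comp z
      A.hasFDerivAt).clm_apply (hasFDerivAt_const w z)).fderiv v).trans ?_
    simp
  obtain ⟨u, hu, hu'⟩ := dolbeault (A' x₀) (half_pos hR) (half_lt_self hR)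
    (fun j z => (-1 / 2) * (β (A z) (A (Pi.single j 1)) + I * β (A z) (I • A (Pi.single j 1))))
    (fun j z hz => contDiffAt_const.mul ((hs _ z hz).add (contDiffAt_const.mul (hs _ z hz))))
    (fun i j z hz => by
      have h1 := fun w => (hs w z hz).differentiableAt (by simp)
      have h2 := (hb z hz).2 (A (Pi.single i 1)) (A (Pi.single j 1))
      rw [dzb_const_mul _ ((h1 _).fun_add ((h1 _).const_mul _)),
        dzb_const_mul _ ((h1 _).fun_add ((h1 _).const_mul _)),
        dzb_add (h1 _) ((h1 _).const_mul _), dzb_add (h1 _) ((h1 _).const_mul _),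
        dzb_const_mul _ (h1 _), dzb_const_mul _ (h1 _)]
      simp only [dzb, hd _ z hz, hI]
      simp only [f1e, dl] at h2
      linear_combination (-1 / 4) * h2 + (-1 / 4) *
        (fderiv ℝ β (A z) (I • A (Pi.single i 1)) (I • A (Pi.single j 1)) -
          fderiv ℝ β (A z) (I • A (Pi.single j 1)) (I • A (Pi.single i 1))) * I_mul_I)
  refine ⟨fun x => u (A' x), .of_forall fun x => (hu.comp A'.contDiff).contDiffAt, ?_⟩
  filter_upwards [A'.continuous.continuousAt.eventually (ball_mem_nhds (A' x₀) (half_pos hR))]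
    with x hx v
  have h1 : fderiv ℝ (fun x => u (A' x)) x = (fderiv ℝ u (A' x)).comp A' :=
    ((hu.differentiable (by simp) _).hasFDerivAt.comp x A'.hasFDerivAt).fderiv
  have h2 := DolcX.lin ((fderiv ℝ (fun x => u (A' x)) x + β x).comp A) (fun j => by
    have h3 := hu' j _ hx
    simp only [dzb, hA] at h3
    simp only [h1, ContinuousLinearMap.comp_apply, add_apply, hA']
    rw [hI]
    linear_combination 2 * h3) (A' v)
  have h3 : A (I • A' v) = I • v := (e.map_smul I _).trans (congrArg _ (hA v))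
  rwa [ContinuousLinearMap.comp_apply, ContinuousLinearMap.comp_apply, h3, hA] at h2

end Vale.Agent.P301Z.Dg
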