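import Vale.Agent.P301Z.Dg.Sk
import Vale.Agent.P301Z.An.Cnn

/-!
# P301Z, block DEF, geometric half: finitely many charts over a ball
-/

open scoped Manifold ContDiff Topology
open Filter Set Metric
open Vale.Agent.P272.K
open Vale.Agent.P301Z.An (Dy)

noncomputable section

namespace Vale.Agent.P301Z.Dg

namespace FcX

variable {P E : Type} [NormedAddCommGroup P] [NormedAddCommGroup E]

/-- the slice of a fibred local homeomorphism -/
def slice (W : P × E → E) (Φ : OpenPartialHomeomorph (P × E) (P × E))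
    (hΦ : ∀ q, Φ q = (q.1, W q)) (t : P) (O : Set E) (hO : IsOpen O)
    (h : ∀ z ∈ O, (t, z) ∈ Φ.source) : OpenPartialHomeomorph E E where
  toFun z := W (t, z)
  invFun y := (Φ.symm (t, y)).2
  source := O
  target := (fun y => (t, y)) ⁻¹' (Φ.target ∩ Φ.symm ⁻¹' (Prod.snd ⁻¹' O))
  map_source' z hz := by
    show (t, W (t, z)) ∈ Φ.target ∧ (Φ.symm (t, W (t, z))).2 ∈ O
    rw [show (t, W (t, z)) = Φ (t, z) from (hΦ (t, z)).symm, Φ.left_inv (h z hz)]
    exact ⟨Φ.map_source (h z hz), hz⟩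
  map_target' _ hy := hy.2
  left_inv' z hz := by
    rw [show (t, W (t, z)) = Φ (t, z) from (hΦ (t, z)).symm, Φ.left_inv (h z hz)]
  right_inv' y hy := by
    have h1 : Φ (Φ.symm (t, y)) = (t, y) := Φ.right_inv hy.1
    rw [hΦ, Prod.ext_iff] at h1
    exact (congrArg W (show (t, (Φ.symm (t, y)).2) = Φ.symm (t, y) from
      Prod.ext h1.1.symm rfl)).trans h1.2
  open_source := hO
  open_target := (Φ.isOpen_inter_preimage_symm (hO.preimage continuous_snd)).preimage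
    (continuous_const.prodMk continuous_id)
  continuousOn_toFun := (continuous_snd.comp_continuousOn (Φ.continuousOn.comp
    (continuous_const.prodMk continuous_id).continuousOn h)).congr fun z _ =>
      (congrArg Prod.snd (hΦ (t, z))).symm
  continuousOn_invFun := continuous_snd.comp_continuousOn (Φ.continuousOn_symm.comp
    (continuous_const.prodMk continuous_id).continuousOn fun _ hy => hy.1)

variable [NormedSpace ℝ P] [NormedSpace ℝ E] [FiniteDimensional ℝ P] [FiniteDimensional ℝ E]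

theorem loc {W : P × E → E} {z₀ : E} (hW : ContDiffAt ℝ ∞ W (0, z₀))
    (hb : Function.Injective (Dy W (0, z₀))) {S : Set (P × E)} (hS : S ∈ 𝓝 ((0 : P), z₀)) :
    ∃ (r : ℝ) (O : Set E), 0 < r ∧ IsOpen O ∧ z₀ ∈ O ∧ ∀ t ∈ ball (0 : P) r,
      (∀ z ∈ O, (t, z) ∈ S) ∧
      ∃ F : OpenPartialHomeomorph E E, F.source = O ∧ ∀ z, F z = W (t, z) := by
  have := FiniteDimensional.complete ℝ (P × E)
  have h1 := hW.differentiableAt (by simp)
  have h2 := (hasFDerivAt_fst (𝕜 := ℝ) (p := ((0 : P), z₀))).prodMk h1.hasFDerivAt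
  have h3 : Function.Injective ((ContinuousLinearMap.fst ℝ P E).prod (fderiv ℝ W (0, z₀))) := by
    refine (injective_iff_map_eq_zero _).2 fun q hq => ?_
    have k1 : q.1 = 0 := congrArg Prod.fst hq
    have k2 : fderiv ℝ W (0, z₀) q = 0 := congrArg Prod.snd hq
    refine Prod.ext k1 ((injective_iff_map_eq_zero _).1 hb _ ?_)
    rw [An.Cnn.Dy_eq h1]
    exact (congrArg (fderiv ℝ W (0, z₀)) (show (0, q.2) = q from Prod.ext k1.symm rfl)).trans k2
  let A := (LinearEquiv.ofInjectiveEndo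
    ((ContinuousLinearMap.fst ℝ P E).prod (fderiv ℝ W (0, z₀))).toLinearMap
      h3).toContinuousLinearEquiv
  have h4 : HasFDerivAt (fun q : P × E => (q.1, W q)) (A : P × E →L[ℝ] P × E) (0, z₀) := h2
  have h5 : ContDiffAt ℝ ∞ (fun q : P × E => (q.1, W q)) (0, z₀) := contDiffAt_fst.prodMk hW
  let Φ := h5.toOpenPartialHomeomorph _ h4 (by simp)
  have h6 := inter_mem hS (Φ.open_source.mem_nhds
    (h5.mem_toOpenPartialHomeomorph_source h4 (by simp)))
  obtain ⟨u, hu, v, hv, h7⟩ := mem_nhds_prod_iff.1 h6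
  obtain ⟨r, hr, k1⟩ := Metric.mem_nhds_iff.1 hu
  obtain ⟨O, k2, k3, k4⟩ := _root_.mem_nhds_iff.1 hv
  exact ⟨r, O, hr, k3, k4, fun t ht => ⟨fun z hz => (h7 ⟨k1 ht, k2 hz⟩).1,
    slice W Φ (fun _ => rfl) t O k3 fun z hz => (h7 ⟨k1 ht, k2 hz⟩).2, rfl, fun _ => rfl⟩⟩

end FcX

theorem fc : FC := by
  intro d b V ι Ω L ρ a H r₀ hr₀
  choose e i W f he hi hq using H
  choose r O hr hO hz hF using fun x => FcX.loc (hq x).self_of_nhds.Wsm
    (hq x).self_of_nhds.Wbij.1 (hq x)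
  have hE : ∀ t x, ∃ E : Chart d V.X, t ∈ ball (0 : Cm b) (r x) →
      E.source = (e x).source ∩ L.U (i x) ∩ e x ⁻¹' O x ∧ ∀ y, E y = W x (t, e x y) := by
    intro t x
    by_cases ht : t ∈ ball (0 : Cm b) (r x)
    · obtain ⟨F, k1, k2⟩ := (hF x t ht).2
      exact ⟨((e x).restrOpen _ (L.isOpen (i x))).trans F, fun _ => ⟨k1 ▸ rfl, fun y => k2 _⟩⟩
    · exact ⟨e x, fun h => absurd h ht⟩
  choose E hE using hE
  have hU : ∀ x, IsOpen ((e x).source ∩ L.U (i x) ∩ e x ⁻¹' O x) := fun x => by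
    rw [inter_right_comm]
    exact ((e x).isOpen_inter_preimage (hO x)).inter (L.isOpen _)
  obtain ⟨T, -, hT⟩ := isCompact_univ.elim_nhds_subcover _ fun x _ =>
    (hU x).mem_nhds ⟨⟨(he x).2, hi x⟩, hz x⟩
  have h1 : ∀ᶠ s in 𝓝[>] (0 : ℝ), (0 < s ∧ s ≤ r₀) ∧ ∀ x ∈ T, s ≤ r x :=
    Eventually.and (Ioc_mem_nhdsGT hr₀) ((eventually_all_finset T).2 fun x _ =>
      mem_of_superset (Ioc_mem_nhdsGT (hr x)) fun _ h => h.2)
  obtain ⟨s, ⟨s0, s1⟩, s2⟩ := h1.exists
  let c : Fin T.card → V.X := fun k => T.equivFin.symm k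
  have hb : ∀ t ∈ ball (0 : Cm b) s, ∀ k, t ∈ ball (0 : Cm b) (r (c k)) := fun t ht k =>
    ball_subset_ball (s2 _ (T.equivFin.symm k).2) ht
  refine ⟨s, T.card, s0, s1, ⟨{
    e := fun k => e (c k)
    i := fun k => i (c k)
    U := fun k => (e (c k)).source ∩ L.U (i (c k)) ∩ e (c k) ⁻¹' O (c k)
    W := fun k => W (c k)
    f := fun k => f (c k)
    E := fun t k => E t (c k)
    opn := fun k => hU _
    cov := fun x => ?_
    mem := fun k x hx => ⟨⟨(he _).1, hx.1.1⟩, hx.1.2⟩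
    src := fun t ht k => (hE t _ (hb t ht k)).1
    val := fun t ht k x _ => (hE t _ (hb t ht k)).2 x
    lq := fun t ht k x hx => (hF _ t (hb t ht k)).1 _ hx.2 }⟩⟩
  obtain ⟨y, hy, k⟩ := mem_iUnion₂.1 (hT (mem_univ x))
  refine ⟨T.equivFin ⟨y, hy⟩, ?_⟩
  simpa only [c, Equiv.symm_apply_apply] using k

end Vale.Agent.P301Z.Dg
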