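import Vale.Agent.P301Z.Dg.Sk

/-!
# P301Z, block DEF, geometric half: algebra of families
-/

open scoped Manifold ContDiff Topology Matrix
open Filter Set
open Vale.Agent.P272.K Vale.Agent.P299.IX Vale.Agent.P299.IX.Fock
open Vale.Agent.P281Z (Mf)
open Vale.Agent.P281Z.Hg Vale.Agent.P301Z.Lat
open Vale.Agent.P301Z.Rot (ev_pt)

noncomputable section

namespace Vale.Agent.P301Z.Dg

namespace Fm1

variable {d : ℕ} {V : Mf d} {P : Type} [NormedAddCommGroup P] [NormedSpace ℝ P]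

theorem mulV {κ κ' : Type} [Fintype κ] [Fintype κ'] (A : Matrix κ' κ ℂ) {u : P → κ → ℂ} {z : P}
    (hu : ContDiffAt ℝ ∞ u z) : ContDiffAt ℝ ∞ (fun y => A *ᵥ u y) z :=
  contDiffAt_pi.2 fun _ => ContDiffAt.sum fun J _ => contDiffAt_const.mul (contDiffAt_pi.1 hu J)

/-- a local formula for an operator on forms -/
theorem loc {z : P → Fs V} {e : Chart d V.X} {x : V.X} (h : At e x) {t : P}
    {G : P × Cm d → Fo d} (hG : ContDiffAt ℝ ∞ G (t, e x))
    (k : ∀ s y, At e y → vl (z s) e (e y) = G (s, e y)) :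
    ContDiffAt ℝ ∞ (fun q : P × Cm d => vl (z q.1) e q.2) (t, e x) := by
  have h1 := ev_pt h (Q := fun w => ∀ s, vl (z s) e w = G (s, w)) fun y hy s => k s y hy
  refine hG.congr_of_eventuallyEq ?_
  filter_upwards [(continuous_snd.continuousAt (x := (t, e x))).eventually h1] with q hq
  exact hq q.1

theorem dr_par {g : P × Cm d → ℂ} {q : P × Cm d} (hg : ContDiffAt ℝ ∞ g q) (c : Fin (d + d)) :
    ContDiffAt ℝ ∞ (fun q : P × Cm d => dr c (fun y => g (q.1, y)) q.2) q := by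
  obtain ⟨a, b, v, w, e⟩ := Ka.dr_DD c
  have h1 : ContDiffAt ℝ ∞ (fun q : P × Cm d => fderiv ℝ (fun y => g (q.1, y)) q.2) q :=
    ContDiffAt.fderiv (f := fun (q : P × Cm d) y => g (q.1, y)) (n := ∞)
      (ContDiffAt.comp (g := g) (f := fun p : (P × Cm d) × Cm d => (p.1.1, p.2)) (q, q.2) hg
        (by fun_prop)) contDiffAt_snd le_rfl
  simp only [e, C2.DD]
  exact (contDiffAt_const.mul (h1.clm_apply contDiffAt_const)).add
    (contDiffAt_const.mul (h1.clm_apply contDiffAt_const))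

theorem vl_lin {r : ℕ} (G : (Fin r → ℂ) →ₗ[ℂ] Fs V) (p : Fin r → ℂ) (e : Chart d V.X) (z : Cm d) :
    vl (G p) e z = ∑ i, p i • vl (G fun j => if i = j then 1 else 0) e z := by
  rw [G.pi_apply_eq_sum_univ, vl_sum]
  rfl

end Fm1

open Fm1 in
theorem fm1 : FM1 where
  const u _ _ _ _ _ t _ e x h :=
    ContDiffAt.comp (g := vl u e) (t, e x) ((vl_isF u).sm e x h) contDiffAt_snd
  add _ _ _ _ _ _ _ h h' := ⟨fun t ht e x k => (h t ht e x k).add (h' t ht e x k),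
    fun t ht e x k => (h t ht e x k).sub (h' t ht e x k)⟩
  smul _ _ _ _ c _ _ hc h t ht e x k :=
    (ContDiffAt.comp (g := c) (t, e x) (hc t ht) contDiffAt_fst).smul (h t ht e x k)
  comp _ _ _ _ _ _ _ _ ψ z _ _ hψ h t ht e x k :=
    ContDiffAt.comp (f := fun q : _ × Cm _ => (ψ q.1, q.2)) (t, e x) (h _ (hψ t ht).2 e x k)
      ((ContDiffAt.comp (g := ψ) (t, e x) (hψ t ht).1 contDiffAt_fst).prodMk contDiffAt_snd)
  cj {d V} _ _ _ _ z _ h t ht e x k :=
    loc k (G := fun q => cjv (vl (z q.1) e q.2)) (mulV _ (contDiffAt_pi.2 fun I =>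
      Complex.conjCLE.contDiff.contDiffAt.comp _ (contDiffAt_pi.1 (h t ht e x k) I)))
      fun s y hy => (dR_real V).cj _ e y hy
  d {d V} _ _ _ _ z _ h t ht e x k :=
    loc k (G := fun q => dT (vl (z q.1) e) q.2) (ContDiffAt.sum fun c _ => mulV _
      (contDiffAt_pi.2 fun I => dr_par (contDiffAt_pi.1 (h t ht e x k) I) c))
      fun s y hy => (dR_real V).d _ e y hy
  lin _ _ _ _ G p _ h hp t ht e x k := by
    simp only [vl_lin (G _) (p _)]
    exact ContDiffAt.sum fun i _ => (ContDiffAt.comp (g := fun s => p s i) (t, e x)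
      (contDiffAt_pi.1 (hp t ht) i) contDiffAt_fst).smul (h _ t ht e x k)
  hconst _ _ _ _ _ _ _ := differentiableAt_const _
  hadd _ _ _ h h' := ⟨fun t ht e x k => (h t ht e x k).add (h' t ht e x k),
    fun t ht e x k => (h t ht e x k).sub (h' t ht e x k)⟩
  hsmul _ _ _ hc h t ht e x k := (hc t ht).smul (h t ht e x k)
  hcomp _ _ _ _ hψ h t ht e x k := (h _ (hψ t ht).2 e x k).comp t (hψ t ht).1
  hlin G p _ h hp t ht e x k := by
    simp only [vl_lin (G _) (p _)]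
    exact DifferentiableAt.fun_sum fun i _ =>
      (differentiableAt_pi.1 (hp t ht) i).smul (h _ t ht e x k)

theorem om_of (h1 : FM1) (h2 : FM2) : OM := by
  intro n r B Y s w p0 k0 b F
  have hc : ∀ t ∈ F.N, Cl2 Y.V ((dR Y.V).d (F.γ t)) := fun t ht => ⟨(dR_ok _).dd _, by
    have := LinearMap.congr_fun ((dR_ok Y.V).dg_d 1) (F.γ t)
    rwa [Module.End.mul_apply, Module.End.mul_apply, F.γ1 t ht] at this⟩
  refine ⟨(h1.add _ _ _ _ (h1.lin _ (fun _ => F.R) F.p _ (fun x => h1.const _ _ _)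
      fun t ht => (F.pan t ht).contDiffAt.restrict_scalars ℝ) (h1.d _ _ _ F.γf)).1,
    (h1.hadd _ _ _ (h1.hlin (fun _ => F.R) F.p _ (fun x => h1.hconst _ _)
      fun t ht => (F.pan t ht).differentiableAt) (h2.hd _ _ F.opn F.γf F.γh)).1, ?_,
    fun t ht => ⟨⟨?_, ?_⟩, F.cs t ht, ?_⟩⟩
  · rw [PF.Om, F.γ0, map_zero, add_zero, F.p0]
    exact F.Rs
  · rw [PF.Om, map_add, (F.Rcl _).1, (hc t ht).1, add_zero]
  · rw [PF.Om, map_add, (F.Rcl _).2, (hc t ht).2]
  · rw [PF.Om, map_add, F.Rc, (Y.m.ker _ (hc t ht)).2 ⟨_, F.γ1 t ht, rfl⟩, add_zero]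

end Vale.Agent.P301Z.Dg
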