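import Vale.Agent.P301Z.Dg.Sk
import Vale.Agent.P301Z.Df.Hdz
import Vale.Agent.P301Z.Lat.Pk

/-!
# P301Z, block DEF: derivatives of families of forms
-/

open scoped Manifold ContDiff ComplexOrder Topology Matrix
open Filter Set Metric Complex
open Vale.Agent.P272.K Vale.Agent.P272.K.C2 Vale.Agent.P299.IX Vale.Agent.P299.IX.Fock
open Vale.Agent.P281Z (Mf)
open Vale.Agent.P281Z.Hg Vale.Agent.P301Z.Lat Vale.Agent.P301Z.Rot
open Vale.Agent.P301Z.An.Cnn (has_fst has_snd has_app)

noncomputable section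

namespace Vale.Agent.P301Z.Dg

namespace Fm2

section abs

variable {P E F : Type} [NormedAddCommGroup P] [NormedSpace ℝ P] [NormedAddCommGroup E]
  [NormedSpace ℝ E] [NormedAddCommGroup F] [NormedSpace ℝ F] {f : P × E → F} {q : P × E}

theorem ev_diff (h : ContDiffAt ℝ ∞ f q) : ∀ᶠ q' in 𝓝 q, DifferentiableAt ℝ f q' :=
  ((h.of_le (m := 1) (by norm_cast)).eventually (by simp)).mono fun _ k =>
    k.differentiableAt one_ne_zero

theorem cd_fst (h : ContDiffAt ℝ ∞ f q) (v : P) :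
    ContDiffAt ℝ ∞ (fun q' : P × E => fderiv ℝ (fun t => f (t, q'.2)) q'.1 v) q := by
  refine ((h.fderiv_right (m := ∞) le_rfl).clm_apply
    (contDiffAt_const (c := ((v, 0) : P × E)))).congr_of_eventuallyEq ?_
  filter_upwards [ev_diff h] with q' k
  rw [(has_fst k).fderiv]
  rfl

theorem comm (h : ContDiffAt ℝ ∞ f q) (a : E) : ∃ D : P →L[ℝ] F,
    HasFDerivAt (fun t => fderiv ℝ (fun z => f (t, z)) q.2 a) D q.1 ∧
      ∀ v, D v = fderiv ℝ (fun z => fderiv ℝ (fun t => f (t, z)) q.1 v) q.2 a := by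
  have h2 := (h.fderiv_right (m := ∞) le_rfl).differentiableAt (by simp)
  have h5 := (h.of_le (m := 2) (by norm_cast)).isSymmSndFDerivAt (by simp)
  have c1 : ContinuousAt (fun t : P => (t, q.2)) q.1 := by fun_prop
  have c2 : ContinuousAt (fun z : E => (q.1, z)) q.2 := by fun_prop
  refine ⟨_, (has_fst (has_app h2 (0, a)).differentiableAt).congr_of_eventuallyEq ?_, fun v => ?_⟩
  · filter_upwards [c1.eventually (ev_diff h)] with t k
    rw [(has_snd k).fderiv]
    rfl
  · have k1 : (fun z => fderiv ℝ (fun t => f (t, z)) q.1 v) =ᶠ[𝓝 q.2]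
        fun z => fderiv ℝ f (q.1, z) (v, 0) := by
      filter_upwards [c2.eventually (ev_diff h)] with z k
      rw [(has_fst k).fderiv]
      rfl
    rw [k1.fderiv_eq, (has_snd (has_app h2 (v, 0)).differentiableAt).fderiv, (has_app h2 _).fderiv,
      (has_app h2 _).fderiv]
    exact h5 (v, 0) (0, a)

theorem fd_pi {κ : Type} [Fintype κ] {g : P → κ → ℂ} {t : P} (h : DifferentiableAt ℝ g t) (v : P)
    (i : κ) : fderiv ℝ g t v i = fderiv ℝ (fun t => g t i) t v := by
  rw [fderiv_apply h i]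
  rfl

theorem has_mv {κ : Type} [Fintype κ] (A : Matrix κ κ ℂ) {g : P → κ → ℂ} {t : P}
    (h : DifferentiableAt ℝ g t) : ∃ D : P →L[ℝ] κ → ℂ, HasFDerivAt (fun t => A *ᵥ g t) D t ∧
      ∀ v, D v = A *ᵥ fderiv ℝ g t v :=
  ⟨_, ((LinearMap.toContinuousLinearMap A.mulVecLin).restrictScalars ℝ).hasFDerivAt.comp t
    h.hasFDerivAt, fun _ => rfl⟩

end abs

variable {d b : ℕ}

theorem dr_eq (c : Fin (d + d)) : ∃ (α β : ℂ) (w w' : Cm d), ∀ (g : Cm d → ℂ) z,
    dr c g z = α * fderiv ℝ g z w + β * fderiv ℝ g z w' := by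
  induction c using Fin.addCases with
  | left j => exact ⟨1 / 2, -I / 2, Pi.single j 1, Pi.single j I, fun g z => by
      simp only [dr, Fin.addCases_left, dz]; ring⟩
  | right j => exact ⟨1 / 2, I / 2, Pi.single j 1, Pi.single j I, fun g z => by
      simp only [dr, Fin.addCases_right, dzb]; ring⟩

theorem comm_dr {f : Cm b × Cm d → ℂ} {q : Cm b × Cm d} (h : ContDiffAt ℝ ∞ f q)
    (c : Fin (d + d)) : ∃ D : Cm b →L[ℝ] ℂ,
      HasFDerivAt (fun t => dr c (fun z => f (t, z)) q.2) D q.1 ∧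
      ∀ v, D v = dr c (fun z => fderiv ℝ (fun t => f (t, z)) q.1 v) q.2 := by
  obtain ⟨α, β, w, w', k⟩ := dr_eq c
  obtain ⟨D, h1, h2⟩ := comm h w
  obtain ⟨D', h3, h4⟩ := comm h w'
  simp only [k]
  exact ⟨_, (h1.const_mul α).add (h3.const_mul β), fun v => by rw [← h2, ← h4]; rfl⟩

theorem comm_dT {f : Cm b × Cm d → Fo d} {q : Cm b × Cm d} (h : ContDiffAt ℝ ∞ f q) (v : Cm b) :
    fderiv ℝ (fun t => dT (fun z => f (t, z)) q.2) q.1 v =
      dT (fun z => fderiv ℝ (fun t => f (t, z)) q.1 v) q.2 := by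
  choose D h1 h2 using fun c I => comm_dr (contDiffAt_pi.1 h I) c
  have k1 : ∀ c, HasFDerivAt (fun t => Dv c (fun z => f (t, z)) q.2)
      (ContinuousLinearMap.pi (D c)) q.1 := fun c => hasFDerivAt_pi.2 (h1 c)
  choose D' h3 h4 using fun c => has_mv (eps c) (k1 c).differentiableAt
  have k2 := HasFDerivAt.fun_sum (u := Finset.univ) fun c _ => h3 c
  have c2 : ContinuousAt (fun z : Cm d => (q.1, z)) q.2 := by fun_prop
  rw [show fderiv ℝ (fun t => dT (fun z => f (t, z)) q.2) q.1 = _ from k2.fderiv,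
    _root_.sum_apply]
  refine Finset.sum_congr rfl fun c _ => ?_
  rw [h4, (k1 c).fderiv]
  refine congrArg _ (funext fun I => (h2 c I v).trans (Ka.dr_congr ?_))
  filter_upwards [c2.eventually (ev_diff h)] with z k
  exact (fd_pi (has_fst k).differentiableAt v I).symm

variable {V : Mf d} {z : Cm b → Fs V} {N : Set (Cm b)}

theorem near (hN : IsOpen N) {t : Cm b} (ht : t ∈ N) {e : Chart d V.X} {x : V.X} (hx : At e x) :
    ∀ᶠ q : Cm b × Cm d in 𝓝 (t, e x), q.1 ∈ N ∧ At e (e.symm q.2) ∧ e (e.symm q.2) = q.2 := by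
  filter_upwards [continuousAt_fst.eventually (hN.mem_nhds ht),
    continuousAt_snd.eventually (e.open_target.mem_nhds (e.map_source hx.2))] with q h1 h2
  exact ⟨h1, ⟨hx.1, e.map_target h2⟩, e.right_inv h2⟩

theorem jh_of (hN : IsOpen N) (h1 : Fam z N) (h2 : HolF z N) {t : Cm b} (ht : t ∈ N)
    {e : Chart d V.X} {x : V.X} (hx : At e x) :
    Df.JH (fun q : Cm b × Cm d => vl (z q.1) e q.2) (t, e x) := by
  filter_upwards [near hN ht hx] with q ⟨k1, k2, k3⟩
  have a1 := h1 _ k1 e _ k2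
  have a2 := h2 _ k1 e _ k2
  rw [k3] at a1 a2
  exact ⟨a1, a2⟩

end Fm2

open Fm2 in
theorem fm2 : FM2 where
  hd {d b V} z N hN h1 h2 t ht e x hx := by
    simp only [(dR_real V).d _ e x hx]
    refine differentiableAt_pi.2 fun K => ?_
    simp only [dT, Finset.sum_apply, Matrix.mulVec, dotProduct, Dv]
    exact DifferentiableAt.fun_sum fun c _ => DifferentiableAt.fun_sum fun I _ =>
      (Df.hdz _ _ _ _ (Df.jh_pi.1 (jh_of hN h1 h2 ht hx) I) c).self_of_nhds.2.const_mul _
  der {d b V} z N v hN h1 := by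
    let u : Cm b → Rw d V.X (Fo d) := fun t e y => fderiv ℝ (fun t => vl (z t) e y) t v
    have df : ∀ t ∈ N, ∀ e x, At e x → DifferentiableAt ℝ (fun t => vl (z t) e (e x)) t :=
      fun t ht e x hx => (has_fst ((h1 t ht e x hx).differentiableAt (by simp))).differentiableAt
    have sm : ∀ t ∈ N, ∀ e x, At e x →
        ContDiffAt ℝ ∞ (fun q : Cm b × Cm d => u q.1 e q.2) (t, e x) :=
      fun t ht e x hx => cd_fst (h1 t ht e x hx) v
    have ex : ∀ t, ∃ y : Fs V, t ∈ N → ∀ e x, At e x → vl y e =ᶠ[𝓝 (e x)] u t e := fun t => by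
      by_cases ht : t ∈ N
      · obtain ⟨y, hy⟩ := (g1T d V.X).mkf (u t) (fun e x hx => ContDiffAt.comp (e x)
          (g := fun q : Cm b × Cm d => u q.1 e q.2) (f := fun y => (t, y)) (sm t ht e x hx)
          (contDiffAt_const.prodMk contDiffAt_id)) fun e e' x hx hx' => by
            obtain ⟨D, k1, k2⟩ := has_mv (lam (jt e e' x)) (df t ht e' x hx')
            simp only [u, (vl_isF _).ch e e' x hx hx', k1.fderiv, k2]
        exact ⟨y, fun _ => hy⟩
      · exact ⟨0, fun h => absurd h ht⟩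
    choose z' hz using ex
    have val : ∀ t ∈ N, ∀ e x, At e x → vl (z' t) e (e x) = u t e (e x) :=
      fun t ht e x hx => (hz t ht e x hx).self_of_nhds
    have ev : ∀ t ∈ N, ∀ e x, At e x → (fun q : Cm b × Cm d => vl (z' q.1) e q.2) =ᶠ[𝓝 (t, e x)]
        fun q => u q.1 e q.2 := fun t ht e x hx => by
      filter_upwards [near hN ht hx] with q ⟨k1, k2, k3⟩
      have k4 := val _ k1 e _ k2
      rwa [k3] at k4
    refine ⟨z', val, fun t ht e x hx => (sm t ht e x hx).congr_of_eventuallyEq (ev t ht e x hx),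
      fun h2 t ht e x hx => ?_, fun h0 t ht => ext_F fun e x hx => ?_, fun t ht e x hx => ?_⟩
    · have j := jh_of hN h1 h2 ht hx
      refine (Df.JH.congr (Df.jh_pi.2 fun I => Df.Hdz.full (Df.jh_pi.1 j I) (v, 0))
        ((ev t ht e x hx).trans ?_)).self_of_nhds.2
      filter_upwards [j] with q k
      funext I
      have k1 := k.1.differentiableAt (by simp)
      refine (fd_pi (has_fst k1).differentiableAt v I).trans ?_
      rw [(has_fst (differentiableAt_pi.1 k1 I)).fderiv]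
      rfl
    · obtain ⟨D, k1, k2⟩ := has_mv (dg 1) (df t ht e x hx)
      rw [(dR_real V).dg 1 _ e x hx, val t ht e x hx, ← k2, ← k1.fderiv]
      refine congrArg (fun L : Cm b →L[ℝ] Fo d => L v) (EventuallyEq.fderiv_eq ?_)
      filter_upwards [hN.mem_nhds ht] with t' k
      rw [← (dR_real V).dg 1 _ e x hx, h0 t' k]
    · simp only [(dR_real V).d _ e x hx]
      rw [k1aT.congr (hz t ht e x hx)]
      exact (comm_dT (h1 t ht e x hx) v).symm

end Vale.Agent.P301Z.Dg
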