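import Vale.Agent.P301Z.Dg.Sk
import Vale.Agent.P301Z.Lat.Pk

/-!
# P301Z, block DEF: representatives without component of type `(0, 2)`
-/

open scoped Manifold ContDiff ComplexOrder Topology Matrix
open Filter Set Metric Complex
open Vale.Agent.P272.K Vale.Agent.P299.IX Vale.Agent.P299.IX.Fock
open Vale.Agent.P281Z (Mf)
open Vale.Agent.P281Z.Hg Vale.Agent.P301Z.Lat Vale.Agent.P301Z.Rot

noncomputable section

namespace Vale.Agent.P301Z.Dg

namespace Ft

variable {d b : ℕ}

theorem f1_add {u η η' : Fo d} (h : F1 u η) (h' : F1 u η') : F1 u (η + η') := by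
  intro v v' x x' h1 h2
  have k1 := h v v' x x' h1 h2
  have k2 := h' v v' x x' h1 h2
  simp only [f1e, bv_add] at k1 k2 ⊢
  linear_combination k1 + k2

theorem f1_smul {u η : Fo d} (c : ℂ) (h : F1 u η) : F1 u (c • η) := by
  intro v v' x x' h1 h2
  have k1 := h v v' x x' h1 h2
  simp only [f1e, bv_smul] at k1 ⊢
  linear_combination c * k1

theorem f1_sum {u : Fo d} (h0 : F1 u u) {ι : Type} (s : Finset ι) {η : ι → Fo d}
    (h : ∀ i, F1 u (η i)) : F1 u (∑ i ∈ s, η i) :=
  Finset.sum_induction _ (F1 u) (fun _ _ => f1_add) (by simpa using f1_smul 0 h0) fun i _ => h i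

theorem sum_single (v : Cm b) : ∑ j, v j • (Pi.single j 1 : Cm b) = v := by
  funext i
  simp [Pi.single_apply]

/-- the value at a point as a linear map -/
def vlL {V : Mf d} (e : Chart d V.X) (y : Cm d) : Fs V →ₗ[ℂ] Fo d :=
  ⟨⟨fun u => vl u e y, fun _ _ => rfl⟩, fun _ _ => rfl⟩

end Ft

open Ft in
theorem ft_of (A : Api) (hC : COEF) : FT := by
  intro n r B Y s w p0 k0 b F hF hq hp hk
  obtain ⟨c, v, hcv⟩ := hC r b B.q F.p B.symm (F.pan 0 F.mem) hF.dim hq
    (by rw [F.p0]; exact hF.ind) (by rw [F.p0]; exact hp)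
  obtain ⟨N, h1, opn, mem⟩ :=
    _root_.eventually_nhds_iff.1 ((hcv.and hq).and (F.opn.mem_nhds F.mem))
  have sub : ∀ t ∈ N, t ∈ F.N := fun t ht => (h1 t ht).2
  have γf : Fam F.γ N := fun t ht => F.γf t (sub t ht)
  have γh : HolF F.γ N := fun t ht => F.γh t (sub t ht)
  have γ1 : ∀ t ∈ N, D1 Y.V (F.γ t) := fun t ht => F.γ1 t (sub t ht)
  choose g g1 g2 g3 g4 g5 using fun j : Fin b => A.fm2.der F.γ N (Pi.single j 1) opn γf
  let G : Cm b → (Fin r → ℂ) →ₗ[ℂ] Fs Y.V := fun t => (c t).smulRight (F.γ t) +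
    ∑ j, ((LinearMap.proj j).comp (v t)).smulRight (g j t)
  have hG : ∀ t x, G t x = c t x • F.γ t + ∑ j, v t x j • g j t := fun t x => by
    simp only [G, LinearMap.add_apply, LinearMap.sum_apply, LinearMap.smulRight_apply,
      LinearMap.comp_apply, LinearMap.proj_apply]
  have ac : ∀ x, ∀ t ∈ N, AnalyticAt ℂ (fun t => c t x) t := fun x t ht => ((h1 t ht).1.1 x).1
  have av : ∀ x j, ∀ t ∈ N, AnalyticAt ℂ (fun t => v t x j) t := fun x j t ht =>
    ((ContinuousLinearMap.proj (R := ℂ) (φ := fun _ : Fin b => ℂ) j).analyticAt _).comp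
      ((h1 t ht).1.1 x).2.1
  obtain ⟨o1, -, -, o4⟩ := A.om F
  refine ⟨{ F with
      N := N, opn := opn, mem := mem, pan := fun t ht => F.pan t (sub t ht), γ1 := γ1, γf := γf,
      γh := γh, cs := fun t ht => F.cs t (sub t ht) }, G, ⟨hF.dim, hF.ind, hF.tw⟩,
    fun t ht => (h1 t ht).1.2, fun t ht x => ?_, fun x t ht e y hy => ?_, fun x t ht e y hy => ?_,
    fun t ht x hx e y hy => ?_, ?_⟩
  · show (dR Y.V).dg 1 _ = _
    simp only [hG, map_add, map_smul, map_sum, show (dR Y.V).dg 1 _ = _ from γ1 t ht,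
      fun j => show (dR Y.V).dg 1 _ = _ from g4 j γ1 t ht]
  · simp only [hG, vl_add, vl_smul, vl_sum]
    exact ((((ac x t ht).contDiffAt.restrict_scalars ℝ).comp _ contDiffAt_fst).smul
      (γf t ht e y hy)).add (ContDiffAt.sum fun j _ =>
        (((av x j t ht).contDiffAt.restrict_scalars ℝ).comp _ contDiffAt_fst).smul (g2 j t ht e y hy))
  · simp only [hG, vl_add, vl_smul, vl_sum]
    exact ((ac x t ht).differentiableAt.smul (γh t ht e y hy)).add (DifferentiableAt.fun_sum
      fun j _ => (av x j t ht).differentiableAt.smul (g3 j γh t ht e y hy))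
  · have hx' := ((h1 t ht).1.1 x).2.2 hx
    have c1 : ContDiffAt ℝ ∞ (fun t => vl (F.Om t) e (e y)) t := ContDiffAt.comp t
      (g := fun q : Cm b × Cm (n + n) => vl (F.Om q.1) e q.2) (f := fun t => (t, e y))
      (o1 t (sub t ht) e y hy) (contDiffAt_id.prodMk contDiffAt_const)
    have k1 : ∀ j, F1 (vl (F.Om t) e (e y)) (vl (F.R (fderiv ℂ F.p t (Pi.single j 1)) +
        (dR Y.V).d (g j t)) e (e y)) := fun j => by
      have k2 := A.js.der (Cm b) (fun t => vl (F.Om t) e (e y)) t (Pi.single j 1) c1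
        (by filter_upwards [opn.mem_nhds ht] with t' k using (o4 t' (sub t' k)).2.1 e y hy)
      have k3 : HasFDerivAt (fun t => vl (F.R (F.p t)) e (e y)) _ t :=
        ((LinearMap.toContinuousLinearMap (vlL e (e y) ∘ₗ F.R)).hasFDerivAt.comp t
          (F.pan t (sub t ht)).differentiableAt.hasFDerivAt).restrictScalars ℝ
      have k4 : DifferentiableAt ℝ (fun t => vl ((dR Y.V).d (F.γ t)) e (e y)) t :=
        (A.fm2.hd F.γ N opn γf γh t ht e y hy).restrictScalars ℝ
      rw [show fderiv ℝ (fun t => vl (F.Om t) e (e y)) t = _ from (k3.add k4.hasFDerivAt).fderiv]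
        at k2
      rw [vl_add, g5 j t ht e y hy]
      exact k2
    have k5 : F.R x + (dR Y.V).d (G t x) = c t x • F.Om t + ∑ j, v t x j •
        (F.R (fderiv ℂ F.p t (Pi.single j 1)) + (dR Y.V).d (g j t)) := by
      have k6 : F.R x = c t x • F.R (F.p t) +
          ∑ j, v t x j • F.R (fderiv ℂ F.p t (Pi.single j 1)) := by
        simp only [← map_smul, ← map_sum, ← map_add, sum_single]
        exact congrArg F.R hx'
      simp only [k6, hG, PF.Om, map_add, map_smul, map_sum, smul_add, Finset.sum_add_distrib]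
      abel
    show F1 (vl (F.Om t) e (e y)) (vl (F.R x + (dR Y.V).d (G t x)) e (e y))
    rw [k5, vl_add, vl_smul, vl_sum]
    exact f1_add (f1_smul _ (A.js.self _)) (f1_sum (A.js.self _) _ fun j => f1_smul _ (k1 j))
  · obtain ⟨v0, t1, t2⟩ := hF.tw
    have k1 := ((h1 0 mem).1.1 (rc k0)).2.2 (by rw [F.p0]; exact hk)
    rw [F.p0] at k1
    obtain ⟨k2, k3⟩ := hF.ind (c 0 (rc k0)) (v 0 (rc k0) - v0) (by
      rw [map_sub, t1, ← add_sub_assoc, ← k1, sub_self])
    refine ext_F fun e y hy => ?_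
    have k4 := ((γh 0 mem e y hy).hasFDerivAt.restrictScalars ℝ).fderiv
    have k5 := t2 e y hy
    rw [k4, ← sum_single v0] at k5
    simp only [hG, k2, sub_eq_zero.1 k3, zero_smul, zero_add, vl_sum, vl_smul, vl_zero,
      fun j => g1 j 0 mem e y hy, k4]
    simpa only [ContinuousLinearMap.coe_restrictScalars', map_sum, map_smul] using k5

end Vale.Agent.P301Z.Dg
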