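import Vale.Agent.P301Z.Dg.Sk

/-!
# P301Z, block DEF: the sections at the base point
-/

open scoped Manifold ContDiff Topology Matrix
open Filter Set Metric Complex
open Vale.Agent.P272.K
open Vale.Agent.P281Z (Mf)
open Vale.Agent.P281Z.Hg Vale.Agent.P301Z.Lat
open Vale.Agent.P301Z.Rot
open Vale.Agent.P301Z.An (Dy)
open Vale.Agent.P301.H599 (LineBundle)

noncomputable section

namespace Vale.Agent.P301Z.Dg

namespace H0tX

variable {d b : ℕ} {V : Mf d}

theorem adp {u : Fs V} (hu : ∀ e x, At e x → ∀ v v', Jr (vl u e (e x)) v v' → v' = I • v)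
    {c : Chart d V.X} (hc : c ∈ atlas (Cm d) V.X) : Adp u c := fun e x he hx =>
  ⟨at_cd he ⟨hc, hx⟩, at_cd ⟨hc, hx⟩ he, fun v v' k => by
    rw [hu e x he v v' k, fd_jac he ⟨hc, hx⟩, fd_jac he ⟨hc, hx⟩, Matrix.mulVec_smul]⟩

theorem ev_mem {e : Chart d V.X} {x : V.X} (h : At e x) {O : Set V.X} (hO : IsOpen O)
    (hx : x ∈ O) : ∀ᶠ z in 𝓝 (e x), e.symm z ∈ O :=
  (e.continuousAt_symm h.mem_target).eventually_mem (by rw [h.left_inv]; exact hO.mem_nhds hx)

variable {ι : Type} {Ω : Cm b → Fs V} {L : LineBundle d V.X ι} {ρ : ι → V.X → ℝ}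
  {a : Cm b → Fs V} {r : ℝ} {N : ℕ}

theorem f_an (hD : DL) (D : GD Ω L ρ a r N) (hr : 0 < r)
    (hu : ∀ e x, At e x → ∀ v, Jr (vl (Ω 0) e (e x)) v (I • v))
    (ha : ∀ e x, At e x → ∀ v, lv (vl (a 0) e (e x)) (I • v) = I * lv (vl (a 0) e (e x)) v)
    {k : Fin N} {x : V.X} (hx : x ∈ D.U k) {e : Chart d V.X} (he : At e x) :
    AnalyticAt ℂ (fun z => D.f k (0, D.e k (e.symm z))) (e x) := by
  have h0 := (D.mem k x hx).1
  have h1 : AnalyticAt ℂ (fun y => D.f k (0, y)) (D.e k x) := by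
    refine P299.H954.analyticAt_of_dzb ?_
    filter_upwards [h0.nhds_target, ev_mem h0 (D.opn k) hx] with y hy hy'
    have q := D.lq 0 (mem_ball_self hr) k _ hy'
    have hy0 := (D.mem k _ hy').1
    have j1 := hu _ _ hy0
    have j2 := ha _ _ hy0
    rw [(D.e k).right_inv hy] at q j1 j2
    refine ⟨(q.fsm.comp y (contDiffAt_const.prodMk contDiffAt_id)).differentiableAt (by simp),
      fun l => ?_⟩
    have k1 : (Pi.single l I : Cm d) = I • Pi.single l 1 := by
      rw [← Pi.single_smul, smul_eq_mul, mul_one]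
    have k2 := q.fcl _ _ (j1 (Pi.single l 1))
    simp only [cn, Dy, add_apply, sub_apply, neg_apply, smul_apply, smul_eq_mul, hD.del_lin,
      j2] at k2
    rw [dzb, k1]
    linear_combination I / 2 * k2 +
      fderiv ℝ (fun y => D.f k (0, y)) y (Pi.single l 1) / 2 * I_mul_I
  refine AnalyticAt.comp (g := fun y => D.f k (0, y)) (f := fun z => D.e k (e.symm z)) ?_
    (transition he h0).analyticAt
  rwa [he.left_inv]

/-- the section of `L ^ m` attached to a section of the deformed bundle -/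
def sg (D : GD Ω L ρ a r N) (m : ℕ) (S : Fin N → V.X → ℂ) (k : Fin N) (i : ι) (x : V.X) : ℂ :=
  L.g i (D.i k) x ^ m * exp (D.f k (0, D.e k x)) ^ m * S k x

theorem sg_eq (D : GD Ω L ρ a r N) {m : ℕ} {S : Fin N → V.X → ℂ}
    (hS : ∀ k k' x, x ∈ D.U k → x ∈ D.U k' → S k x = D.g 0 k k' x ^ m * S k' x) {k k' : Fin N}
    {i : ι} {x : V.X} (hk : x ∈ D.U k) (hk' : x ∈ D.U k') (hi : x ∈ L.U i) :
    sg D m S k i x = sg D m S k' i x := by
  have h1 : exp (D.f k' (0, D.e k' x)) =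
      exp (D.f k (0, D.e k x)) * exp (D.f k' (0, D.e k' x) - D.f k (0, D.e k x)) := by
    rw [← exp_add, add_sub_cancel]
  rw [sg, sg, hS k k' x hk hk', GD.g, ← L.cocycle i (D.i k) (D.i k') x hi (D.mem k x hk).2
    (D.mem k' x hk').2, h1]
  ring

end H0tX

open H0tX in
theorem h0t_of (hD : DL) (hJ : JS) : H0T := by
  rintro d b V ι Ω L ρ a r N D s hr hs h20 hdet ha t rfl H M ⟨hU, hg⟩ m k ⟨S, hS, hI⟩
  have h1 := fun e x he => hJ.std (hs.alt e x he) (hdet e x he)
  have u1 : ∀ e x, At e x → ∀ v, Jr (vl (Ω 0) e (e x)) v (I • v) := fun e x he v => by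
    rw [h20 e x he, ← (h1 e x he).2]
    exact hJ.jr (h1 e x he).1 v
  have u2 : ∀ e x, At e x → ∀ v v', Jr (vl (Ω 0) e (e x)) v v' → v' = I • v :=
    fun e x he v v' q => by
      rw [h20 e x he] at q
      rw [hJ.uq (h1 e x he).1 q, (h1 e x he).2]
  have s1 : ∀ j l (e : Chart d V.X) x, At e x → x ∈ D.U l →
      AnalyticAt ℂ (fun z => S j l (e.symm z)) (e x) := fun j l e x he hx =>
    (hS j).1 l e x ((at_mfOf H).2 ⟨adp u2 he.1, he.2⟩) (by rw [hU]; exact hx)
  have s2 : ∀ j l l' x, x ∈ D.U l → x ∈ D.U l' → S j l x = D.g 0 l l' x ^ m * S j l' x :=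
    fun j l l' x hx hx' => by
      have := (hS j).2 l l' x (by rw [hU]; exact hx) (by rw [hU]; exact hx')
      rwa [hg] at this
  choose c hc using D.cov
  refine ⟨fun j i x => sg D m (S j) (c x) i x, fun j => ⟨fun i e x he hi => ?_,
    fun i i' x hi hi' => ?_⟩, fun w hw => hI w fun l x hx => ?_⟩
  · have h2 : AnalyticAt ℂ (fun z => sg D m (S j) (c x) i (e.symm z)) (e x) :=
      (((L.holo i _ e x he hi (D.mem _ x (hc x)).2).pow m).mul
        ((f_an hD D hr u1 ha (hc x) he).cexp.pow m)).mul (s1 j _ e x he (hc x))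
    refine h2.congr ?_
    filter_upwards [ev_mem he (D.opn _) (hc x), ev_mem he (L.isOpen i) hi] with z z1 z2
    exact sg_eq D (s2 j) z1 (hc _) z2
  · simp only [sg]
    rw [← L.cocycle i i' _ x hi hi' (D.mem _ x (hc x)).2]
    ring
  · have hx' : x ∈ D.U l := by rwa [hU] at hx
    have h2 := (D.mem l x hx').2
    have h3 := hw (D.i l) x h2
    have h4 : L.g (D.i l) (D.i l) x ^ m * exp (D.f l (0, D.e l x)) ^ m *
        ∑ j, w j * S j l x = 0 := by
      rw [← h3, Finset.mul_sum]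
      refine Finset.sum_congr rfl fun j _ => ?_
      show _ = w j * sg D m (S j) (c x) (D.i l) x
      rw [sg_eq D (s2 j) (hc x) hx' h2]
      exact mul_left_comm _ _ _
    exact (mul_eq_zero.1 h4).resolve_left (mul_ne_zero
      (pow_ne_zero m (L.ne_zero _ _ x h2 h2)) (pow_ne_zero m (exp_ne_zero _)))

end Vale.Agent.P301Z.Dg
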