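import Vale.Agent.P301Z.Dg.Sk

/-!
# P301Z, block DEF: the complex structure of a form
-/

open scoped ContDiff Topology Matrix
open Filter Complex
open Vale.Agent.P272.K
open Vale.Agent.P281Z.Hg Vale.Agent.P301Z.Lat
open Vale.Agent.P301Z.Rot

noncomputable section

namespace Vale.Agent.P301Z.Dg

namespace JsX

variable {d : ℕ} {u : Fo d}

theorem jr_iff {v v' : Cm d} : Jr u v v' ↔ bL u v' = I • bL u v := by
  constructor
  · intro h
    ext1 b
    rw [smul_apply, bL_apply, bL_apply, h b, smul_eq_mul]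
  · intro h b
    rw [← bL_apply, ← bL_apply, h, smul_apply, smul_eq_mul]

theorem inj (h : Cs u) : Function.Injective (bL u) :=
  (injective_iff_map_eq_zero _).2 fun v hv => h.nd v fun x => by
    rw [← bL_apply, hv, zero_apply]

theorem left (h : Cs u) : ∃ π : (Cm d →L[ℝ] ℂ) →L[ℝ] Cm d, ∀ v, π (bL u v) = v := by
  obtain ⟨g, hg⟩ := (bL u).toLinearMap.exists_leftInverse_of_injective
    (LinearMap.ker_eq_bot.2 (inj h))
  exact ⟨LinearMap.toContinuousLinearMap g, fun v => LinearMap.congr_fun hg v⟩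

theorem jr (h : Cs u) (v : Cm d) : Jr u v (Jf u v) := by
  have hx : ∃ J : Cm d →L[ℝ] Cm d, ∀ v, Jr u v (J v) := by
    obtain ⟨π, hπ⟩ := left h
    refine ⟨π.comp (I • bL u), fun v => ?_⟩
    obtain ⟨v', hv⟩ := h.ex v
    have h1 : π.comp (I • bL u) v = v' := by
      rw [ContinuousLinearMap.comp_apply, smul_apply, ← jr_iff.1 hv, hπ]
    rwa [h1]
  rw [Jf, dif_pos hx]
  exact hx.choose_spec v

theorem uq {v v' : Cm d} (h : Cs u) (k : Jr u v v') : v' = Jf u v :=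
  inj h ((jr_iff.1 k).trans (jr_iff.1 (jr h v)).symm)

theorem self (u : Fo d) : F1 u u := by
  intro v v' x x' h _
  rw [f1e, h, h]
  linear_combination bv u v x * I_mul_I

variable {P : Type} [NormedAddCommGroup P] [NormedSpace ℝ P]

theorem sm {u : P → Fo d} {q : P} (hu : ContDiffAt ℝ ∞ u q) (hc : ∀ᶠ q' in 𝓝 q, Cs (u q')) :
    ContDiffAt ℝ ∞ (fun q' => Jf (u q')) q := by
  obtain ⟨π, hπ⟩ := left hc.self_of_nhds
  have h1 : ContDiffAt ℝ ∞ (fun q' => π.comp (bL (u q'))) q :=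
    contDiffAt_const.clm_comp (bL_cd hu)
  have h2 : ContDiffAt ℝ ∞ (fun q' => π.comp (I • bL (u q'))) q :=
    contDiffAt_const.clm_comp ((bL_cd hu).const_smul I)
  have h3 : π.comp (bL (u q)) = ((1 : (Cm d →L[ℝ] Cm d)ˣ) : Cm d →L[ℝ] Cm d) :=
    ContinuousLinearMap.ext hπ
  have h4 : ContDiffAt ℝ ∞ (fun q' => Ring.inverse (π.comp (bL (u q')))) q :=
    ContDiffAt.comp (g := Ring.inverse) q (by rw [h3]; exact contDiffAt_ringInverse ℝ 1) h1
  have h5 : ∀ᶠ q' in 𝓝 q, IsUnit (π.comp (bL (u q'))) :=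
    h1.continuousAt.eventually (Units.isOpen.mem_nhds (h3.symm ▸ Units.isUnit 1 :
      IsUnit (π.comp (bL (u q)))))
  refine (h4.mul h2).congr_of_eventuallyEq ?_
  filter_upwards [hc, h5] with q' k1 k2
  have h6 : π.comp (I • bL (u q')) = π.comp (bL (u q')) * Jf (u q') := by
    ext1 v
    show π (I • bL (u q') v) = π (bL (u q') (Jf (u q') v))
    rw [jr_iff.1 (jr k1 v)]
  rw [h6, Ring.inverse_mul_cancel_left _ _ k2]

theorem tri {A B : Type} [NormedAddCommGroup A] [NormedSpace ℝ A] [NormedAddCommGroup B]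
    [NormedSpace ℝ B] (T : A →L[ℝ] B →L[ℝ] B →L[ℝ] ℂ) {u : P → A} {α β : P → B} {q : P}
    {u' : P →L[ℝ] A} {α' β' : P →L[ℝ] B} (hu : HasFDerivAt u u' q) (hα : HasFDerivAt α α' q)
    (hβ : HasFDerivAt β β' q) :
    ∃ D : P →L[ℝ] ℂ, HasFDerivAt (fun q' => T (u q') (α q') (β q')) D q ∧
      ∀ v, D v = T (u' v) (α q) (β q) + T (u q) (α' v) (β q) + T (u q) (α q) (β' v) := by
  refine ⟨_, (T.hasFDerivAt_of_bilinear hu hα).clm_apply hβ, fun v => ?_⟩
  simp
  ring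

theorem hfd {u : P → Fo d} {α β : P → Cm d} {q : P} {u' : P →L[ℝ] Fo d} {α' β' : P →L[ℝ] Cm d}
    (hu : HasFDerivAt u u' q) (hα : HasFDerivAt α α' q) (hβ : HasFDerivAt β β' q) :
    ∃ D : P →L[ℝ] ℂ, HasFDerivAt (fun q' => bv (u q') (α q') (β q')) D q ∧
      ∀ v, D v = bL (u' v) (α q) (β q) + bL (u q) (α' v) (β q) + bL (u q) (α q) (β' v) := by
  obtain ⟨D, h, h'⟩ := tri (bLL d) hu hα hβ
  exact ⟨D, h.congr_of_eventuallyEq (.of_forall fun q' => (bL_apply _ _ _).symm), h'⟩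

theorem der {u : P → Fo d} {q : P} (v : P) (hu : ContDiffAt ℝ ∞ u q)
    (hc : ∀ᶠ q' in 𝓝 q, Cs (u q')) : F1 (u q) (fderiv ℝ u q v) := by
  intro a a' x x' ha hx
  have h0 := hc.self_of_nhds
  have hU := (hu.differentiableAt (by simp)).hasFDerivAt
  have hJ := fun y : Cm d => (((sm hu hc).clm_apply (contDiffAt_const (c := y))).differentiableAt
    (by simp)).hasFDerivAt
  obtain ⟨D1, a1, b1⟩ := hfd hU (hasFDerivAt_const a q) (hasFDerivAt_const x q)
  obtain ⟨D2, a2, b2⟩ := hfd hU (hJ a) (hJ x)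
  obtain ⟨D3, a3, b3⟩ := hfd hU (hJ a) (hasFDerivAt_const x q)
  obtain ⟨D4, a4, b4⟩ := hfd hU (hasFDerivAt_const a q) (hJ x)
  have h1 := (a1.sub a2).add ((a3.add a4).const_mul I)
  have h2 := h1.unique ((hasFDerivAt_const (0 : ℂ) q).congr_of_eventuallyEq
    (hc.mono fun q' k => self (u q') a _ x _ (jr k a) (jr k x)))
  have h3 : D1 v - D2 v + I * (D3 v + D4 v) = 0 := DFunLike.congr_fun h2 v
  rw [b1, b2, b3, b4, ← uq h0 ha, ← uq h0 hx] at h3
  simp only [zero_apply, map_zero, add_zero, bL_apply] at h3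
  rw [ha, bv_skew (u q) _ x', hx, bv_skew (u q) x] at h3
  rw [f1e]
  linear_combination h3

end JsX

open JsX in
theorem js : JS where
  jr := jr
  uq := uq
  sq h v := (uq h (jr_iff.2 (by
    rw [jr_iff.1 (jr h v), smul_smul, I_mul_I, map_neg]
    exact (neg_one_smul ℂ _).symm))).symm
  std {d S} hS h := by
    have h1 : ∀ v, Jr (f20 S) v (I • v) := fun v b => by
      rw [bv_f20 hS, bv_f20 hS, smul_dotProduct, smul_eq_mul]
    have h2 : Cs (f20 S) := ⟨fun v hv => Matrix.eq_zero_of_vecMul_eq_zero h (funext fun j => by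
      have := hv (Pi.single j 1)
      rwa [bv_f20 hS, Matrix.dotProduct_mulVec, dotProduct_single, mul_one] at this),
      fun v => ⟨_, h1 v⟩⟩
    exact ⟨h2, fun v => (uq h2 (h1 v)).symm⟩
  self := self
  ch hΩ h h' v := uq (hΩ _ _ h') (jr_ch h h' (jr (hΩ _ _ h) v))
  sm _ _ _ _ _ _ hu hc := sm hu hc
  der _ _ _ _ _ _ v hu hc := der v hu hc

end Vale.Agent.P301Z.Dg
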