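import Vale.Agent.P301Z.Dg.Sk
import Vale.Agent.P301Z.Lat.Pk

/-!
# P301Z, block DEF, geometric half: Kähler classes are open (row KOP)
-/

open scoped Manifold ContDiff ComplexOrder Topology Matrix
open Filter Set Metric Complex
open Vale.Agent.P272.K Vale.Agent.P299.IX Vale.Agent.P299.IX.Fock
open Vale.Agent.P281Z (Mf)
open Vale.Agent.P281Z.Hg Vale.Agent.P301Z.Lat
open Vale.Agent.P301Z.Rot

noncomputable section

namespace Vale.Agent.P301Z.Dg

namespace KopH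

variable {d : ℕ} {P : Type} [NormedAddCommGroup P] [NormedSpace ℝ P] [FiniteDimensional ℝ P]

theorem ps_open (js : JS) {Ω u : P → Fo d} {q : P} (hΩ : ContDiffAt ℝ ∞ Ω q)
    (hu : ContDiffAt ℝ ∞ u q) (hc : ∀ᶠ q' in 𝓝 q, Cs (Ω q')) (h0 : Ps (Ω q) (u q)) :
    ∀ᶠ q' in 𝓝 q, Ps (Ω q') (u q') := by
  have h1 := (js.sm P Ω q hΩ hc).continuousAt
  have h2 := (bL_cd hu).continuousAt
  have h3 : ∀ᶠ q' in 𝓝 q, ∀ v ∈ sphere (0 : Cm d) 1, 0 < (bL (u q') v (Jf (Ω q') v)).re := by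
    refine (isCompact_sphere (0 : Cm d) 1).eventually_forall_of_forall_eventually fun v hv => ?_
    have h4 : ContinuousAt (fun z : P × Cm d => (bL (u z.1) z.2 (Jf (Ω z.1) z.2)).re) (q, v) :=
      continuous_re.continuousAt.comp
        (((h2.comp_of_eq continuousAt_fst rfl).clm_apply continuousAt_snd).clm_apply
          ((h1.comp_of_eq continuousAt_fst rfl).clm_apply continuousAt_snd))
    refine h4.eventually (lt_mem_nhds ?_)
    show 0 < (bL (u q) v (Jf (Ω q) v)).re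
    rw [bL_apply]
    refine h0 v _ (fun h => ?_) (js.jr hc.self_of_nhds v)
    simp [h] at hv
  filter_upwards [h3, hc] with q' h4 h5 v v' hv hj
  have h6 : 0 < ‖v‖⁻¹ := inv_pos.2 (norm_pos_iff.2 hv)
  have h7 := h4 (‖v‖⁻¹ • v) (by
    rw [mem_sphere_zero_iff_norm, norm_smul, norm_inv, norm_norm,
      inv_mul_cancel₀ (norm_ne_zero_iff.2 hv)])
  rw [map_smul, map_smul, map_smul, smul_apply, smul_re, smul_re, bL_apply, ← js.uq h5 hj,
    smul_eq_mul, smul_eq_mul] at h7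
  exact (mul_pos_iff_of_pos_left h6).1 ((mul_pos_iff_of_pos_left h6).1 h7)

variable {V : Mf d}

theorem ps_ch {Ω u : Fs V} {e e' : Chart d V.X} {x : V.X} (h : At e x) (h' : At e' x)
    (k : Ps (vl Ω e' (e' x)) (vl u e' (e' x))) : Ps (vl Ω e (e x)) (vl u e (e x)) := by
  intro v v' hv hj
  rw [bv_ch u h h']
  refine k _ _ (fun h0 => hv ?_) (jr_ch h h' hj)
  rw [← trn_inv h.2 h'.2 (at_cd h h') (at_cd h' h) v, h0, map_zero]

theorem all_open (js : JS) {Ω u : P → Fs V} {N : Set P} {z : P} (hN : N ∈ 𝓝 z) (hΩ : Fam Ω N)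
    (hu : Fam u N) (hc : ∀ t ∈ N, CsF (Ω t)) (h0 : All Ps (Ω z) (u z)) :
    ∀ᶠ t in 𝓝 z, All Ps (Ω t) (u t) := by
  have hz := mem_of_mem_nhds hN
  have h1 : ∀ᶠ t in 𝓝 z, ∀ y ∈ (univ : Set V.X), ∀ e, At e y →
      Ps (vl (Ω t) e (e y)) (vl (u t) e (e y)) := by
    refine isCompact_univ.eventually_forall_of_forall_eventually fun x _ => ?_
    obtain ⟨e, he⟩ : ∃ e : Chart d V.X, At e x := ⟨_, Lat.at_chart x⟩
    have h2 := ps_open js (hΩ z hz e x he) (hu z hz e x he) (by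
      filter_upwards [prod_mem_nhds hN (e.open_target.mem_nhds (e.map_source he.2))] with q hq
      have h3 := hc _ hq.1 e _ ⟨he.1, e.map_target hq.2⟩
      rwa [e.right_inv hq.2] at h3) (h0 e x he)
    have h3 : ContinuousAt (fun q : P × V.X => (q.1, e q.2)) (z, x) :=
      continuousAt_fst.prodMk ((e.continuousAt he.2).comp_of_eq continuousAt_snd rfl)
    filter_upwards [h3.eventually h2, prod_mem_nhds univ_mem (e.open_source.mem_nhds he.2)]
      with q h4 h5 e' he'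
    exact ps_ch he' ⟨he.1, h5.2⟩ h4
  exact h1.mono fun t ht e x h => ht x trivial e h

theorem ps_std (js : JS) {S W : Mx d} (hS : Sᵀ = -S) (h0 : S.det ≠ 0) (hW : W.PosDef) :
    Ps (f20 S) (f11 W) := by
  intro v v' hv hj
  have h1 := hW.dotProduct_mulVec_pos (x := star v) (star_ne_zero.2 hv)
  have h2 : bv (f11 W) v (I • v) = 2 * (v ⬝ᵥ W *ᵥ star v) := by
    simp only [bv_f11, star_smul, Matrix.mulVec_smul, dotProduct_smul, smul_dotProduct,
      smul_eq_mul, Complex.star_def, conj_I]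
    linear_combination (-2 * (v ⬝ᵥ W *ᵥ star v)) * I_sq
  rw [star_star] at h1
  rw [js.uq (js.std hS h0).1 hj, (js.std hS h0).2, h2]
  exact (Complex.pos_iff.1 (mul_pos two_pos h1)).1

end KopH

open KopH in
/-- row KOP -/
theorem kop_of (A : Api) : KOP := by
  intro n r B Y s w p0 k0 b F G hs hw hG
  obtain ⟨o1, -, o3, o4⟩ := A.om F
  have hN : IsOpen (F.N ×ˢ (univ : Set (Fin r → ℝ))) := F.opn.prod isOpen_univ
  have hz : ((0 : Cm b), k0) ∈ F.N ×ˢ (univ : Set (Fin r → ℝ)) := ⟨F.mem, trivial⟩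
  have hr : ∀ t ∈ F.N ×ˢ (univ : Set (Fin r → ℝ)),
      ContDiffAt ℝ ∞ (fun z : Cm b × (Fin r → ℝ) => rc z.2) t := fun t _ =>
    contDiffAt_pi.2 fun i => ofRealCLM.contDiff.contDiffAt.comp t
      (contDiffAt_pi.1 contDiffAt_snd i)
  have hf : ∀ t ∈ F.N ×ˢ (univ : Set (Fin r → ℝ)),
      ContDiffAt ℝ ∞ (Prod.fst : Cm b × (Fin r → ℝ) → Cm b) t ∧ t.1 ∈ F.N := fun t ht =>
    ⟨contDiffAt_fst, ht.1⟩
  have f1 := A.fm1.comp _ _ _ _ _ _ hf o1
  have f2 := A.fm1.lin _ (fun z : Cm b × (Fin r → ℝ) => G z.1) _ _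
    (fun x => A.fm1.comp _ _ _ (fun t => G t x) _ _ hf (hG.fam x)) hr
  have f3 := A.fm1.lin _ (fun _ : Cm b × (Fin r → ℝ) => F.R) _ _
    (fun x => A.fm1.const (F.R x) _ _) hr
  have ex : ∀ z : Cm b × (Fin r → ℝ), ∃ θ, z.1 ∈ F.N →
      IsP (F.Om z.1) (G z.1 (rc z.2) - (dR Y.V).cj (G z.1 (rc z.2))) θ := fun z => by
    by_cases h : z.1 ∈ F.N
    · exact (A.px1.ex (o4 _ h).2.1 _).imp fun _ k _ => k
    · exact ⟨0, fun k => absurd k h⟩
  choose θ hθ using ex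
  have f4 := A.px1.fam _ _ _ θ _ hN f1 (A.fm1.add _ _ _ _ f2 (A.fm1.cj _ _ _ f2)).2
    fun t ht => ⟨(o4 _ ht.1).2.1, hθ t ht.1⟩
  have f5 := (A.fm1.add _ _ _ _ (A.fm1.add _ _ _ _ f3 (A.fm1.d _ _ _ f2)).1 (A.fm1.d _ _ _ f4)).2
  have h0 : θ (0, k0) = 0 := by
    have k := hθ (0, k0) F.mem
    rw [hG.zero, map_zero, sub_zero] at k
    exact A.px1.zero k
  have h1 := all_open A.js (hN.mem_nhds hz) f1 f5 (fun t ht => (o4 _ ht.1).2.1) fun e x h => by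
    rw [h0, hG.zero, map_zero, add_zero, sub_zero, o3 e x h, F.Rw.val h]
    exact ps_std A.js (hs.1.1.alt e x h) (hs.2 e x h) (hw.posDef e x h)
  filter_upwards [h1, hN.mem_nhds hz] with z h2 h3 hq H
  obtain ⟨k1, k2, k3, k4⟩ := A.px2.rl H (o4 _ h3.1).2.1 (F.Rcl (rc z.2))
    ((F.Rcj _).trans (congrArg F.R (star_rc _))) (hG.d1 _ h3.1 _) (hG.f1 _ h3.1 _ hq) (hθ z h3.1)
  exact ⟨_, k1, k2, (k4 _).trans (F.Rc _), k3, h2⟩

end Vale.Agent.P301Z.Dg
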