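import Vale.Agent.P301Z.Dg.Sk

/-!
# P301Z, block DEF, geometric half: the connections
-/

open scoped Manifold ContDiff ComplexOrder Topology Matrix
open Filter Set Metric Complex
open Vale.Agent.P272.K Vale.Agent.P299.IX Vale.Agent.P299.IX.Fock
open Vale.Agent.P281Z (Mf)
open Vale.Agent.P281Z.Hg Vale.Agent.P301Z.Lat
open Vale.Agent.P301Z.Rot (bv Jr Cov)
open Vale.Agent.P301.H599 (IsHolTwoForm LineBundle IsMetric curvature SameClass ddc)

noncomputable section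

namespace Vale.Agent.P301Z.Dg

namespace L0x

theorem q_zero {r : ℕ} {q : Matrix (Fin r) (Fin r) ℤ} {p : Fin r → ℂ} {y : Fin r → ℝ} (c : ℝ)
    (h : qC q p (rc y) = 0) : qC q p (rc (c • y)) = 0 := by
  rw [← mul_zero (c : ℂ), ← h]
  simp only [qC, rc, Finset.mul_sum, Pi.smul_apply, smul_eq_mul, ofReal_mul]
  exact Finset.sum_congr rfl fun i _ => Finset.sum_congr rfl fun j _ => by ring

theorem star_rc {r : ℕ} (y : Fin r → ℝ) : star (rc y) = rc y :=
  funext fun i => conj_ofReal (y i)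

theorem metric {d : ℕ} {V : Mf d} {ι : Type} {L : LineBundle d V.X ι} {ρ : ι → V.X → ℝ}
    {a : Fld V} (h : IsMetric L ρ) (hc : SameClass (curvature L ρ) a) :
    ∃ ρ', IsMetric L ρ' ∧ ∀ e x, At e x → curvature L ρ' e (e x) = a e (e x) := by
  obtain ⟨f, hf, hc⟩ := hc
  refine ⟨fun i y => ρ i y - f y, ⟨fun i e x hx hi => (h.smooth i e x hx hi).sub (hf e x hx),
    fun i j x hi hj => ?_⟩, fun e x hx => ?_⟩
  · rw [h.change i j x hi hj]
    ring
  · have hi : x ∈ L.U (L.cover (e.symm (e x))).choose := by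
      have := (L.cover (e.symm (e x))).choose_spec
      rwa [e.left_inv hx.2] at this ⊢
    have h1 := cHess_sub ((h.smooth _ e x hx hi).of_le (m := 2) (by norm_cast))
      ((hf e x hx).of_le (m := 2) (by norm_cast))
    exact h1.trans (sub_eq_iff_eq_add.2 (hc e x hx))

end L0x

theorem l0_of (A : Api) (hL : LAT) : L0 := by
  intro n r B Y s w w' p0 k0 b F G ι L ρ l hk hT hq hC h1
  obtain ⟨-, -, o3, o4⟩ := A.om F
  have cs := (o4 0 F.mem).2.1
  set x := rc ((2 * Real.pi) • zr l) with hx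
  have f1 := fun t ht => hT.f1 t ht x (L0x.q_zero _ (hq t ht))
  obtain ⟨θ, hθ⟩ := A.px1.ex cs (G 0 x - (dR Y.V).cj (G 0 x))
  have re : ReF Y.V (F.R x) := (F.Rcj x).trans (congrArg F.R (L0x.star_rc _))
  obtain ⟨e1, e2, e3, e4⟩ := A.px2.rl hC cs (F.Rcl x) re (hT.d1 0 F.mem x) (f1 0 F.mem) hθ
  have e5 := (e4 Y.m).trans (F.Rc x)
  obtain ⟨a0, a1, a2⟩ := A.re.r0 hk.1.1.1 o3 e1 e2 e3
  obtain ⟨ρ', m1, m2⟩ := L0x.metric h1.1 (hL.ddc hk.2.1 hk.2.2 h1.2 ⟨a1, _, a2, e1, e5⟩)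
  refine ⟨ρ', _, fun t => G t x - G 0 x + θ, ⟨m1, fun e y hy => ?_, e1, e2, fun t ht => ?_,
    (A.fm1.add _ _ _ _ (A.fm1.add _ _ _ _ (hT.fam x) (A.fm1.const _ _ _)).2
      (A.fm1.const _ _ _)).1,
    (A.fm1.hadd _ _ _ (A.fm1.hadd _ _ _ (hT.hol x) (A.fm1.hconst _ _)).2
      (A.fm1.hconst _ _)).1, fun t ht => ?_, fun e y hy v => ?_⟩, e5⟩
  · rw [m2 e y hy]
    exact a2 e y hy
  · unfold D1
    rw [map_add, map_sub, hT.d1 t ht x, hT.d1 0 F.mem x, A.px1.d1 hθ]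
  · have : F.R x + (dR Y.V).d (G 0 x) - (dR Y.V).d θ + (dR Y.V).d (G t x - G 0 x + θ) =
        F.R x + (dR Y.V).d (G t x) := by
      rw [map_add, map_sub]
      abel
    rw [this]
    exact f1 t ht
  · rw [sub_self, zero_add]
    refine A.px1.cl cs hθ e y hy v (I • v) fun c => ?_
    rw [o3 e y hy, Rot.bv_f20 (hk.1.1.1.alt e y hy), Rot.bv_f20 (hk.1.1.1.alt e y hy),
      smul_dotProduct, smul_eq_mul]

end Vale.Agent.P301Z.Dg
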