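import Vale.Agent.P301Z.Dg.Sk
import Vale.Agent.P301Z.Lat.Pk

/-!
# P301Z, block DEF: the period map is a local isomorphism
-/

open scoped Topology Matrix ContDiff
open Filter Set
open Vale.Agent.P272.K
open Vale.Agent.P301Z.Lat

noncomputable section

namespace Vale.Agent.P301Z.Dg

namespace LocaH

variable {r b : ℕ} {q : Matrix (Fin r) (Fin r) ℤ} {p : Cm b → Fin r → ℂ}

theorem qC_cont (q : Matrix (Fin r) (Fin r) ℤ) (y : Fin r → ℂ) :
    Continuous fun x : Fin r → ℂ => qC q x y := by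
  unfold qC
  fun_prop

theorem tang (hq : qᵀ = q) (hp : DifferentiableAt ℂ p 0)
    (h : ∀ᶠ t in 𝓝 (0 : Cm b), qC q (p t) (p t) = 0) (v : Cm b) :
    qC q (p 0) (fderiv ℂ p 0 v) = 0 := by
  have hl : HasDerivAt (fun s : ℂ => s • v) v 0 := by
    simpa using (hasDerivAt_id (0 : ℂ)).smul_const v
  have hγ : HasDerivAt (fun s : ℂ => p (s • v)) (fderiv ℂ p 0 v) 0 :=
    hp.hasFDerivAt.comp_hasDerivAt_of_eq 0 hl (zero_smul ℂ v).symm
  have hi := hasDerivAt_pi.1 hγ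
  have h1 : HasDerivAt (fun s : ℂ => qC q (p (s • v)) (p (s • v)))
      (∑ i, ∑ j, (q i j : ℂ) * (fderiv ℂ p 0 v i * p ((0 : ℂ) • v) j +
        p ((0 : ℂ) • v) i * fderiv ℂ p 0 v j)) 0 :=
    HasDerivAt.fun_sum fun i _ => HasDerivAt.fun_sum fun j _ =>
      ((hi i).fun_mul (hi j)).const_mul _
  have ht : Tendsto (fun s : ℂ => s • v) (𝓝 0) (𝓝 0) := by
    have := hl.continuousAt.tendsto
    rwa [zero_smul] at this
  have h2 : HasDerivAt (fun s : ℂ => qC q (p (s • v)) (p (s • v))) 0 0 :=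
    (hasDerivAt_const (0 : ℂ) (0 : ℂ)).congr_of_eventuallyEq (ht.eventually h)
  have h3 := h1.unique h2
  simp only [zero_smul, mul_add, Finset.sum_add_distrib] at h3
  have h4 : qC q (fderiv ℂ p 0 v) (p 0) + qC q (p 0) (fderiv ℂ p 0 v) = 0 := h3
  rw [qC_comm q hq (fderiv ℂ p 0 v), ← two_mul] at h4
  exact (mul_eq_zero.1 h4).resolve_left two_ne_zero

/-- the thickened period map -/
def Phi (p : Cm b → Fin r → ℂ) (z : Cm b × ℂ × ℂ) : Fin r → ℂ :=
  z.2.1 • p z.1 + z.2.2 • star (p 0)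

theorem Phi_an (hp : AnalyticAt ℂ p 0) : AnalyticAt ℂ (Phi p) (0, 1, 0) := by
  have h1 : AnalyticAt ℂ (fun z : Cm b × ℂ × ℂ => p z.1) (0, 1, 0) :=
    AnalyticAt.comp (g := p) (f := fun z : Cm b × ℂ × ℂ => z.1) hp analyticAt_fst
  have h2 : AnalyticAt ℂ (fun z : Cm b × ℂ × ℂ => z.2.1) (0, 1, 0) :=
    analyticAt_fst.comp analyticAt_snd
  have h3 : AnalyticAt ℂ (fun z : Cm b × ℂ × ℂ => z.2.2) (0, 1, 0) :=
    analyticAt_snd.comp analyticAt_snd
  exact (h2.smul h1).add (h3.smul analyticAt_const)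

theorem Phi_fd (hp : DifferentiableAt ℂ p 0) (z : Cm b × ℂ × ℂ) :
    fderiv ℂ (Phi p) (0, 1, 0) z =
      z.2.1 • p 0 + fderiv ℂ p 0 z.1 + z.2.2 • star (p 0) := by
  have h1 : HasFDerivAt (fun z : Cm b × ℂ × ℂ => p z.1)
      ((fderiv ℂ p 0).comp (ContinuousLinearMap.fst ℂ _ _)) (0, 1, 0) :=
    HasFDerivAt.comp (g := p) (f := fun z : Cm b × ℂ × ℂ => z.1) _ hp.hasFDerivAt hasFDerivAt_fst
  have h2 : HasFDerivAt (fun z : Cm b × ℂ × ℂ => z.2.1)
      ((ContinuousLinearMap.fst ℂ _ _).comp (ContinuousLinearMap.snd ℂ _ _)) (0, 1, 0) :=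
    hasFDerivAt_fst.comp _ hasFDerivAt_snd
  have h3 : HasFDerivAt (fun z : Cm b × ℂ × ℂ => z.2.2)
      ((ContinuousLinearMap.snd ℂ _ _).comp (ContinuousLinearMap.snd ℂ _ _)) (0, 1, 0) :=
    hasFDerivAt_snd.comp _ hasFDerivAt_snd
  have h := ((h2.fun_smul h1).fun_add (h3.smul_const (star (p 0)))).fderiv
  have e : Phi p = fun z : Cm b × ℂ × ℂ => z.2.1 • p z.1 + z.2.2 • star (p 0) := rfl
  rw [e, h]
  simp [add_comm]

theorem Phi_inj (hq : qᵀ = q) (hp : DifferentiableAt ℂ p 0)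
    (h : ∀ᶠ t in 𝓝 (0 : Cm b), qC q (p t) (p t) = 0)
    (hi : ∀ (c : ℂ) (v : Cm b), c • p 0 + fderiv ℂ p 0 v = 0 → c = 0 ∧ v = 0)
    (hs : qC q (p 0) (star (p 0)) ≠ 0) : Function.Injective (fderiv ℂ (Phi p) (0, 1, 0)) := by
  refine (injective_iff_map_eq_zero _).2 fun z hz => ?_
  rw [Phi_fd hp] at hz
  have h1 := congrArg (qC q (p 0)) hz
  have h0 : qC q (p 0) 0 = 0 := by simp [qC]
  rw [qC_add_r, qC_add_r, qC_smul_r, qC_smul_r, h.self_of_nhds, tang hq hp h, h0, mul_zero,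
    add_zero, zero_add] at h1
  have h2 : z.2.2 = 0 := (mul_eq_zero.1 h1).resolve_right hs
  rw [h2, zero_smul, add_zero] at hz
  obtain ⟨h3, h4⟩ := hi _ _ hz
  exact Prod.ext h4 (Prod.ext h3 h2)

theorem exists_inv (hp : AnalyticAt ℂ p 0) (hb : b + 2 = r)
    (hi : Function.Injective (fderiv ℂ (Phi p) (0, 1, 0))) :
    ∃ (ψ : (Fin r → ℂ) → Cm b × ℂ × ℂ) (U : Set (Cm b × ℂ × ℂ)), AnalyticAt ℂ ψ (p 0) ∧
      ψ (p 0) = (0, 1, 0) ∧ (∀ᶠ x in 𝓝 (p 0), Phi p (ψ x) = x) ∧ U ∈ 𝓝 (0, 1, 0) ∧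
      InjOn (Phi p) U := by
  have hd : Module.finrank ℂ (Cm b × ℂ × ℂ) = Module.finrank ℂ (Fin r → ℂ) := by
    simp [← hb]
  let L : (Cm b × ℂ × ℂ) ≃L[ℂ] (Fin r → ℂ) := (LinearMap.linearEquivOfInjective
    (fderiv ℂ (Phi p) (0, 1, 0)).toLinearMap hi hd).toContinuousLinearEquiv
  have hL : (L : (Cm b × ℂ × ℂ) →L[ℂ] (Fin r → ℂ)) = fderiv ℂ (Phi p) (0, 1, 0) :=
    ContinuousLinearMap.ext fun _ => rfl
  have hc : ContDiffAt ℂ ω (Phi p) (0, 1, 0) := (Phi_an hp).contDiffAt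
  have hf : HasFDerivAt (Phi p) (L : (Cm b × ℂ × ℂ) →L[ℂ] (Fin r → ℂ)) (0, 1, 0) := by
    rw [hL]
    exact (Phi_an hp).differentiableAt.hasFDerivAt
  have hn : (ω : WithTop ℕ∞) ≠ 0 := by simp
  have e : Phi p (0, 1, 0) = p 0 := by simp [Phi]
  refine ⟨hc.localInverse hf hn, (hc.toOpenPartialHomeomorph _ hf hn).source, ?_, ?_, ?_, ?_, ?_⟩
  · rw [← e]
    exact (hc.to_localInverse hf hn).analyticAt
  · rw [← e]
    exact hc.localInverse_apply_image hf hn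
  · rw [← e]
    exact (hc.hasStrictFDerivAt' hf hn).eventually_right_inverse
  · exact (hc.toOpenPartialHomeomorph _ hf hn).open_source.mem_nhds
      (hc.mem_toOpenPartialHomeomorph_source hf hn)
  · exact (hc.toOpenPartialHomeomorph _ hf hn).injOn

end LocaH

open LocaH in
theorem loca : LOCA := by
  intro r b q p hq hp hb h hi hs
  obtain ⟨ψ, U, hψ, h0, hr, hU, hI⟩ :=
    exists_inv hp hb (Phi_inj hq hp.differentiableAt h hi hs)
  have hg : ContinuousAt (fun t => qC q (p t) (star (p 0))) 0 :=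
    (qC_cont q _).continuousAt.comp hp.continuousAt
  have hne : ∀ᶠ t in 𝓝 (0 : Cm b), qC q (p t) (star (p 0)) ≠ 0 := hg.eventually_ne hs
  have t1 : Tendsto (fun z : Cm b × Cm b => z.1) (𝓝 (0, 0)) (𝓝 0) := continuous_fst.tendsto _
  have t2 : Tendsto (fun z : Cm b × Cm b => z.2) (𝓝 (0, 0)) (𝓝 0) := continuous_snd.tendsto _
  refine ⟨?_, fun x => (ψ x).1, analyticAt_fst.comp hψ, by simp only [h0], ?_⟩
  · have t3 := (hg.tendsto.comp t1).div (hg.tendsto.comp t2) hs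
    rw [div_self hs] at t3
    have a1 := (t1.prodMk_nhds (tendsto_const_nhds (x := ((1, 0) : ℂ × ℂ)))).eventually hU
    have a2 := (t2.prodMk_nhds (t3.prodMk_nhds (tendsto_const_nhds (x := (0 : ℂ))))).eventually hU
    filter_upwards [a1, a2, t2.eventually hne] with z b1 b2 b3 c hc
    have e : qC q (p z.1) (star (p 0)) / qC q (p z.2) (star (p 0)) = c := by
      rw [hc, qC_smul_l, mul_div_assoc, div_self b3, mul_one]
    have b2' : (z.2, qC q (p z.1) (star (p 0)) / qC q (p z.2) (star (p 0)), (0 : ℂ)) ∈ U := b2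
    rw [e] at b2'
    have b4 := hI b1 b2' (by simp [Phi, hc])
    exact congrArg Prod.fst b4
  · have t0 : Tendsto ψ (𝓝 (p 0)) (𝓝 (0, 1, 0)) := by
      have := hψ.continuousAt.tendsto
      rwa [h0] at this
    have s1 : Tendsto (fun x => (ψ x).1) (𝓝 (p 0)) (𝓝 0) := (continuous_fst.tendsto _).comp t0
    have s2 : Tendsto (fun x => (ψ x).2.1) (𝓝 (p 0)) (𝓝 1) :=
      ((continuous_fst.comp continuous_snd).tendsto _).comp t0
    filter_upwards [hr, s1.eventually h, s1.eventually hne, s2.eventually_ne one_ne_zero] with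
      x b1 b2 b3 b4 hx _
    have hss : qC q (star (p 0)) (star (p 0)) = 0 := by rw [qC_star, h.self_of_nhds, star_zero]
    have b5 : (ψ x).2.2 = 0 := by
      rw [← b1, Phi, qC_add_l, qC_add_r, qC_add_r] at hx
      simp only [qC_smul_l, qC_smul_r] at hx
      rw [b2, hss, qC_comm q hq (star (p 0))] at hx
      have b6 : (ψ x).2.2 * (2 * (ψ x).2.1 * qC q (p (ψ x).1) (star (p 0))) = 0 := by
        rw [← hx]
        ring
      exact (mul_eq_zero.1 b6).resolve_right (mul_ne_zero (mul_ne_zero two_ne_zero b4) b3)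
    refine ⟨((ψ x).2.1)⁻¹, inv_ne_zero b4, ?_⟩
    rw [Phi, b5, zero_smul, add_zero] at b1
    rw [eq_inv_smul_iff₀ b4]
    exact b1

end Vale.Agent.P301Z.Dg
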