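import Vale.Agent.P301Z.Dg.Sk

/-!
# P301Z, block DEF: smooth hypersurfaces, small balls
-/

open scoped ContDiff Topology
open Filter Set Metric
open Vale.Agent.P272.K
open Vale.Agent.P301Z.Lat

noncomputable section

namespace Vale.Agent.P301Z.Dg

namespace Locb

theorem split {b : ℕ} (L : Cm b →L[ℂ] ℂ) (h : L ≠ 0) :
    ∃ (b' : ℕ) (E : Cm b ≃L[ℂ] ℂ × Cm b'), ∀ x, (E x).1 = L x := by
  obtain ⟨v, hv⟩ : ∃ v, L v ≠ 0 := by
    by_contra! h1
    exact h (ContinuousLinearMap.ext h1)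
  have h2 : Function.RightInverse (ContinuousLinearMap.toSpanSingleton ℂ ((L v)⁻¹ • v)) L :=
    fun c => by simp [hv]
  refine ⟨Module.finrank ℂ L.ker, (ContinuousLinearEquiv.equivOfRightInverse L _ h2).trans
    ((ContinuousLinearEquiv.refl ℂ ℂ).prodCongr (ContinuousLinearEquiv.ofFinrankEq (by simp))),
    fun x => rfl⟩

end Locb

theorem locb : LOCB := by
  intro b g hg h0 h1
  obtain ⟨b', E, hE⟩ := Locb.split _ h1
  let π : Cm b →L[ℂ] Cm b' := (ContinuousLinearMap.snd ℂ ℂ (Cm b')).comp (E : Cm b →L[ℂ] _)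
  have c1 : ContDiffAt ℂ ω (fun t => (g t, π t)) 0 := hg.contDiffAt.prodMk π.contDiff.contDiffAt
  have c2 : HasFDerivAt (fun t => (g t, π t)) (E : Cm b →L[ℂ] ℂ × Cm b') 0 :=
    (hg.differentiableAt.hasFDerivAt.prodMk π.hasFDerivAt).congr_fderiv
      (ContinuousLinearMap.ext fun x => Prod.ext (hE x).symm rfl)
  have e0 : (g 0, π 0) = (0, 0) := by rw [h0, map_zero]
  have c3 := c1.to_localInverse c2 (by simp)
  have c4 := (c1.hasStrictFDerivAt' c2 (by simp)).eventually_right_inverse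
  have c5 := (c1.hasStrictFDerivAt' c2 (by simp)).eventually_left_inverse
  have c6 : Tendsto (fun s : Cm b' => ((0 : ℂ), s)) (𝓝 0) (𝓝 (0, 0)) :=
    (Continuous.prodMk_right (0 : ℂ)).tendsto 0
  beta_reduce at c3 c4
  rw [e0] at c3 c4
  refine ⟨b', fun s => c1.localInverse c2 (by simp) (0, s), π,
    AnalyticAt.comp (f := fun s : Cm b' => ((0 : ℂ), s)) c3.analyticAt
      (analyticAt_const.prod analyticAt_id), π.analyticAt 0, ?_, map_zero π, ?_, ?_⟩
  · exact (congrArg _ e0.symm).trans c5.self_of_nhds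
  · filter_upwards [c6.eventually c4] with s hs
    exact ⟨congrArg Prod.fst hs, congrArg Prod.snd hs⟩
  · filter_upwards [c5] with t ht h
    rwa [h] at ht

theorem ball_ : BALL := by
  intro r b q p Z h
  obtain ⟨ε, hε, h1⟩ := eventually_nhds_iff_ball.1 h.inj
  obtain ⟨χ, h2, h3, h4⟩ := h.inv
  refine ⟨ε, hε, fun R hR hle => ⟨fun t ht t' ht' => h1 (t, t') ?_, ?_⟩⟩
  · rw [← ball_prod_same]
    exact ⟨ball_subset_ball hle ht, ball_subset_ball hle ht'⟩
  · have h5 : ∀ᶠ x in 𝓝 (p 0), χ x ∈ ball (0 : Cm b) R :=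
      h2.continuousAt.eventually (h3.symm ▸ ball_mem_nhds (0 : Cm b) hR)
    obtain ⟨N, h6, h7, h8⟩ := _root_.eventually_nhds_iff.1 (h2.eventually_analyticAt.and (h5.and h4))
    exact ⟨N, χ, h7, h8, fun x hx => (h6 x hx).1.differentiableAt.differentiableWithinAt, h3,
      fun x hx e hz => ⟨(h6 x hx).2.1, (h6 x hx).2.2 e hz⟩⟩

end Vale.Agent.P301Z.Dg
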