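import Vale.Agent.P301Z.Dg.Sk
import Vale.Agent.P301Z.An.Cnn
import Mathlib.Analysis.Calculus.InverseFunctionTheorem.ContDiff

/-!
# P301Z, block DEF: holomorphic frames in a family
-/

open scoped ContDiff Topology
open Filter Set Complex ContinuousLinearMap
open Vale.Agent.P272.K
open Vale.Agent.P301Z.An (Dy Sm)
open Vale.Agent.P301Z.An.Cnn

noncomputable section

namespace Vale.Agent.P301Z.Dg

namespace Lf

theorem gen (hD : DL) (h : DOLC) {E : Type} [NormedAddCommGroup E] [NormedSpace ℝ E]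
    [NormedSpace ℂ E] [IsScalarTower ℝ ℂ E] [FiniteDimensional ℝ E] {Φ : E → E}
    {l : E → E →L[ℝ] ℂ} {q₀ : E} (hΦ : Sm Φ q₀) (hl : Sm l q₀)
    (hb : ∀ᶠ q in 𝓝 q₀, Function.Bijective (fderiv ℝ Φ q))
    (h0 : ∀ᶠ q in 𝓝 q₀, ∀ u u' x x', fderiv ℝ Φ q u' = I • fderiv ℝ Φ q u →
      fderiv ℝ Φ q x' = I • fderiv ℝ Φ q x → f1e (dl l q) u u' x x' = 0) :
    ∃ f : E → ℂ, Sm f q₀ ∧ ∀ᶠ q in 𝓝 q₀, ∀ u u', fderiv ℝ Φ q u' = I • fderiv ℝ Φ q u →
      (fderiv ℝ f q + l q) u' = I * (fderiv ℝ f q + l q) u := by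
  have := FiniteDimensional.complete ℝ E
  have hd : ∀ᶠ q in 𝓝 q₀, ∃ T : E ≃L[ℝ] E, HasFDerivAt Φ (T : E →L[ℝ] E) q := by
    filter_upwards [hb, sm_diff hΦ] with q k1 k2
    obtain ⟨T, hT⟩ := inv_of_bij k1
    exact ⟨T, hT ▸ k2.hasFDerivAt⟩
  obtain ⟨T₀, hT₀⟩ := hd.self_of_nhds
  obtain ⟨P, rfl, p0⟩ : ∃ P : OpenPartialHomeomorph E E, (P : E → E) = Φ ∧ q₀ ∈ P.source :=
    ⟨hΦ.self_of_nhds.toOpenPartialHomeomorph Φ hT₀ (by simp), rfl,
      hΦ.self_of_nhds.mem_toOpenPartialHomeomorph_source hT₀ (by simp)⟩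
  have t1 : Tendsto P.symm (𝓝 (P q₀)) (𝓝 q₀) := P.tendsto_symm p0
  have t2 : Tendsto P (𝓝 q₀) (𝓝 (P q₀)) := P.continuousAt p0
  have hz : ∀ᶠ z in 𝓝 (P q₀), ContDiffAt ℝ ∞ P.symm z ∧
      (∀ v, fderiv ℝ P (P.symm z) (fderiv ℝ P.symm z v) = v) ∧
      ∀ v, fderiv ℝ P.symm z (fderiv ℝ P (P.symm z) v) = v := by
    filter_upwards [t1.eventually (hd.and hΦ), P.open_target.mem_nhds (P.map_source p0)]
      with z ⟨⟨T, k1⟩, k2⟩ k3
    rw [k1.fderiv, (P.hasFDerivAt_symm k3 k1).fderiv]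
    exact ⟨P.contDiffAt_symm k3 k1 k2, T.apply_symm_apply, T.symm_apply_apply⟩
  obtain ⟨g, g1, g2⟩ := h E (fun z => (l (P.symm z)).comp (fderiv ℝ P.symm z)) (P q₀)
    (by
      filter_upwards [hz, t1.eventually hl] with z k1 k2
        using (k2.comp z k1.1).clm_comp (k1.1.fderiv_right (m := ∞) le_rfl))
    (by
      filter_upwards [hz, t1.eventually (h0.and (sm_diff hl))] with z k1 k2 v v'
      have k3 := fun a a' => hD.pb E E P.symm l z a a' k1.1 k2.2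
      simp only [f1e, k3]
      exact k2.1 _ _ _ _ (by rw [k1.2.1, k1.2.1]) (by rw [k1.2.1, k1.2.1]))
  refine ⟨fun q => g (P q), ?_, ?_⟩
  · filter_upwards [hΦ, t2.eventually g1] with q k1 k2 using k2.comp q k1
  filter_upwards [sm_diff hΦ, t2.eventually ((sm_diff g1).and (g2.and hz)),
    P.open_source.mem_nhds p0] with q k1 ⟨k2, k3, _, _, k4⟩ k5 u u' e
  have k6 : ∀ u, (fderiv ℝ (fun q => g (P q)) q + l q) u = (fderiv ℝ g (P q) +
      (l (P.symm (P q))).comp (fderiv ℝ P.symm (P q))) (fderiv ℝ P q u) := fun u => by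
    rw [P.left_inv k5] at k4 ⊢
    rw [fderiv_fun_comp q k2 k1, add_apply, add_apply, comp_apply, comp_apply, k4]
  rw [k6, k6, e, k3]

variable {P E F : Type} [NormedAddCommGroup P] [NormedSpace ℝ P] [NormedAddCommGroup E]
  [NormedSpace ℝ E] [NormedAddCommGroup F] [NormedSpace ℝ F]

theorem split {f : P × E → F} {q : P × E} (h : DifferentiableAt ℝ f q) (a : P) (u : E) :
    fderiv ℝ f q (a, u) = fderiv ℝ f q (a, 0) + Dy f q u := by
  rw [Dy_eq h, comp_apply, inr_apply, ← map_add, Prod.mk_add_mk, add_zero, zero_add]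

theorem fd_pair {f : P × E → F} {q : P × E} (h : DifferentiableAt ℝ f q) (c : P × E) :
    fderiv ℝ (fun q => (q.1, f q)) q c = (c.1, fderiv ℝ f q c) := by
  rw [(hasFDerivAt_fst.prodMk h.hasFDerivAt).fderiv]
  rfl

theorem fd_snd {α : P × E → E →L[ℝ] F} {q : P × E} (h : DifferentiableAt ℝ α q) (c c' : P × E) :
    fderiv ℝ (fun q => (α q).comp (snd ℝ P E)) q c c' = fderiv ℝ α q c c'.2 := by
  rw [(h.hasFDerivAt.clm_comp (hasFDerivAt_const (snd ℝ P E) q)).fderiv]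
  simp

end Lf

theorem locf_of (hD : DL) (h : DOLC) : LOCF := by
  intro b d W α q₀ hW hα H
  obtain ⟨f, f1, f2⟩ := Lf.gen hD h (Φ := fun q => (q.1, W q))
    (l := fun q => (α q).comp (snd ℝ (Cm b) (Cm d))) (q₀ := q₀)
    (hW.mono fun q hq => contDiffAt_fst.prodMk hq)
    (hα.mono fun q hq => hq.clm_comp contDiffAt_const)
    (by
      filter_upwards [sm_diff hW, H] with q k1 k2
      have k3 : Function.Injective (fderiv ℝ (fun q => (q.1, W q)) q) :=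
        (injective_iff_map_eq_zero _).2 fun ⟨a, u⟩ e => by
          rw [Lf.fd_pair k1, Prod.mk_eq_zero] at e
          obtain ⟨rfl, e⟩ : a = 0 ∧ _ := e
          rw [Lf.split k1, Prod.mk_zero_zero, map_zero, zero_add] at e
          rw [(injective_iff_map_eq_zero _).1 k2.1.1 u e, Prod.mk_zero_zero]
      exact ⟨k3, LinearMap.injective_iff_surjective.1 (show Function.Injective
        (fderiv ℝ (fun q => (q.1, W q)) q).toLinearMap from k3)⟩)
    (by
      filter_upwards [sm_diff hW, sm_diff hα, H] with q k1 k2 ⟨_, k3, k4, k5⟩ ⟨a, u⟩ ⟨a', u'⟩ ⟨c, v⟩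
        ⟨c', v'⟩ e1 e2
      rw [Lf.fd_pair k1, Lf.fd_pair k1, Prod.smul_mk, Prod.mk.injEq] at e1 e2
      obtain ⟨rfl, e1⟩ : a' = I • a ∧ _ := e1
      obtain ⟨rfl, e2⟩ : c' = I • c ∧ _ := e2
      rw [Lf.split k1, Lf.split k1 _ u, (hol_iff k1).1 k3, smul_add, add_right_inj] at e1
      rw [Lf.split k1, Lf.split k1 _ v, (hol_iff k1).1 k3, smul_add, add_right_inj] at e2
      have k6 : ∀ a u, fderiv ℝ α q (I • a, 0) u = I * fderiv ℝ α q (a, 0) u := fun a u => by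
        have := (hol_iff (has_app k2 u).differentiableAt).1 (k4 u) a
        rwa [(has_app k2 u).fderiv] at this
      have k7 := k5 u u' v v' e1 e2
      simp only [f1e, dl, Lf.fd_snd k2, Lf.split k2 _ u, Lf.split k2 _ u', Lf.split k2 _ v,
        Lf.split k2 _ v', add_apply, k6] at k7 ⊢
      simp only [Dy]
      linear_combination k7 + (fderiv ℝ α q (a, 0) v - fderiv ℝ α q (c, 0) u) * I_mul_I)
  refine ⟨f, f1, ?_⟩
  filter_upwards [sm_diff hW, sm_diff f1, f2, H] with q k1 k2 k3 ⟨_, k4, _⟩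
  refine ⟨(hol_iff k2).2 fun a => ?_, fun v v' e => ?_⟩
  · simpa using k3 (a, 0) (I • a, 0) (by
      rw [Lf.fd_pair k1, Lf.fd_pair k1, Prod.smul_mk, (hol_iff k1).1 k4])
  · rw [Dy_eq k1] at e
    rw [Dy_eq k2]
    exact k3 (0, v) (0, v') (by
      rw [Lf.fd_pair k1, Lf.fd_pair k1, Prod.smul_mk, smul_zero]
      exact congrArg _ e)

end Vale.Agent.P301Z.Dg
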