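import Vale.Agent.P301Z.Dg.Sk

/-!
# P301Z, block DEF: local coordinates and frames
-/

open scoped Manifold ContDiff ComplexOrder Topology Matrix
open Filter Complex
open Vale.Agent.P272.K Vale.Agent.P299.IX Vale.Agent.P299.IX.Fock
open Vale.Agent.P281Z (Mf)
open Vale.Agent.P281Z.Hg Vale.Agent.P301Z.Lat Vale.Agent.P301Z.Rot
open Vale.Agent.P301Z.An (Dy Sm)
open Vale.Agent.P301.H599 (LineBundle)

noncomputable section

namespace Vale.Agent.P301Z.Dg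

namespace LqH

variable {d b : ℕ}

theorem bv_hol {z : Cm b → Fo d} {t : Cm b} (h : DifferentiableAt ℂ z t) (v v' : Cm d) :
    DifferentiableAt ℂ (fun t => bv (z t) v v') t :=
  (LinearMap.toContinuousLinearMap (⟨⟨fun u => bv u v v', fun u u' => bv_add u u' v v'⟩,
    fun c u => bv_smul c u v v'⟩ : Fo d →ₗ[ℂ] ℂ)).differentiableAt.comp t h

theorem near {V : Mf d} {e : Chart d V.X} {x : V.X} (h : At e x) {U : Set V.X} (hU : U ∈ 𝓝 x)
    {N : Set (Cm b)} (hN : N ∈ 𝓝 0) {Q : Cm b × Cm d → Prop}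
    (k : ∀ t ∈ N, ∀ y ∈ U, At e y → Q (t, e y)) : ∀ᶠ q in 𝓝 ((0 : Cm b), e x), Q q := by
  have k1 : ∀ᶠ z in 𝓝 (e x), e.symm z ∈ U :=
    (e.continuousAt_symm (e.map_source h.2)).eventually_mem (by rwa [e.left_inv h.2])
  filter_upwards [Filter.Eventually.prodMk_nhds hN
    (k1.and (e.open_target.mem_nhds (e.map_source h.2)))] with q hq
  have k2 := k q.1 hq.1 _ hq.2.1 ⟨h.1, e.map_target hq.2.2⟩
  rwa [e.right_inv hq.2.2] at k2

variable {V : Mf d} {ι : Type} {Ω a : Cm b → Fs V} {L : LineBundle d V.X ι} {ρ : ι → V.X → ℝ}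
  {η : Fs V} {N : Set (Cm b)} {t : Cm b} {e : Chart d V.X} {y : V.X} {i : ι}

theorem cn_hol (A : Api) (C : Cn Ω L ρ η a N) (ht : t ∈ N) (hy : At e y) (v : Cm d) :
    DifferentiableAt ℂ (fun t => cn ρ a i e (t, e y) v) t := by
  simp only [cn, sub_apply, smul_apply, smul_eq_mul]
  exact (differentiableAt_const _).sub
    (((A.one.lv_hol v).differentiableAt.comp t (C.hol t ht e y hy)).const_mul I)

theorem cn_sm (A : Api) (C : Cn Ω L ρ η a N) (ht : t ∈ N) (hy : At e y) (hi : y ∈ L.U i) :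
    ContDiffAt ℝ ∞ (cn ρ a i e) (t, e y) := by
  have s1 : ContDiffAt ℝ ∞ (fun q : Cm b × Cm d => del (fun z => ρ i (e.symm z)) q.2) (t, e y) :=
    ContDiffAt.comp (g := del fun z => ρ i (e.symm z)) (f := Prod.snd) (t, e y)
      (A.dl.del_cd (C.met.smooth i e y hy hi)) contDiffAt_snd
  have s2 : ContDiffAt ℝ ∞ (fun q : Cm b × Cm d => lv (vl (a q.1) e q.2)) (t, e y) :=
    A.one.lv_cd.contDiffAt.comp _ (C.fam t ht e y hy)
  exact s1.neg.sub (s2.const_smul I)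

theorem cn_dl (A : Api) (hL : D11) (C : Cn Ω L ρ η a N) (hy : At e y) (hi : y ∈ L.U i)
    (v v' : Cm d) : dl (fun z => cn ρ a i e (t, z)) (e y) v v' =
      -I * bv (vl (η + (dR V).d (a t)) e (e y)) v v' := by
  have s1 := C.met.smooth i e y hy hi
  have s2 := (A.dl.del_cd s1).differentiableAt (by simp)
  have s3 := ((vl_isF (a t)).sm e y hy).differentiableAt (by simp)
  have s4 : DifferentiableAt ℝ (fun z => lv (vl (a t) e z)) (e y) :=
    (A.one.lv_cd.differentiable (by simp) _).comp _ s3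
  have k : (fun z => cn ρ a i e (t, z)) = fun z => (-1 : ℂ) • del (fun z => ρ i (e.symm z)) z +
      (-I) • lv (vl (a t) e z) := funext fun z => by
    ext v
    simp [cn, sub_eq_add_neg]
  have k1 := A.dl.add _ (fun z => (-1 : ℂ) • del (fun z => ρ i (e.symm z)) z)
    (fun z => (-I) • lv (vl (a t) e z)) (e y) v v' (s2.fun_const_smul (-1 : ℂ))
    (s4.fun_const_smul (-I))
  rw [k, k1, A.dl.smul _ _ _ _ _ _ s2, A.dl.smul _ _ _ _ _ _ s4, A.dl.del_dl v v' s1,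
    ← A.one.bv_dT v v' s3, vl_add, bv_add, (dR_real V).d _ e y hy, C.cur e y hy,
    (hL.curv C.met).2 i e y hy hi]
  show _ = -I * (bv (f11 (cHess (fun z => ρ i (e.symm z)) (e y))) v v' + _)
  ring

theorem ex_W (hN : An.CNN) (h0 : N ∈ 𝓝 0) (f1 : Fam Ω N) (f2 : HolF Ω N)
    (f3 : ∀ t ∈ N, Cl2 V (Ω t) ∧ CsF (Ω t)) (he : At e y) :
    ∃ W : Cm b × Cm d → Cm d, Sm W (0, e y) ∧ ∀ᶠ q in 𝓝 ((0 : Cm b), e y),
      Function.Bijective (Dy W q) ∧ CL (vl (Ω q.1) e q.2) (Dy W q) ∧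
        DifferentiableAt ℂ (fun t => W (t, q.2)) q.1 := by
  have k := near he univ_mem h0 (Q := fun q => ContDiffAt ℝ ∞ (fun q : Cm b × Cm d =>
    vl (Ω q.1) e q.2) q ∧ ContDiffAt ℝ 1 (vl (Ω q.1) e) q.2 ∧ dT (vl (Ω q.1) e) q.2 = 0 ∧
    Cs (vl (Ω q.1) e q.2) ∧ DifferentiableAt ℂ (fun t => vl (Ω t) e q.2) q.1) fun t ht y _ hy =>
      ⟨f1 t ht e y hy, ((vl_isF (Ω t)).sm e y hy).of_le (by norm_cast), cl_dT (f3 t ht).1 hy,
        (f3 t ht).2 e y hy, f2 t ht e y hy⟩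
  obtain ⟨W, w1, w2⟩ := hN (Cm b) (Cm d) (fun q => bL (vl (Ω q.1) e q.2)) (0, e y)
    (k.mono fun q hq => bL_cd hq.1)
    (fun u hu => k.self_of_nhds.2.2.2.1.nd u fun v => by rw [← bL_apply]; exact hu v) (by
      filter_upwards [k] with q hq
      refine ⟨fun u v => ?_, closed_bL hq.2.1 hq.2.2.1, fun u => ?_, fun u v => ?_⟩
      · rw [bL_apply, bL_apply, bv_skew]
      · simpa only [bL_apply, Jr] using hq.2.2.2.1.ex u
      · simpa only [bL_apply] using bv_hol hq.2.2.2.2 u v)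
  exact ⟨W, w1, w2.mono fun q hq => ⟨hq.1, fun v v' h => hq.2.1 v v' fun c => by
    simpa only [bL_apply] using h c, hq.2.2⟩⟩

end LqH

open LqH

theorem lq_of (A : Api) (hL : D11) (hN : An.CNN) (hF : LOCF) : LQ := by
  intro d b V ι Ω L ρ η a N hNo h0 f1 f2 f3 C x
  obtain ⟨i, hi⟩ := L.cover x
  obtain ⟨e, he⟩ : ∃ e : Chart d V.X, At e x := ⟨_, chart_mem_atlas _ _, mem_chart_source _ _⟩
  have n1 := (L.isOpen i).mem_nhds hi
  have n2 := hNo.mem_nhds h0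
  obtain ⟨W, w1, w2⟩ := ex_W hN n2 f1 f2 f3 he
  have w4 : ∀ᶠ q in 𝓝 ((0 : Cm b), e x), Cs (vl (Ω q.1) e q.2) ∧ F1 (vl (Ω q.1) e q.2)
      (vl (η + (dR V).d (a q.1)) e q.2) ∧
      (∀ v, DifferentiableAt ℂ (fun t => cn ρ a i e (t, q.2) v) q.1) ∧ ∀ v v',
      dl (fun y => cn ρ a i e (q.1, y)) q.2 v v' =
        -I * bv (vl (η + (dR V).d (a q.1)) e q.2) v v' := near he n1 n2 fun t ht y hy' hy =>
    ⟨(f3 t ht).2 e y hy, C.f1 t ht e y hy, cn_hol A C ht hy, cn_dl A hL C hy hy'⟩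
  obtain ⟨f, g1, g2⟩ := hF b d W (cn ρ a i e) (0, e x) w1
    (near he n1 n2 fun t ht y hy' hy => cn_sm A C ht hy hy') (by
      filter_upwards [w2, w4] with q h2 h4
      have j : ∀ v v', Dy W q v' = I • Dy W q v → Jr (vl (Ω q.1) e q.2) v v' := fun v v' h => by
        obtain ⟨v'', k⟩ := h4.1.ex v
        rwa [h2.1.1 ((h2.2.1 v v'' k).trans h.symm)] at k
      refine ⟨h2.1, h2.2.2, h4.2.2.1, fun v v' u u' hv hu => ?_⟩
      have k := h4.2.1 v v' u u' (j v v' hv) (j u u' hu)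
      simp only [f1e, h4.2.2.2] at k ⊢
      linear_combination -I * k)
  refine ⟨e, i, W, f, he, hi, ?_⟩
  filter_upwards [w1, w2, g1, g2] with q h1 h2 h4 h5
  exact ⟨h1, h2.1, h2.2.1, h2.2.2, h4, fun v v' h => h5.2 v v' (h2.2.1 v v' h), h5.1⟩

end Vale.Agent.P301Z.Dg
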