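import Vale.Agent.P301Z.Dg.Sk

/-!
# P301Z, block DEF, row ORI: the identity preserves the orientation
-/

open scoped Manifold ContDiff ComplexOrder Topology Matrix
open Filter Set Metric Complex
open Vale.Agent.P272.K Vale.Agent.P299.IX Vale.Agent.P299.IX.Fock
open Vale.Agent.P281Z (Mf)
open Vale.Agent.P281Z.Hg Vale.Agent.P301Z.Lat
open Vale.Agent.P301Z.Rot (bv cxL Jr Cov Adp mfOf idOf trn)

noncomputable section

namespace Vale.Agent.P301Z.Dg

namespace OriA

variable {d : ℕ}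

/-- the real part of a form, times two -/
def rp (u : Fo d) : Fo d := u + cjv u

theorem rp_cont : Continuous (rp : Fo d → Fo d) :=
  continuous_id.add (continuous_const.matrix_mulVec continuous_star)

theorem rp_im (hL : LAT) {u : Fo d} (h : dg 2 *ᵥ u = u) : (pw (rp u)).im = 0 := by
  have h1 : cjv (rp u) = rp u := by
    rw [rp, f1b.cjv_add, f1b.cjv_cjv, add_comm]
  have h2 : dg 2 *ᵥ rp u = rp u := by
    rw [rp, Matrix.mulVec_add, h, ← f1b.cjv_dg, h]
  have h3 := hL.pwb.cjv _ h2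
  rw [h1] at h3
  have h4 := congrArg Complex.im h3
  rw [Complex.star_def, Complex.conj_im] at h4
  linarith

theorem vl_rp {V : Mf d} (u : Fs V) {e : Chart d V.X} {x : V.X} (h : At e x) :
    vl (u + (dR V).cj u) e (e x) = rp (vl u e (e x)) := by
  rw [vl_add, (dR_real V).cj u e x h, rp]

theorem pos_ch (hL : LAT) {V : Mf d} (u : Fs V) {e e' : Chart d V.X} {x : V.X} (h : At e x)
    (h' : At e' x) (k : 0 < pw (vl u e' (e' x))) : 0 < pw (vl u e (e x)) := by
  rw [(vl_isF u).ch e e' x h h', hL.pwb.lam]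
  refine mul_pos ?_ k
  have h1 : (jt e e' x).det ≠ 0 := by
    have := congrArg Matrix.det ((g1T d V.X).jt_inv e e' x h h')
    rw [Matrix.det_mul, Matrix.det_one] at this
    exact left_ne_zero_of_mul_eq_one this
  rw [(g1T d V.X).jt_det e e' x h h'] at h1 ⊢
  exact Complex.zero_lt_real.2 (lt_of_le_of_ne (sq_nonneg _) fun k => h1 (by rw [← k]; simp))

end OriA

open OriA in
/-- row ORI -/
theorem ori_of (hL : LAT) (hR : RE) : ORI := by
  intro d b V Ω N s hN hF hc hs h20 hdet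
  have key : ∀ᶠ t in 𝓝 (0 : Cm b), ∀ y ∈ (univ : Set V.X),
      ∃ e, At e y ∧ 0 < (pw (rp (vl (Ω t) e (e y)))).re := by
    refine isCompact_univ.eventually_forall_of_forall_eventually fun x _ => ?_
    have hx : At (chartAt (Cm d) x) x := ⟨chart_mem_atlas _ _, mem_chart_source _ _⟩
    generalize chartAt (Cm d) x = e at hx
    have c1 : ContinuousAt (fun q : Cm b × V.X => ((q.1, e q.2) : Cm b × Cm d)) (0, x) :=
      continuousAt_fst.prodMk ((e.continuousAt hx.2).comp_of_eq continuousAt_snd rfl)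
    have c2 : ContinuousAt (fun q : Cm b × V.X => (pw (rp (vl (Ω q.1) e (e q.2)))).re) (0, x) :=
      ((Complex.continuous_re.comp (hL.pwb.cont.comp rp_cont)).continuousAt).comp
        ((hF 0 (mem_of_mem_nhds hN) e x hx).continuousAt.comp_of_eq c1 rfl)
    have p0 : 0 < (pw (rp (vl (Ω 0) e (e x)))).re := by
      rw [h20 e x hx]
      exact (Complex.lt_def.1 (hL.pwc.ss _ (hs.alt e x hx) (hdet e x hx))).1
    have e1 : ∀ᶠ q : Cm b × V.X in 𝓝 (0, x), q.2 ∈ e.source :=
      continuousAt_snd.eventually_mem (e.open_source.mem_nhds hx.2)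
    filter_upwards [c2.eventually (lt_mem_nhds p0), e1] with q h1 h2
    exact ⟨e, ⟨hx.1, h2⟩, h1⟩
  filter_upwards [key, hN] with t ht htN H
  obtain ⟨⟨T, hT⟩, -, -, h4⟩ := pb1T d (mfOf H).X d V.X (idOf H).symm (Rot.smo_idOf_symm H)
  obtain ⟨-, -, hcj, -⟩ := h4 T _ _ hT (dR_real (mfOf H)) (dR_real V)
  obtain ⟨s', hs', h20', hdet'⟩ := hR.sym H hT (hc t htN).1 (hc t htN).2
  refine hL.vol.ori (u := Ω t + (dR V).cj (Ω t)) (Rot.smo_idOf_symm H) hT (fun e x h => ?_)
    fun e x h => ?_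
  · obtain ⟨e', h', k⟩ := ht x (mem_univ x)
    refine pos_ch hL _ h h' ?_
    rw [vl_rp _ h']
    exact Complex.lt_def.2 ⟨k, (rp_im hL (Rot.cl_dg (hc t htN).1 h')).symm⟩
  · rw [map_add, hcj, vl_rp _ h, h20' e x h]
    exact hL.pwc.ss _ (hs'.alt e x h) (hdet' e x h)

end Vale.Agent.P301Z.Dg
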