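import Vale.Agent.P301Z.Dg.Sk

/-!
# P301Z, block DEF, row PX1: the component of type `(1, 0)` of a one-form
-/

open scoped Manifold ContDiff ComplexOrder Topology Matrix
open Filter Set Metric Complex
open Vale.Agent.P272.K Vale.Agent.P299.IX Vale.Agent.P299.IX.Fock
open Vale.Agent.P281Z (Mf)
open Vale.Agent.P281Z.Hg Vale.Agent.P301Z.Lat
open Vale.Agent.P301Z.Rot (trn at_cd ev_pt)

noncomputable section

namespace Vale.Agent.P301Z.Dg

namespace Px1

variable {d : ℕ} {V : Mf d}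

theorem p10_apply (J : Cm d →L[ℝ] Cm d) (l : Cm d →L[ℝ] ℂ) (v : Cm d) :
    p10 J l v = 1 / 2 * (l v - I * l (J v)) := rfl

theorem cd (h : ONE) (hJ : JS) {P : Type} [NormedAddCommGroup P] [NormedSpace ℝ P]
    [FiniteDimensional ℝ P] {u t : P → Fo d} {q : P} (hu : ContDiffAt ℝ ∞ u q)
    (hc : ∀ᶠ q' in 𝓝 q, Cs (u q')) (ht : ContDiffAt ℝ ∞ t q) :
    ContDiffAt ℝ ∞ (fun q' => o1 (p10 (Jf (u q')) (lv (t q')))) q := by
  have h1 : ContDiffAt ℝ ∞ (fun q' => lv (t q')) q := h.lv_cd.contDiffAt.comp q ht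
  exact h.o1_cd.contDiffAt.comp q
    ((h1.sub ((h1.clm_comp (hJ.sm P u q hu hc)).const_smul I)).const_smul (1 / 2 : ℂ))

theorem ext' {u v : Fs V} (h : ∀ e x, At e x → vl u e (e x) = vl v e (e x)) : u = v :=
  (g1T d V.X).ext u v fun x => ⟨_, ⟨chart_mem_atlas _ x, mem_chart_source _ x⟩,
    h _ x ⟨chart_mem_atlas _ x, mem_chart_source _ x⟩⟩

theorem d1 (h : ONE) {Ω θ θ' : Fs V} (k : IsP Ω θ θ') : D1 V θ' :=
  ext' fun e x hx => by rw [(dR_real V).dg 1 θ' e x hx, k e x hx, h.dg_o1]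

theorem eq_o1 (h : ONE) {u : Fs V} (k : D1 V u) {e : Chart d V.X} {x : V.X} (hx : At e x) :
    vl u e (e x) = o1 (lv (vl u e (e x))) := by
  rw [h.o1_lv, ← (dR_real V).dg 1 u e x hx, k]

end Px1

open Px1 in
theorem px1_of (h : ONE) (hJ : JS) : PX1 where
  ex := by
    intro d V Ω hΩ θ
    obtain ⟨v, hv⟩ := (g1T d V.X).mkf (fun e y => o1 (p10 (Jf (vl Ω e y)) (lv (vl θ e y))))
      (fun e x hx => cd h hJ ((vl_isF Ω).sm e x hx)
        (ev_pt hx (Q := fun z => Cs (vl Ω e z)) fun y hy => hΩ e y hy) ((vl_isF θ).sm e x hx))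
      fun e e' x hx hx' => by
        change _ = lam (jc (trn e e') (e x)) *ᵥ _
        rw [h.o1_jc _ ((at_cd hx hx').differentiableAt (by simp))]
        refine congrArg o1 (ContinuousLinearMap.ext fun v => ?_)
        rw [ContinuousLinearMap.comp_apply, p10_apply, p10_apply, h.lv_ch θ hx hx',
          ContinuousLinearMap.comp_apply, ContinuousLinearMap.comp_apply, hJ.ch hΩ hx hx']
    exact ⟨v, fun e x hx => (hv e x hx).self_of_nhds⟩
  d1 := fun k => d1 h k
  zero := by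
    intro d V Ω θ' k
    refine ext' fun e x hx => ?_
    have h0 : lv (0 : Fo d) = 0 := by
      have := h.lv_sub (0 : Fo d) 0
      rwa [sub_self, sub_self] at this
    rw [k e x hx, vl_zero, h0, ← h.o1_zero]
    exact congrArg o1 (ContinuousLinearMap.ext fun v => by simp [p10_apply])
  cl := by
    intro d V Ω θ θ' hΩ k e x hx v v' hv
    rw [k e x hx, h.lv_o1, hJ.uq (hΩ e x hx) hv, p10_apply, p10_apply, hJ.sq (hΩ e x hx), map_neg,
      smul_eq_mul]
    linear_combination (1 / 2 * lv (vl θ e (e x)) (Jf (vl Ω e (e x)) v)) * I_mul_I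
  cj := by
    intro d V Ω θ θ' _ h1 hc k
    have a1 : D1 V ((dR V).cj θ') := by
      rw [D1, ← (dR_ok V).cjdg, d1 h k]
    have a2 : D1 V (θ' - θ) := by
      rw [D1, map_sub, d1 h k, h1]
    refine ext' fun e x hx => ?_
    rw [eq_o1 h a1 hx, eq_o1 h a2 hx]
    refine congrArg o1 (ContinuousLinearMap.ext fun v => ?_)
    have b : ∀ v, star (lv (vl θ e (e x)) v) = -lv (vl θ e (e x)) v := fun v => by
      rw [← h.lv_cjv, ← (dR_real V).cj θ e x hx, hc, vl_neg, ← neg_one_smul ℂ, h.lv_smul]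
      exact neg_one_mul _
    rw [(dR_real V).cj θ' e x hx, h.lv_cjv, vl_sub, h.lv_sub, _root_.sub_apply,
      k e x hx, h.lv_o1, p10_apply, star_mul', star_sub, star_mul', b, b, Complex.star_def, conj_I]
    simp only [map_div₀, map_one, map_ofNat]
    ring
  fam := by
    intro d V P _ _ _ Ω θ θ' N hN hΩ hθ k t ht e x hx
    have ev : ∀ {Q : P → Cm d → Prop}, (∀ s ∈ N, ∀ y, At e y → Q s (e y)) →
        ∀ᶠ q : P × Cm d in 𝓝 (t, e x), Q q.1 q.2 := fun {Q} hQ => by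
      filter_upwards [prod_mem_nhds (hN.mem_nhds ht)
        (e.open_target.mem_nhds (e.map_source hx.2))] with q hq
      have := hQ q.1 hq.1 (e.symm q.2) ⟨hx.1, e.map_target hq.2⟩
      rwa [e.right_inv hq.2] at this
    refine (cd h hJ (hΩ t ht e x hx) (ev (Q := fun s z => Cs (vl (Ω s) e z))
      fun s hs y hy => (k s hs).1 e y hy) (hθ t ht e x hx)).congr_of_eventuallyEq ?_
    exact ev (Q := fun s z => vl (θ' s) e z = o1 (p10 (Jf (vl (Ω s) e z)) (lv (vl (θ s) e z))))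
      fun s hs y hy => (k s hs).2 e y hy

end Vale.Agent.P301Z.Dg
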