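import Vale.Agent.P301Z.Dg.Sk

/-!
# P301Z, block DEF: real representatives
-/

open scoped Manifold ContDiff Topology Matrix
open Filter Complex
open Vale.Agent.P272.K Vale.Agent.P299.IX Vale.Agent.P299.IX.Fock
open Vale.Agent.P281Z (Mf)
open Vale.Agent.P281Z.Hg Vale.Agent.P301Z.Lat Vale.Agent.P301Z.Rot

noncomputable section

namespace Vale.Agent.P301Z.Dg

namespace Px2

variable {d : ℕ} {V : Mf d} {Ω θ : Fs V}

theorem near {e c : Chart d V.X} {x : V.X} (he : x ∈ e.source) (hc : x ∈ c.source)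
    {Q : Cm d → Prop} (k : ∀ y, y ∈ e.source → y ∈ c.source → Q (c y)) :
    ∀ᶠ z in 𝓝 (c x), Q z := by
  have h : ∀ᶠ z in 𝓝 (c x), c.symm z ∈ e.source :=
    (c.continuousAt_symm (c.map_source hc)).eventually_mem
      (by rw [c.left_inv hc]; exact e.open_source.mem_nhds he)
  filter_upwards [c.open_target.mem_nhds (c.map_source hc), h] with z hz hz'
  have h1 := k _ hz' (c.map_target hz)
  rwa [c.right_inv hz] at h1

theorem f1 (h : ONE) (hD : DL) (H : Cov Ω)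
    (hθ : ∀ e x, At e x → CL (vl Ω e (e x)) (lv (vl θ e (e x)))) : All F1 Ω ((dR V).d θ) := by
  intro e x he v v' t t' hv ht
  obtain ⟨c, hc, hx⟩ := H.cov x
  obtain ⟨a1, a2, a3⟩ := hc e x he hx
  have sm := (vl_isF θ).sm e x he
  let l : Cm d → Cm d →L[ℝ] ℂ :=
    fun w => (lv (vl θ e (trn c e w))).comp (fderiv ℝ (trn c e) w)
  have l1 : DifferentiableAt ℝ l (c x) := by
    have k : ContDiffAt ℝ ∞ (vl θ e) (trn c e (c x)) := by rwa [trn_at e hx]
    exact ((h.lv_cd.contDiffAt.comp _ (k.comp _ a2)).clm_comp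
      (a2.fderiv_right (m := ∞) (by simp))).differentiableAt (by simp)
  have l2 : ∀ᶠ w in 𝓝 (c x), ∀ u, l w (I • u) = I * l w u := near he.2 hx fun y hy hy' u => by
    obtain ⟨b1, b2, b3⟩ := hc e y ⟨he.1, hy⟩ hy'
    obtain ⟨a', ha⟩ := H.cs e y ⟨he.1, hy⟩ (fderiv ℝ (trn c e) (c y) u)
    have k := b3 _ _ ha
    rw [trn_inv hy' hy b2 b1] at k
    simp only [l, ContinuousLinearMap.comp_apply, trn_at e hy']
    rw [← k, trn_inv hy hy' b1 b2]
    exact hθ e y ⟨he.1, hy⟩ _ _ ha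
  have l3 : (fun z => lv (vl θ e z)) =ᶠ[𝓝 (e x)]
      fun z => (l (trn e c z)).comp (fderiv ℝ (trn e c) z) :=
    near (Q := fun z => lv (vl θ e z) = (l (trn e c z)).comp (fderiv ℝ (trn e c) z)) hx he.2
      fun y hy' hy => by
        obtain ⟨b1, b2, -⟩ := hc e y ⟨he.1, hy⟩ hy'
        ext1 u
        simp only [l, ContinuousLinearMap.comp_apply, trn_at c hy, trn_at e hy']
        rw [trn_inv hy hy' b1 b2]
  have k : ∀ a b, bv (vl ((dR V).d θ) e (e x)) a b =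
      dl l (c x) (fderiv ℝ (trn e c) (e x) a) (fderiv ℝ (trn e c) (e x) b) := fun a b => by
    rw [(dR_real V).d θ e x he, h.bv_dT _ _ (sm.differentiableAt (by simp)),
      hD.congr _ _ _ _ l3, hD.pb _ _ _ l _ _ _ a1 (by rwa [trn_at c he.2]), trn_at c he.2]
  simp only [f1e, k, a3 _ _ hv, a3 _ _ ht]
  exact hD.lin _ l _ _ _ l1 l2

end Px2

theorem px2_of (h : ONE) (hD : DL) (hP : PX1) : PX2 := by
  refine ⟨fun H hθ => Px2.f1 h hD H hθ, fun {d V Ω η g θ} H hs hc hr hg hf hθ => ?_⟩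
  have O := dR_ok V
  have dd : ∀ a, D1 V a → (dR V).dg 2 ((dR V).d a) = (dR V).d a := fun a ha =>
    (LinearMap.congr_fun (O.dg_d 1) a).trans (congrArg (dR V).d ha)
  have t1 := hP.d1 hθ
  have k := hP.cj hs (by rw [D1, map_sub, ← O.cjdg, hg]) (by rw [map_sub, O.cjcj, neg_sub]) hθ
  refine ⟨⟨?_, ?_⟩, ?_, fun e x he v v' t t' hv ht => ?_, fun m => ?_⟩
  · rw [map_sub, map_add, hc.1, O.dd, O.dd, add_zero, sub_zero]
  · rw [map_sub, map_add, hc.2, dd g hg, dd θ t1]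
  · rw [ReF, map_sub, map_add, hr, O.cjd, O.cjd, k, map_sub, map_sub]
    abel
  · have k1 := hf e x he v v' t t' hv ht
    have k2 := Px2.f1 h hD H (hP.cl hs hθ) e x he v v' t t' hv ht
    simp only [f1e, vl_sub, bv_sub] at k1 k2 ⊢
    linear_combination k1 - k2
  · have g1 : D1 V (g - θ) := by rw [D1, map_sub, hg, t1]
    rw [add_sub_assoc, ← map_sub, map_add, (m.ker _ ⟨O.dd _, dd _ g1⟩).2 ⟨_, g1, rfl⟩, add_zero]

end Vale.Agent.P301Z.Dg
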