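import Vale.Agent.P301Z.Dg.Sk
import Vale.Agent.P301Z.Rot.Mks

/-!
# P301Z, block DEF: forms on the deformed manifold
-/

open scoped Manifold ContDiff ComplexOrder Topology Matrix
open Filter Complex
open Vale.Agent.P272.K Vale.Agent.P299.IX Vale.Agent.P299.IX.Fock
open Vale.Agent.P281Z (Mf)
open Vale.Agent.P281Z.Hg Vale.Agent.P301Z.Lat Vale.Agent.P301Z.Rot

noncomputable section

namespace Vale.Agent.P301Z.Dg

namespace ReH

variable {d : ℕ}

theorem real {V : Mf d} {u : Fs V} (h : ReF V u) {e : Chart d V.X} {x : V.X} (hx : At e x)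
    (a b : Cm d) : star (bv (vl u e (e x)) a b) = bv (vl u e (e x)) a b := by
  rw [← bv_cjv, ← (dR_real V).cj u e x hx, h]

theorem inv {Ω u : Fo d} (hr : ∀ a b, star (bv u a b) = bv u a b) (h : F1 Ω u) {v v' x x' : Cm d}
    (hv : Jr Ω v v') (hx : Jr Ω x x') : bv u v' x' = bv u v x := by
  have k := h v v' x x' hv hx
  have k' := congrArg star k
  simp only [f1e, star_add, star_sub, star_mul', hr, star_zero] at k k'
  rw [Complex.star_def, conj_I] at k'
  linear_combination -(k + k') / 2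

end ReH

open ReH

theorem re : RE where
  sym H _ hT hc hs :=
    have k := mks (H := H) hT hc fun e x hx => (hs e x hx).nd
    ⟨_, k.1, k.2.1, k.2.2.2⟩
  r11 {d V Ω u} H T hT hc hr hf := by
    have cT := cl_pb (smo_idOf_symm H) hT hc
    have p1 : ∀ c y, At c y → ∀ a b,
        bv (vl (T u) c (c y)) (I • a) (I • b) = bv (vl (T u) c (c y)) a b := fun c y h a b => by
      obtain ⟨e, he⟩ := ex_at ((idOf H).symm y)
      rw [bv_mf hT u h he, bv_mf hT u h he]
      exact inv (real hr he) (hf e _ he) (jr_mf h he a) (jr_mf h he b)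
    have p2 : ∀ c y, At c y → ∀ a b,
        star (bv (vl (T u) c (c y)) a b) = bv (vl (T u) c (c y)) a b := fun c y h a b => by
      obtain ⟨e, he⟩ := ex_at ((idOf H).symm y)
      rw [bv_mf hT u h he, real hr he]
    refine ⟨_, (r11_of cT p1 p2).1, (r11_of cT p1 p2).2, fun hp => kah_of cT p1 p2 ?_⟩
    intro c y h a ha
    obtain ⟨e, he⟩ := ex_at ((idOf H).symm y)
    refine Complex.pos_iff.2 ⟨?_, (Complex.conj_eq_iff_im.1 (p2 c y h a _)).symm⟩
    rw [bv_mf hT u h he]
    refine hp e _ he _ _ (fun h0 => ha ?_) (jr_mf h he a)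
    rw [← dL_dM h he a, h0, map_zero]
  r0 {d V Ω u s} hs h0 hc hr hf := by
    have j : ∀ e x, At e x → ∀ a, Jr (vl Ω e (e x)) a (I • a) := fun e x h a b => by
      rw [h0 e x h, bv_f20 (hs.alt e x h), bv_f20 (hs.alt e x h), smul_dotProduct, smul_eq_mul]
    exact ⟨_, r11_of hc (fun e x h a b => inv (real hr h) (hf e x h) (j e x h a) (j e x h b))
      fun e x h => real hr h⟩

end Vale.Agent.P301Z.Dg
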