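import Vale.Agent.P301Z.Dg.Top
import Vale.Agent.P301Z.Dg.One
import Vale.Agent.P301Z.Dg.Dl
import Vale.Agent.P301Z.Dg.Js
import Vale.Agent.P301Z.Dg.Fm1
import Vale.Agent.P301Z.Dg.Fm2
import Vale.Agent.P301Z.Dg.Px1
import Vale.Agent.P301Z.Dg.Px2
import Vale.Agent.P301Z.Dg.Re
import Vale.Agent.P301Z.Dg.Ori
import Vale.Agent.P301Z.Dg.Coef
import Vale.Agent.P301Z.Dg.Ft
import Vale.Agent.P301Z.Dg.Loca
import Vale.Agent.P301Z.Dg.Locb
import Vale.Agent.P301Z.Dg.Loc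
import Vale.Agent.P301Z.Dg.Kop
import Vale.Agent.P301Z.Dg.L0
import Vale.Agent.P301Z.Dg.Dolc
import Vale.Agent.P301Z.Dg.Locf
import Vale.Agent.P301Z.Dg.Lq
import Vale.Agent.P301Z.Dg.Fc
import Vale.Agent.P301Z.Dg.Cf
import Vale.Agent.P301Z.Dg.Bun
import Vale.Agent.P301Z.Dg.Bunc
import Vale.Agent.P301Z.Dg.H0t
import Vale.Agent.P301Z.Df.All
import Vale.Agent.P301Z.Rot.All
import Vale.Agent.P301Z.An.All

/-!
# P301Z, block DEF: the deformation space of a pair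
-/

namespace Vale.Agent.P301Z.Dg

theorem api : Api :=
  ⟨one, dlT, js, fm1, fm2, px1_of one js, px2_of one dlT (px1_of one js), re, om_of fm1 fm2⟩

/-- **DEF** -/
theorem defo (hL : Lat.LAT) : DEF :=
  def_of hL An.cnn (Df.kur hL (Rot.rot0' hL)) api (ori_of hL re) (ft_of api coef)
    (loc_of fm1 loca locb) ball_ (kop_of api) (l0_of api hL)
    (lq_of api hL.d11 An.cnn (locf_of dlT dolc)) fc (bun_of one dlT) (bunc_of one dlT js hL.d11)
    (cf_of ade) (h0t_of dlT js)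

end Vale.Agent.P301Z.Dg
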