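import Vale.Agent.P301Z.Rot.Typ
import Vale.Agent.P301Z.Semi.Defs

/-!
# P301Z, block DEF, geometric half: definitions
-/

open scoped Manifold ContDiff ComplexOrder Topology Matrix
open Filter Set Metric Complex
open Vale.Agent.P272.K Vale.Agent.P299.IX Vale.Agent.P299.IX.Fock
open Vale.Agent.P281Z (Mf)
open Vale.Agent.P281Z.Hg Vale.Agent.P301Z.Lat
open Vale.Agent.P301Z.Rot (bv cxL Jr Cov mfOf)
open Vale.Agent.P301Z.An (Dy)
open Vale.Agent.P301.H599 (LineBundle)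

noncomputable section

namespace Vale.Agent.P301Z.Dg

section lin

variable {E : Type} [NormedAddCommGroup E] [NormedSpace ℝ E]

/-- the value on the vectors `v + i v'` and `x + i x'` -/
def f1e (β : E → E → ℂ) (v v' x x' : E) : ℂ := β v x - β v' x' + I * (β v' x + β v x')

/-- the exterior derivative of a one-form -/
def dl (l : E → E →L[ℝ] ℂ) (z v v' : E) : ℂ := fderiv ℝ l z v v' - fderiv ℝ l z v' v

/-- the component of type `(1, 0)` for the complex structure `J` -/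
def p10 (J : E →L[ℝ] E) (l : E →L[ℝ] ℂ) : E →L[ℝ] ℂ := (1 / 2 : ℂ) • (l - I • l.comp J)

end lin

variable {d : ℕ}

/-- the part of degree one as a real linear map -/
def lv (u : Fo d) : Cm d →L[ℝ] ℂ := ∑ c, u {c} • cxL c

/-- the one-form of a real linear map -/
def o1 (l : Cm d →L[ℝ] ℂ) : Fo d :=
  ∑ j, ((l (Pi.single j 1) - I * l (Pi.single j I)) / 2) • ev {hl j} +
    ∑ j, ((l (Pi.single j 1) + I * l (Pi.single j I)) / 2) • ev {ah j}

/-- the form `u` is nondegenerate and defines a complex structure -/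
structure Cs (u : Fo d) : Prop where
  nd : ∀ v, (∀ x, bv u v x = 0) → v = 0
  ex : ∀ v, ∃ v', Jr u v v'

open Classical in
/-- the complex structure of the form `u` -/
def Jf (u : Fo d) : Cm d →L[ℝ] Cm d :=
  if h : ∃ J : Cm d →L[ℝ] Cm d, ∀ v, Jr u v (J v) then h.choose else 0

/-- `η` has no component of type `(0, 2)` for the complex structure of `u` -/
def F1 (u η : Fo d) : Prop := ∀ v v' x x', Jr u v v' → Jr u x x' → f1e (bv η) v v' x x' = 0

/-- `D` is complex linear for the complex structure of `u` -/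
def CL {G : Type} [NormedAddCommGroup G] [NormedSpace ℝ G] [NormedSpace ℂ G] (u : Fo d)
    (D : Cm d →L[ℝ] G) : Prop := ∀ v v', Jr u v v' → D v' = I • D v

/-- `η` is positive for the complex structure of `u` -/
def Ps (u η : Fo d) : Prop := ∀ v v', v ≠ 0 → Jr u v v' → 0 < (bv η v v').re

/-- the differential of type `(1, 0)` of a real function -/
def del (ρ : Cm d → ℝ) (z : Cm d) : Cm d →L[ℝ] ℂ :=
  p10 (I • ContinuousLinearMap.id ℝ (Cm d)) (fderiv ℝ (fun y => (ρ y : ℂ)) z)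

section fam

variable {V : Mf d} {b : ℕ}

/-- a relation between two forms holds at all points -/
def All (r : Fo d → Fo d → Prop) (u η : Fs V) : Prop :=
  ∀ e x, At e x → r (vl u e (e x)) (vl η e (e x))

/-- forms which define an almost complex structure -/
def CsF (u : Fs V) : Prop := ∀ e x, At e x → Cs (vl u e (e x))

/-- forms of degree one -/
def D1 (V : Mf d) (u : Fs V) : Prop := (dR V).dg 1 u = u

/-- `θ'` is the component of type `(1, 0)` of `θ` -/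
def IsP (Ω θ θ' : Fs V) : Prop :=
  ∀ e x, At e x → vl θ' e (e x) = o1 (p10 (Jf (vl Ω e (e x))) (lv (vl θ e (e x))))

/-- smooth families of forms -/
def Fam {P : Type} [NormedAddCommGroup P] [NormedSpace ℝ P] (z : P → Fs V) (N : Set P) : Prop :=
  ∀ t ∈ N, ∀ e x, At e x → ContDiffAt ℝ ∞ (fun q : P × Cm d => vl (z q.1) e q.2) (t, e x)

/-- families which are holomorphic in the parameter -/
def HolF (z : Cm b → Fs V) (N : Set (Cm b)) : Prop :=
  ∀ t ∈ N, ∀ e x, At e x → DifferentiableAt ℂ (fun t => vl (z t) e (e x)) t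

/-- `z'` is the derivative of `z` in the direction `v` -/
def IsD (v : Cm b) (z z' : Cm b → Fs V) (N : Set (Cm b)) : Prop :=
  ∀ t ∈ N, ∀ e x, At e x → vl (z' t) e (e x) = fderiv ℝ (fun t => vl (z t) e (e x)) t v

variable {ι : Type}

/-- the connection form of the family in the frame `i` and the chart `e` -/
def cn (ρ : ι → V.X → ℝ) (a : Cm b → Fs V) (i : ι) (e : Chart d V.X) (q : Cm b × Cm d) :
    Cm d →L[ℝ] ℂ := -del (fun z => ρ i (e.symm z)) q.2 - I • lv (vl (a q.1) e q.2)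

/-- coordinates and frames at a point `q` of the family -/
structure Lq (Ω : Cm b → Fs V) (ρ : ι → V.X → ℝ) (a : Cm b → Fs V) (e : Chart d V.X) (i : ι)
    (W : Cm b × Cm d → Cm d) (f : Cm b × Cm d → ℂ) (q : Cm b × Cm d) : Prop where
  Wsm : ContDiffAt ℝ ∞ W q
  Wbij : Function.Bijective (Dy W q)
  Wcl : CL (vl (Ω q.1) e q.2) (Dy W q)
  Whol : DifferentiableAt ℂ (fun t => W (t, q.2)) q.1
  fsm : ContDiffAt ℝ ∞ f q
  fcl : CL (vl (Ω q.1) e q.2) (Dy f q + cn ρ a i e q)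
  fhol : DifferentiableAt ℂ (fun t => f (t, q.2)) q.1

/-- coordinates and frames over a ball of parameters -/
structure GD (Ω : Cm b → Fs V) (L : LineBundle d V.X ι) (ρ : ι → V.X → ℝ) (a : Cm b → Fs V)
    (r : ℝ) (N : ℕ) where
  e : Fin N → Chart d V.X
  i : Fin N → ι
  U : Fin N → Set V.X
  W : Fin N → Cm b × Cm d → Cm d
  f : Fin N → Cm b × Cm d → ℂ
  E : Cm b → Fin N → Chart d V.X
  opn : ∀ k, IsOpen (U k)
  cov : ∀ x, ∃ k, x ∈ U k
  mem : ∀ k, ∀ x ∈ U k, At (e k) x ∧ x ∈ L.U (i k)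
  src : ∀ t ∈ ball (0 : Cm b) r, ∀ k, (E t k).source = U k
  val : ∀ t ∈ ball (0 : Cm b) r, ∀ k, ∀ x ∈ U k, E t k x = W k (t, e k x)
  lq : ∀ t ∈ ball (0 : Cm b) r, ∀ k, ∀ x ∈ U k, Lq Ω ρ a (e k) (i k) (W k) (f k) (t, e k x)

variable {Ω : Cm b → Fs V} {L : LineBundle d V.X ι} {ρ : ι → V.X → ℝ} {a : Cm b → Fs V} {r : ℝ}
  {N : ℕ}

/-- the transition functions of the deformed line bundle -/
def GD.g (D : GD Ω L ρ a r N) (t : Cm b) (k k' : Fin N) (x : V.X) : ℂ :=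
  exp (D.f k' (t, D.e k' x) - D.f k (t, D.e k x)) * L.g (D.i k) (D.i k') x

/-- the metric of the deformed line bundle -/
def GD.wt (D : GD Ω L ρ a r N) (t : Cm b) (k : Fin N) (x : V.X) : ℝ :=
  ρ (D.i k) x - 2 * (D.f k (t, D.e k x)).re

/-- `M` is the deformed line bundle -/
def GD.Is (D : GD Ω L ρ a r N) (t : Cm b) (H : Cov (Ω t)) (M : LineBundle d (mfOf H).X (Fin N)) :
    Prop := M.U = D.U ∧ M.g = D.g t

end fam

section mk

variable {n r : ℕ} {B : BB n r}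

/-- a holomorphic family of closed forms which define complex structures -/
structure PF (Y : MK B) (s w : Fld Y.V) (p0 : Fin r → ℂ) (k0 : Fin r → ℝ) (b : ℕ) where
  N : Set (Cm b)
  R : (Fin r → ℂ) →ₗ[ℂ] Fs Y.V
  p : Cm b → Fin r → ℂ
  γ : Cm b → Fs Y.V
  opn : IsOpen N
  mem : 0 ∈ N
  Rcl : ∀ x, Cl2 Y.V (R x)
  Rc : ∀ x, Y.m.c (R x) = x
  Rcj : ∀ x, (dR Y.V).cj (R x) = R (star x)
  Rs : Is20 s (R p0)
  Rw : Is11 w (R (rc k0))
  pan : ∀ t ∈ N, AnalyticAt ℂ p t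
  p0 : p 0 = p0
  γ1 : ∀ t ∈ N, D1 Y.V (γ t)
  γf : Fam γ N
  γh : HolF γ N
  γ0 : γ 0 = 0
  cs : ∀ t ∈ N, CsF (R (p t) + (dR Y.V).d (γ t))

variable {Y : MK B} {s w : Fld Y.V} {p0 : Fin r → ℂ} {k0 : Fin r → ℝ} {b : ℕ}

/-- the forms of the family -/
def PF.Om (F : PF Y s w p0 k0 b) (t : Cm b) : Fs Y.V := F.R (F.p t) + (dR Y.V).d (F.γ t)

/-- the family is complete, and contains the twistor direction -/
structure PF.Full (F : PF Y s w p0 k0 b) : Prop where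
  dim : b + 2 = r
  ind : ∀ (c : ℂ) (v : Cm b), c • p0 + fderiv ℂ F.p 0 v = 0 → c = 0 ∧ v = 0
  tw : ∃ v : Cm b, fderiv ℂ F.p 0 v = rc k0 ∧
    ∀ e x, At e x → fderiv ℝ (fun t => vl (F.γ t) e (e x)) 0 v = 0

/-- representatives without component of type `(0, 2)` -/
structure PF.Tr (F : PF Y s w p0 k0 b) (G : Cm b → (Fin r → ℂ) →ₗ[ℂ] Fs Y.V) : Prop where
  pq : ∀ t ∈ F.N, qC B.q (F.p t) (F.p t) = 0
  d1 : ∀ t ∈ F.N, ∀ x, D1 Y.V (G t x)
  fam : ∀ x, Fam (fun t => G t x) F.N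
  hol : ∀ x, HolF (fun t => G t x) F.N
  f1 : ∀ t ∈ F.N, ∀ x, qC B.q (F.p t) x = 0 → All F1 (F.Om t) (F.R x + (dR Y.V).d (G t x))
  zero : G 0 (rc k0) = 0

/-- the map `p` is a local section of the quadric cone over its intersection with `Z` -/
structure Sct (q : Matrix (Fin r) (Fin r) ℤ) (p : Cm b → Fin r → ℂ) (Z : Set (Fin r → ℂ)) :
    Prop where
  inj : ∀ᶠ z in 𝓝 ((0, 0) : Cm b × Cm b), ∀ c : ℂ, p z.1 = c • p z.2 → z.1 = z.2
  inv : ∃ χ : (Fin r → ℂ) → Cm b, AnalyticAt ℂ χ (p 0) ∧ χ (p 0) = 0 ∧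
    ∀ᶠ x in 𝓝 (p 0), qC q x x = 0 → x ∈ Z → ∃ c : ℂ, c ≠ 0 ∧ p (χ x) = c • x

/-- **KUR**: the universal family of forms -/
def KUR : Prop := ∀ (n r : ℕ) (B : BB n r) (Y : MK B) (s w : Fld Y.V) p k, Y.HK s w p k →
  ∃ (w' : Fld Y.V) (b : ℕ) (F : PF Y s w' p k b), IsKahler w' ∧ F.Full

end mk

end Vale.Agent.P301Z.Dg
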