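import Vale.Agent.P301Z.Dg.Sk

/-!
# P301Z, block DEF, geometric half: restriction to the locus of a class
-/

open scoped ContDiff Topology
open Filter Set
open Vale.Agent.P272.K Vale.Agent.P301Z.Lat

noncomputable section

namespace Vale.Agent.P301Z.Dg

namespace Loc

/-- the pairing with `l` -/
def qL {r : ℕ} (q : Matrix (Fin r) (Fin r) ℤ) (l : Fin r → ℂ) : (Fin r → ℂ) →L[ℂ] ℂ :=
  ∑ i, ∑ j, ((q i j : ℂ) * l j) • ContinuousLinearMap.proj i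

theorem qL_apply {r : ℕ} (q : Matrix (Fin r) (Fin r) ℤ) (l x : Fin r → ℂ) :
    qL q l x = qC q x l := by
  simp only [qL, qC, sum_apply, smul_apply,
    ContinuousLinearMap.proj_apply, smul_eq_mul]
  exact Finset.sum_congr rfl fun i _ => Finset.sum_congr rfl fun j _ => by ring

end Loc

open Loc

theorem loc_of (h1 : FM1) (hA : LOCA) (hB : LOCB) : LOC := by
  intro n r B Y s w p0 k0 b F G l hF hT h0 hp hk
  have pa := F.pan 0 F.mem
  have hN := F.opn.mem_nhds F.mem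
  obtain ⟨inj, χ, c1, c2, c3⟩ := hA r b B.q F.p B.symm pa hF.dim (eventually_of_mem hN hT.pq)
    (by rw [F.p0]; exact hF.ind) (by rwa [F.p0])
  obtain ⟨b', ψ, π, a1, a2, a3, a4, a5, a6⟩ := hB b (fun t => qL B.q l (F.p t))
    (((qL B.q l).analyticAt _).comp pa) (by rw [F.p0, qL_apply, hp]) fun h => by
      obtain ⟨v, hv, -⟩ := hF.tw
      have k := ((qL B.q l).hasFDerivAt.comp 0 pa.differentiableAt.hasFDerivAt).fderiv.symm.trans h
      exact hk (by rw [← qL_apply, ← hv]; exact DFunLike.congr_fun k v)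
  have hψ : Tendsto ψ (𝓝 0) (𝓝 0) := a1.continuousAt.tendsto.trans (by rw [a3])
  have hχ : Tendsto χ (𝓝 (F.p 0)) (𝓝 0) := c1.continuousAt.tendsto.trans (by rw [c2])
  obtain ⟨N, o1, o2, hm⟩ : ∃ N : Set (Cm b'), IsOpen N ∧ 0 ∈ N ∧
      ∀ t ∈ N, AnalyticAt ℂ ψ t ∧ ψ t ∈ F.N ∧ qL B.q l (F.p (ψ t)) = 0 :=
    let ⟨N, k1, k2, k3⟩ := eventually_nhds_iff.1 (a1.eventually_analyticAt.and
      ((hψ.eventually hN).and (a5.mono fun _ h => h.1)))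
    ⟨N, k2, k3, k1⟩
  have m1 : ∀ t ∈ N, ContDiffAt ℝ ∞ ψ t ∧ ψ t ∈ F.N := fun t ht =>
    ⟨(hm t ht).1.contDiffAt.restrict_scalars ℝ, (hm t ht).2.1⟩
  have m2 : ∀ t ∈ N, DifferentiableAt ℂ ψ t ∧ ψ t ∈ F.N := fun t ht =>
    ⟨(hm t ht).1.differentiableAt, (hm t ht).2.1⟩
  have p0' : F.p (ψ 0) = F.p 0 := by rw [a3]
  refine ⟨b', ⟨N, F.R, fun t => F.p (ψ t), fun t => F.γ (ψ t), o1, o2, F.Rcl, F.Rc, F.Rcj, F.Rs,
    F.Rw, fun t ht => (F.pan _ (m1 t ht).2).comp (hm t ht).1, p0'.trans F.p0,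
    fun t ht => F.γ1 _ (m1 t ht).2, h1.comp _ _ ψ _ _ _ m1 F.γf, h1.hcomp ψ _ _ _ m2 F.γh,
    by rw [a3, F.γ0], fun t ht => F.cs _ (m1 t ht).2⟩, fun t => G (ψ t),
    ⟨fun t ht => hT.pq _ (m1 t ht).2, fun t ht => hT.d1 _ (m1 t ht).2,
      fun x => h1.comp _ _ ψ _ _ _ m1 (hT.fam x), fun x => h1.hcomp ψ _ _ _ m2 (hT.hol x),
      fun t ht => hT.f1 _ (m1 t ht).2, by rw [a3, hT.zero]⟩,
    fun t ht => (qL_apply _ _ _).symm.trans (hm t ht).2.2, ?_, fun x => π (χ x), ?_⟩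
  · filter_upwards [(hψ.prodMap_nhds hψ).eventually inj, a5.prodMk_nhds a5] with z k1 k2 c hc
    rw [← k2.1.2, ← k2.2.2]
    exact congrArg π (k1 c hc)
  · simp only [p0']
    refine ⟨a2.comp_of_eq c1 c2, by rw [c2, a4], ?_⟩
    filter_upwards [c3, hχ.eventually a6] with x k1 k2 hx hl
    obtain ⟨c, k3, k4⟩ := k1 hx (mem_univ _)
    exact ⟨c, k3, by rw [k2 (by rw [k4, map_smul, qL_apply, hl, smul_zero]), k4]⟩

end Vale.Agent.P301Z.Dg
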