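import Vale.Agent.P301Z.Dg.Defs
import Vale.Agent.P301Z.Lat.Sk

/-!
# P301Z, block DEF, geometric half: the rows
-/

open scoped Manifold ContDiff ComplexOrder Topology Matrix
open Filter Set Metric Complex
open Vale.Agent.P272.K Vale.Agent.P299.IX Vale.Agent.P299.IX.Fock
open Vale.Agent.P281Z (Mf)
open Vale.Agent.P281Z.Hg Vale.Agent.P301Z.Lat
open Vale.Agent.P301Z.Rot (bv cxL Jr Cov Adp mfOf idOf trn)
open Vale.Agent.P301Z.An (Dy Sm ForR ForC)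
open Vale.Agent.P301.H599 (IsHolTwoForm LineBundle IsMetric curvature)

noncomputable section

namespace Vale.Agent.P301Z.Dg

/-- row ONE: one-forms at a point -/
structure ONE : Prop where
  lv_o1 : ∀ {d : ℕ} (l : Cm d →L[ℝ] ℂ), lv (o1 l) = l
  o1_lv : ∀ {d : ℕ} (u : Fo d), o1 (lv u) = dg 1 *ᵥ u
  dg_o1 : ∀ {d : ℕ} (l : Cm d →L[ℝ] ℂ), dg 1 *ᵥ o1 l = o1 l
  lv_add : ∀ {d : ℕ} (u u' : Fo d), lv (u + u') = lv u + lv u'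
  lv_sub : ∀ {d : ℕ} (u u' : Fo d), lv (u - u') = lv u - lv u'
  lv_smul : ∀ {d : ℕ} (c : ℂ) (u : Fo d), lv (c • u) = c • lv u
  o1_zero : ∀ {d : ℕ}, o1 (0 : Cm d →L[ℝ] ℂ) = 0
  lv_cd : ∀ {d : ℕ}, ContDiff ℝ ∞ (lv : Fo d → Cm d →L[ℝ] ℂ)
  o1_cd : ∀ {d : ℕ}, ContDiff ℝ ∞ (o1 : (Cm d →L[ℝ] ℂ) → Fo d)
  lv_hol : ∀ {d : ℕ} (v : Cm d), Differentiable ℂ fun u : Fo d => lv u v
  lv_jc : ∀ {d : ℕ} {ψ : Cm d → Cm d} {z : Cm d} (u : Fo d), DifferentiableAt ℝ ψ z →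
    lv (lam (jc ψ z) *ᵥ u) = (lv u).comp (fderiv ℝ ψ z)
  o1_jc : ∀ {d : ℕ} {ψ : Cm d → Cm d} {z : Cm d} (l : Cm d →L[ℝ] ℂ), DifferentiableAt ℝ ψ z →
    lam (jc ψ z) *ᵥ o1 l = o1 (l.comp (fderiv ℝ ψ z))
  lv_ch : ∀ {d : ℕ} {V : Mf d} (u : Fs V) {e e' : Chart d V.X} {x : V.X}, At e x → At e' x →
    lv (vl u e (e x)) = (lv (vl u e' (e' x))).comp (fderiv ℝ (trn e e') (e x))
  lv_cjv : ∀ {d : ℕ} (u : Fo d) (v : Cm d), lv (cjv u) v = star (lv u v)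
  bv_dT : ∀ {d : ℕ} {u : Cm d → Fo d} {z : Cm d} (v v' : Cm d), DifferentiableAt ℝ u z →
    bv (dT u z) v v' = dl (fun y => lv (u y)) z v v'

/-- row DL: the exterior derivative of one-forms -/
structure DL : Prop where
  congr : ForR fun E _ _ => ∀ (l l' : E → E →L[ℝ] ℂ) (z : E), l =ᶠ[𝓝 z] l' → dl l z = dl l' z
  add : ForR fun E _ _ => ∀ (l l' : E → E →L[ℝ] ℂ) (z v v' : E), DifferentiableAt ℝ l z →
    DifferentiableAt ℝ l' z → dl (fun y => l y + l' y) z v v' = dl l z v v' + dl l' z v v'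
  smul : ForR fun E _ _ => ∀ (c : ℂ) (l : E → E →L[ℝ] ℂ) (z v v' : E), DifferentiableAt ℝ l z →
    dl (fun y => c • l y) z v v' = c * dl l z v v'
  fd : ForR fun E _ _ => ∀ (f : E → ℂ) (z v v' : E), ContDiffAt ℝ ∞ f z →
    dl (fderiv ℝ f) z v v' = 0
  pb : ForR fun E _ _ => ForR fun E' _ _ => ∀ (ψ : E → E') (l : E' → E' →L[ℝ] ℂ) (z v v' : E),
    ContDiffAt ℝ ∞ ψ z → DifferentiableAt ℝ l (ψ z) →
    dl (fun y => (l (ψ y)).comp (fderiv ℝ ψ y)) z v v' =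
      dl l (ψ z) (fderiv ℝ ψ z v) (fderiv ℝ ψ z v')
  lin : ForC fun E _ _ _ => ∀ (l : E → E →L[ℝ] ℂ) (z v x : E), DifferentiableAt ℝ l z →
    (∀ᶠ y in 𝓝 z, ∀ u, l y (I • u) = I * l y u) → f1e (dl l z) v (I • v) x (I • x) = 0
  del_cd : ∀ {d : ℕ} {ρ : Cm d → ℝ} {z : Cm d}, ContDiffAt ℝ ∞ ρ z → ContDiffAt ℝ ∞ (del ρ) z
  del_lin : ∀ {d : ℕ} (ρ : Cm d → ℝ) (z v : Cm d), del ρ z (I • v) = I * del ρ z v
  del_re : ∀ {d : ℕ} {ρ : Cm d → ℝ} {z : Cm d} (v : Cm d), DifferentiableAt ℝ ρ z →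
    del ρ z v + star (del ρ z v) = (fderiv ℝ ρ z v : ℝ)
  del_dl : ∀ {d : ℕ} {ρ : Cm d → ℝ} {z : Cm d} (v v' : Cm d), ContDiffAt ℝ ∞ ρ z →
    dl (del ρ) z v v' = I * bv (f11 (cHess ρ z)) v v'

/-- row JS: the complex structure of a form -/
structure JS : Prop where
  jr : ∀ {d : ℕ} {u : Fo d}, Cs u → ∀ v, Jr u v (Jf u v)
  uq : ∀ {d : ℕ} {u : Fo d} {v v' : Cm d}, Cs u → Jr u v v' → v' = Jf u v
  sq : ∀ {d : ℕ} {u : Fo d}, Cs u → ∀ v, Jf u (Jf u v) = -v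
  std : ∀ {d : ℕ} {S : Mx d}, Sᵀ = -S → S.det ≠ 0 → Cs (f20 S) ∧ ∀ v, Jf (f20 S) v = I • v
  self : ∀ {d : ℕ} (u : Fo d), F1 u u
  ch : ∀ {d : ℕ} {V : Mf d} {Ω : Fs V} {e e' : Chart d V.X} {x : V.X}, CsF Ω → At e x → At e' x →
    ∀ v, fderiv ℝ (trn e e') (e x) (Jf (vl Ω e (e x)) v) =
      Jf (vl Ω e' (e' x)) (fderiv ℝ (trn e e') (e x) v)
  sm : ∀ {d : ℕ}, ForR fun P _ _ => ∀ (u : P → Fo d) (q : P), ContDiffAt ℝ ∞ u q →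
    (∀ᶠ q' in 𝓝 q, Cs (u q')) → ContDiffAt ℝ ∞ (fun q' => Jf (u q')) q
  der : ∀ {d : ℕ}, ForR fun P _ _ => ∀ (u : P → Fo d) (q v : P), ContDiffAt ℝ ∞ u q →
    (∀ᶠ q' in 𝓝 q, Cs (u q')) → F1 (u q) (fderiv ℝ u q v)

/-- row FM1: algebra of families -/
structure FM1 : Prop where
  const : ∀ {d : ℕ} {V : Mf d} (u : Fs V), ForR fun P _ _ => ∀ N : Set P, Fam (fun _ => u) N
  add : ∀ {d : ℕ} {V : Mf d}, ForR fun P _ _ => ∀ (z z' : P → Fs V) (N : Set P), Fam z N →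
    Fam z' N → Fam (fun t => z t + z' t) N ∧ Fam (fun t => z t - z' t) N
  smul : ∀ {d : ℕ} {V : Mf d}, ForR fun P _ _ => ∀ (c : P → ℂ) (z : P → Fs V) (N : Set P),
    (∀ t ∈ N, ContDiffAt ℝ ∞ c t) → Fam z N → Fam (fun t => c t • z t) N
  comp : ∀ {d : ℕ} {V : Mf d}, ForR fun P _ _ => ForR fun P' _ _ => ∀ (ψ : P' → P) (z : P → Fs V)
    (N : Set P) (N' : Set P'), (∀ t ∈ N', ContDiffAt ℝ ∞ ψ t ∧ ψ t ∈ N) → Fam z N →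
    Fam (fun t => z (ψ t)) N'
  cj : ∀ {d : ℕ} {V : Mf d}, ForR fun P _ _ => ∀ (z : P → Fs V) (N : Set P), Fam z N →
    Fam (fun t => (dR V).cj (z t)) N
  d : ∀ {d : ℕ} {V : Mf d}, ForR fun P _ _ => ∀ (z : P → Fs V) (N : Set P), Fam z N →
    Fam (fun t => (dR V).d (z t)) N
  lin : ∀ {d r : ℕ} {V : Mf d}, ForR fun P _ _ => ∀ (G : P → (Fin r → ℂ) →ₗ[ℂ] Fs V)
    (p : P → Fin r → ℂ) (N : Set P), (∀ x, Fam (fun t => G t x) N) →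
    (∀ t ∈ N, ContDiffAt ℝ ∞ p t) → Fam (fun t => G t (p t)) N
  hconst : ∀ {d b : ℕ} {V : Mf d} (u : Fs V) (N : Set (Cm b)), HolF (fun _ => u) N
  hadd : ∀ {d b : ℕ} {V : Mf d} (z z' : Cm b → Fs V) (N : Set (Cm b)), HolF z N → HolF z' N →
    HolF (fun t => z t + z' t) N ∧ HolF (fun t => z t - z' t) N
  hsmul : ∀ {d b : ℕ} {V : Mf d} (c : Cm b → ℂ) (z : Cm b → Fs V) (N : Set (Cm b)),
    (∀ t ∈ N, DifferentiableAt ℂ c t) → HolF z N → HolF (fun t => c t • z t) N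
  hcomp : ∀ {d b b' : ℕ} {V : Mf d} (ψ : Cm b' → Cm b) (z : Cm b → Fs V) (N : Set (Cm b))
    (N' : Set (Cm b')), (∀ t ∈ N', DifferentiableAt ℂ ψ t ∧ ψ t ∈ N) → HolF z N →
    HolF (fun t => z (ψ t)) N'
  hlin : ∀ {d b r : ℕ} {V : Mf d} (G : Cm b → (Fin r → ℂ) →ₗ[ℂ] Fs V) (p : Cm b → Fin r → ℂ)
    (N : Set (Cm b)), (∀ x, HolF (fun t => G t x) N) → (∀ t ∈ N, DifferentiableAt ℂ p t) →
    HolF (fun t => G t (p t)) N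

/-- row FM2: derivatives of families -/
structure FM2 : Prop where
  hd : ∀ {d b : ℕ} {V : Mf d} (z : Cm b → Fs V) (N : Set (Cm b)), IsOpen N → Fam z N → HolF z N →
    HolF (fun t => (dR V).d (z t)) N
  der : ∀ {d b : ℕ} {V : Mf d} (z : Cm b → Fs V) (N : Set (Cm b)) (v : Cm b), IsOpen N → Fam z N →
    ∃ z', IsD v z z' N ∧ Fam z' N ∧ (HolF z N → HolF z' N) ∧
      ((∀ t ∈ N, D1 V (z t)) → ∀ t ∈ N, D1 V (z' t)) ∧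
      IsD v (fun t => (dR V).d (z t)) (fun t => (dR V).d (z' t)) N

/-- row PX1: the component of type `(1, 0)` -/
structure PX1 : Prop where
  ex : ∀ {d : ℕ} {V : Mf d} {Ω : Fs V}, CsF Ω → ∀ θ, ∃ θ', IsP Ω θ θ'
  d1 : ∀ {d : ℕ} {V : Mf d} {Ω θ θ' : Fs V}, IsP Ω θ θ' → D1 V θ'
  zero : ∀ {d : ℕ} {V : Mf d} {Ω θ' : Fs V}, IsP Ω 0 θ' → θ' = 0
  cl : ∀ {d : ℕ} {V : Mf d} {Ω θ θ' : Fs V}, CsF Ω → IsP Ω θ θ' → ∀ e x, At e x →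
    CL (vl Ω e (e x)) (lv (vl θ' e (e x)))
  cj : ∀ {d : ℕ} {V : Mf d} {Ω θ θ' : Fs V}, CsF Ω → D1 V θ → (dR V).cj θ = -θ → IsP Ω θ θ' →
    (dR V).cj θ' = θ' - θ
  fam : ∀ {d : ℕ} {V : Mf d}, ForR fun P _ _ => ∀ (Ω θ θ' : P → Fs V) (N : Set P), IsOpen N →
    Fam Ω N → Fam θ N → (∀ t ∈ N, CsF (Ω t) ∧ IsP (Ω t) (θ t) (θ' t)) → Fam θ' N

/-- row PX2: real representatives -/
structure PX2 : Prop where
  f1 : ∀ {d : ℕ} {V : Mf d} {Ω θ : Fs V}, Cov Ω →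
    (∀ e x, At e x → CL (vl Ω e (e x)) (lv (vl θ e (e x)))) → All F1 Ω ((dR V).d θ)
  rl : ∀ {d : ℕ} {V : Mf d} {Ω η g θ : Fs V}, Cov Ω → CsF Ω → Cl2 V η → ReF V η → D1 V g →
    All F1 Ω (η + (dR V).d g) → IsP Ω (g - (dR V).cj g) θ →
    Cl2 V (η + (dR V).d g - (dR V).d θ) ∧ ReF V (η + (dR V).d g - (dR V).d θ) ∧
      All F1 Ω (η + (dR V).d g - (dR V).d θ) ∧
      ∀ {r : ℕ} (m : Mark V r), m.c (η + (dR V).d g - (dR V).d θ) = m.c η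

/-- row RE: forms on the deformed manifold -/
structure RE : Prop where
  sym : ∀ {d : ℕ} {V : Mf d} {Ω : Fs V} (H : Cov Ω) {T : Fs V → Fs (mfOf H)},
    IsPb (idOf H).symm T → Cl2 V Ω → CsF Ω → ∃ s : Fld (mfOf H), IsHolTwoForm s ∧ Is20 s (T Ω) ∧
      ∀ c y, At c y → (s c (c y)).det ≠ 0
  r11 : ∀ {d : ℕ} {V : Mf d} {Ω u : Fs V} (H : Cov Ω) {T : Fs V → Fs (mfOf H)},
    IsPb (idOf H).symm T → Cl2 V u → ReF V u → All F1 Ω u →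
    ∃ a : Fld (mfOf H), R11 a ∧ Is11 a (T u) ∧ (All Ps Ω u → IsKahler a)
  r0 : ∀ {d : ℕ} {V : Mf d} {Ω u : Fs V} {s : Fld V}, IsHolTwoForm s → Is20 s Ω → Cl2 V u →
    ReF V u → All F1 Ω u → ∃ a : Fld V, R11 a ∧ Is11 a u

/-- row OM: the forms of a family -/
def OM : Prop := ∀ {n r : ℕ} {B : BB n r} {Y : MK B} {s w p0 k0 b} (F : PF Y s w p0 k0 b),
  Fam F.Om F.N ∧ HolF F.Om F.N ∧ Is20 s (F.Om 0) ∧
    ∀ t ∈ F.N, Cl2 Y.V (F.Om t) ∧ CsF (F.Om t) ∧ Y.m.c (F.Om t) = F.p t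

/-- the common tools -/
structure Api : Prop where
  one : ONE
  dl : DL
  js : JS
  fm1 : FM1
  fm2 : FM2
  px1 : PX1
  px2 : PX2
  re : RE
  om : OM

/-- row ORI: the identity preserves the orientation -/
def ORI : Prop := ∀ {d b : ℕ} {V : Mf d} (Ω : Cm b → Fs V) (N : Set (Cm b)) (s : Fld V),
  N ∈ 𝓝 0 → Fam Ω N → (∀ t ∈ N, Cl2 V (Ω t) ∧ CsF (Ω t)) → IsHolTwoForm s → Is20 s (Ω 0) →
  (∀ e x, At e x → (s e (e x)).det ≠ 0) →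
  ∀ᶠ t in 𝓝 (0 : Cm b), ∀ H : Cov (Ω t), Ori d (idOf H).symm

/-- row COEF: coordinates on the orthogonal complement of the period -/
def COEF : Prop := ∀ (r b : ℕ) (q : Matrix (Fin r) (Fin r) ℤ) (p : Cm b → Fin r → ℂ), qᵀ = q →
  AnalyticAt ℂ p 0 → b + 2 = r → (∀ᶠ t in 𝓝 (0 : Cm b), qC q (p t) (p t) = 0) →
  (∀ (c : ℂ) (v : Cm b), c • p 0 + fderiv ℂ p 0 v = 0 → c = 0 ∧ v = 0) →
  qC q (p 0) (star (p 0)) ≠ 0 →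
  ∃ (c : Cm b → (Fin r → ℂ) →ₗ[ℂ] ℂ) (v : Cm b → (Fin r → ℂ) →ₗ[ℂ] Cm b), ∀ᶠ t in 𝓝 (0 : Cm b),
    ∀ x, AnalyticAt ℂ (fun t => c t x) t ∧ AnalyticAt ℂ (fun t => v t x) t ∧
      (qC q (p t) x = 0 → x = c t x • p t + fderiv ℂ p t (v t x))

/-- row FT: representatives without component of type `(0, 2)` -/
def FT : Prop := ∀ {n r : ℕ} {B : BB n r} {Y : MK B} {s w p0 k0 b} (F : PF Y s w p0 k0 b),
  F.Full → (∀ᶠ t in 𝓝 (0 : Cm b), qC B.q (F.p t) (F.p t) = 0) → qC B.q p0 (star p0) ≠ 0 →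
  qC B.q p0 (rc k0) = 0 → ∃ (F' : PF Y s w p0 k0 b) (G : _), F'.Full ∧ F'.Tr G

/-- row LOCA: the period map is a local isomorphism -/
def LOCA : Prop := ∀ (r b : ℕ) (q : Matrix (Fin r) (Fin r) ℤ) (p : Cm b → Fin r → ℂ), qᵀ = q →
  AnalyticAt ℂ p 0 → b + 2 = r → (∀ᶠ t in 𝓝 (0 : Cm b), qC q (p t) (p t) = 0) →
  (∀ (c : ℂ) (v : Cm b), c • p 0 + fderiv ℂ p 0 v = 0 → c = 0 ∧ v = 0) →
  qC q (p 0) (star (p 0)) ≠ 0 → Sct q p univ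

/-- row LOCB: a smooth hypersurface -/
def LOCB : Prop := ∀ (b : ℕ) (g : Cm b → ℂ), AnalyticAt ℂ g 0 → g 0 = 0 → fderiv ℂ g 0 ≠ 0 →
  ∃ (b' : ℕ) (ψ : Cm b' → Cm b) (π : Cm b → Cm b'), AnalyticAt ℂ ψ 0 ∧ AnalyticAt ℂ π 0 ∧
    ψ 0 = 0 ∧ π 0 = 0 ∧ (∀ᶠ s in 𝓝 (0 : Cm b'), g (ψ s) = 0 ∧ π (ψ s) = s) ∧
    ∀ᶠ t in 𝓝 (0 : Cm b), g t = 0 → ψ (π t) = t

/-- row LOC: the locus where the class `l` stays orthogonal to the period -/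
def LOC : Prop := ∀ {n r : ℕ} {B : BB n r} {Y : MK B} {s w p0 k0 b} (F : PF Y s w p0 k0 b) (G : _)
  (l : Fin r → ℂ), F.Full → F.Tr G → qC B.q p0 (star p0) ≠ 0 → qC B.q p0 l = 0 →
  qC B.q (rc k0) l ≠ 0 → ∃ (b' : ℕ) (F' : PF Y s w p0 k0 b') (G' : _), F'.Tr G' ∧
    (∀ t ∈ F'.N, qC B.q (F'.p t) l = 0) ∧ Sct B.q F'.p {x | qC B.q x l = 0}

/-- row BALL: the period map over a small ball -/
def BALL : Prop := ∀ (r b : ℕ) (q : Matrix (Fin r) (Fin r) ℤ) (p : Cm b → Fin r → ℂ)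
  (Z : Set (Fin r → ℂ)), Sct q p Z → ∃ R₀ : ℝ, 0 < R₀ ∧ ∀ R : ℝ, 0 < R → R ≤ R₀ →
  (∀ t ∈ ball (0 : Cm b) R, ∀ t' ∈ ball (0 : Cm b) R, ∀ c : ℂ, p t = c • p t' → t = t') ∧
  ∃ (N₀ : Set (Fin r → ℂ)) (χ : (Fin r → ℂ) → Cm b), IsOpen N₀ ∧ p 0 ∈ N₀ ∧
    DifferentiableOn ℂ χ N₀ ∧ χ (p 0) = 0 ∧ ∀ x ∈ N₀, qC q x x = 0 → x ∈ Z →
      χ x ∈ ball (0 : Cm b) R ∧ ∃ c : ℂ, c ≠ 0 ∧ p (χ x) = c • x

/-- row KOP: Kähler classes are open -/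
def KOP : Prop := ∀ {n r : ℕ} {B : BB n r} {Y : MK B} {s w p0 k0 b} (F : PF Y s w p0 k0 b) (G : _),
  Y.Sym s p0 → IsKahler w → F.Tr G → ∀ᶠ z in 𝓝 ((0 : Cm b), k0), qC B.q (F.p z.1) (rc z.2) = 0 →
    Cov (F.Om z.1) → ∃ u, Cl2 Y.V u ∧ ReF Y.V u ∧ Y.m.c u = rc z.2 ∧ All F1 (F.Om z.1) u ∧
      All Ps (F.Om z.1) u

/-- a family of connections whose curvature has no component of type `(0, 2)` -/
structure Cn {d b : ℕ} {V : Mf d} {ι : Type} (Ω : Cm b → Fs V) (L : LineBundle d V.X ι)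
    (ρ : ι → V.X → ℝ) (η : Fs V) (a : Cm b → Fs V) (N : Set (Cm b)) : Prop where
  met : IsMetric L ρ
  cur : Is11 (curvature L ρ) η
  cl : Cl2 V η
  re : ReF V η
  d1 : ∀ t ∈ N, D1 V (a t)
  fam : Fam a N
  hol : HolF a N
  f1 : ∀ t ∈ N, All F1 (Ω t) (η + (dR V).d (a t))
  lin : ∀ e x, At e x → ∀ v, lv (vl (a 0) e (e x)) (I • v) = I * lv (vl (a 0) e (e x)) v

/-- row L0: the connections -/
def L0 : Prop := ∀ {n r : ℕ} {B : BB n r} {Y : MK B} {s w w' p0 k0 b} (F : PF Y s w' p0 k0 b)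
  (G : _) {ι : Type} (L : LineBundle (n + n) Y.V.X ι) (ρ : ι → Y.V.X → ℝ) (l : Fin r → ℤ),
  Y.HK s w p0 k0 → F.Tr G → (∀ t ∈ F.N, qC B.q (F.p t) (rc (zr l)) = 0) → Cov (F.Om 0) →
  Y.C1 L ρ l → ∃ ρ' η a, Cn F.Om L ρ' η a F.N ∧ Y.m.c η = rc ((2 * Real.pi) • zr l)

/-- row DOLC: the lemma of Dolbeault -/
def DOLC : Prop := ForC fun E _ _ _ => ∀ (β : E → E →L[ℝ] ℂ) (x₀ : E), Sm β x₀ →
  (∀ᶠ x in 𝓝 x₀, ∀ v v', f1e (dl β x) v (I • v) v' (I • v') = 0) →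
  ∃ h : E → ℂ, Sm h x₀ ∧ ∀ᶠ x in 𝓝 x₀, ∀ v,
    (fderiv ℝ h x + β x) (I • v) = I * (fderiv ℝ h x + β x) v

/-- row LOCF: holomorphic frames in a family -/
def LOCF : Prop := ∀ (b d : ℕ) (W : Cm b × Cm d → Cm d) (α : Cm b × Cm d → Cm d →L[ℝ] ℂ)
  (q₀ : Cm b × Cm d), Sm W q₀ → Sm α q₀ →
  (∀ᶠ q in 𝓝 q₀, Function.Bijective (Dy W q) ∧ DifferentiableAt ℂ (fun t => W (t, q.2)) q.1 ∧
    (∀ v, DifferentiableAt ℂ (fun t => α (t, q.2) v) q.1) ∧ ∀ v v' x x',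
      Dy W q v' = I • Dy W q v → Dy W q x' = I • Dy W q x →
      f1e (dl (fun y => α (q.1, y)) q.2) v v' x x' = 0) →
  ∃ f : Cm b × Cm d → ℂ, Sm f q₀ ∧ ∀ᶠ q in 𝓝 q₀, DifferentiableAt ℂ (fun t => f (t, q.2)) q.1 ∧
    ∀ v v', Dy W q v' = I • Dy W q v → (Dy f q + α q) v' = I • (Dy f q + α q) v

/-- row LQ: local coordinates and frames -/
def LQ : Prop := ∀ {d b : ℕ} {V : Mf d} {ι : Type} (Ω : Cm b → Fs V) (L : LineBundle d V.X ι)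
  (ρ : ι → V.X → ℝ) (η : Fs V) (a : Cm b → Fs V) (N : Set (Cm b)), IsOpen N → 0 ∈ N → Fam Ω N →
  HolF Ω N → (∀ t ∈ N, Cl2 V (Ω t) ∧ CsF (Ω t)) → Cn Ω L ρ η a N →
  ∀ x, ∃ e i W f, At e x ∧ x ∈ L.U i ∧ ∀ᶠ q in 𝓝 ((0 : Cm b), e x), Lq Ω ρ a e i W f q

/-- row FC: finitely many coordinates over a ball -/
def FC : Prop := ∀ {d b : ℕ} {V : Mf d} {ι : Type} (Ω : Cm b → Fs V) (L : LineBundle d V.X ι)
  (ρ : ι → V.X → ℝ) (a : Cm b → Fs V),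
  (∀ x, ∃ e i W f, At e x ∧ x ∈ L.U i ∧ ∀ᶠ q in 𝓝 ((0 : Cm b), e x), Lq Ω ρ a e i W f q) →
  ∀ r₀ : ℝ, 0 < r₀ → ∃ (r : ℝ) (N : ℕ), 0 < r ∧ r ≤ r₀ ∧ Nonempty (GD Ω L ρ a r N)

/-- a statement on the data `GD` -/
def ForG (P : ∀ {d b : ℕ} {V : Mf d} {ι : Type} {Ω : Cm b → Fs V} {L : LineBundle d V.X ι}
    {ρ : ι → V.X → ℝ} {a : Cm b → Fs V} {r : ℝ} {N : ℕ}, GD Ω L ρ a r N → Prop) : Prop :=
  ∀ {d b : ℕ} {V : Mf d} {ι : Type} {Ω : Cm b → Fs V} {L : LineBundle d V.X ι}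
    {ρ : ι → V.X → ℝ} {a : Cm b → Fs V} {r : ℝ} {N : ℕ} (D : GD Ω L ρ a r N), P D

/-- row ADE: the charts of the family are adapted -/
def ADE : Prop := ForG fun {_ b _ _ Ω _ _ _ r _} D =>
  ∀ t ∈ ball (0 : Cm b) r, ∀ k, Adp (Ω t) (D.E t k)

/-- row BUN: the deformed line bundle -/
def BUN : Prop := ForG fun {_ b _ _ Ω L ρ _ r _} D => IsMetric L ρ →
  ∀ t ∈ ball (0 : Cm b) r, ∀ H : Cov (Ω t), ∃ M, D.Is t H M ∧ IsMetric M (D.wt t)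

/-- row BUNC: its curvature -/
def BUNC : Prop := ForG fun {d b V _ Ω L ρ a r N} D => ∀ (η θ : Fs V), IsMetric L ρ →
  Is11 (curvature L ρ) η → ∀ t ∈ ball (0 : Cm b) r, CsF (Ω t) →
  IsP (Ω t) (a t - (dR V).cj (a t)) θ → Cl2 V (η + (dR V).d (a t) - (dR V).d θ) →
  ∀ (H : Cov (Ω t)) (M : LineBundle d (mfOf H).X (Fin N)) (T : Fs V → Fs (mfOf H)),
    D.Is t H M → IsMetric M (D.wt t) → IsPb (idOf H).symm T →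
    Is11 (curvature M (D.wt t)) (T (η + (dR V).d (a t) - (dR V).d θ))

/-- row CF: the holomorphic family of pairs -/
def CF : Prop := ForG fun {d b V _ Ω _ _ _ r N} D => ∀ (π : Cm b → Cm b)
  (H : ∀ t, Cov (Ω (π t))) (M : ∀ t, LineBundle d (mfOf (H t)).X (Fin N)),
  (∀ t ∈ ball (0 : Cm b) r, π t = t) → (∀ t, D.Is (π t) (H t) (M t)) →
  Nonempty (Semi.CFam V.X (fun t => (mfOf (H t)).X) (fun _ => Fin N) M N (ball 0 r))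

/-- row H0T: the sections at the base point -/
def H0T : Prop := ForG fun {d _ V _ Ω L _ a r N} D => ∀ s : Fld V, 0 < r → IsHolTwoForm s →
  Is20 s (Ω 0) → (∀ e x, At e x → (s e (e x)).det ≠ 0) →
  (∀ e x, At e x → ∀ v, lv (vl (a 0) e (e x)) (I • v) = I * lv (vl (a 0) e (e x)) v) →
  ∀ t, t = 0 → ∀ (H : Cov (Ω t)) (M : LineBundle d (mfOf H).X (Fin N)), D.Is t H M →
    ∀ m k, Semi.H0 M m k → Semi.H0 L m k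

end Vale.Agent.P301Z.Dg
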