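import Vale.Agent.P301Z.Dg.Sk
import Vale.Agent.P301Z.Sk

/-!
# P301Z, block DEF: the deformation space from the rows
-/

open scoped Manifold ContDiff ComplexOrder Topology Matrix
open Filter Set Metric Complex
open Vale.Agent.P272.K
open Vale.Agent.P281Z.Hg Vale.Agent.P301Z.Lat
open Vale.Agent.P301Z.Rot (Cov mfOf idOf cov_of_cnn smo_idOf smo_idOf_symm cl_pb)

noncomputable section

namespace Vale.Agent.P301Z.Dg

namespace TopH

variable {n r : ℕ} {B : BB n r} {Y : MK B} {s w : Fld Y.V} {p0 : Fin r → ℂ} {k0 : Fin r → ℝ}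
  {b : ℕ}

theorem qC_smul (q : Matrix (Fin r) (Fin r) ℤ) (x : Fin r → ℂ) (c : ℝ) (y : Fin r → ℝ) :
    qC q x (rc (c • y)) = c * qC q x (rc y) := by
  simp only [qC, rc, Pi.smul_apply, smul_eq_mul, ofReal_mul, Finset.mul_sum]
  exact Finset.sum_congr rfl fun _ _ => Finset.sum_congr rfl fun _ _ => by ring

theorem qC_rc (B : BB n r) (x y : Fin r → ℝ) : qC B.q (rc x) (rc y) = qR B.q y x := by
  simp only [qC, qR, rc, ofReal_sum, ofReal_mul, ofReal_intCast]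
  rw [Finset.sum_comm]
  refine Finset.sum_congr rfl fun i _ => Finset.sum_congr rfl fun j _ => ?_
  rw [show B.q j i = B.q i j from congrFun (congrFun B.symm i) j, mul_comm (x j : ℂ)]

theorem cov (hN : An.CNN) (A : Api) (F : PF Y s w p0 k0 b) {t : Cm b} (ht : t ∈ F.N) :
    Cov (F.Om t) :=
  have k := (A.om F).2.2.2 t ht
  cov_of_cnn hN k.1 (fun e x h => (k.2.1 e x h).nd) fun e x h => (k.2.1 e x h).ex

theorem ex_pb {d : ℕ} {V : P281Z.Mf d} {Ω : Fs V} (H : Cov Ω) :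
    ∃ T : Fs V → Fs (mfOf H), IsPb (idOf H).symm T :=
  have ⟨T, hT⟩ := (pb1T d _ d _ _ (smo_idOf_symm H)).1
  ⟨T, hT⟩

/-- the deformed manifold is marked, with the period `p t` -/
def Good (F : PF Y s w p0 k0 b) (t : Cm b) : Prop := t ∈ F.N ∧ ∀ H : Cov (F.Om t),
  ∃ (sc : SimplyConnectedSpace (mfOf H).X) (m : Mark (mfOf H) r) (h : Fuj B m)
    (s' : Fld (mfOf H)), MK.Mor ⟨mfOf H, sc, m, h⟩ Y (idOf H).symm ∧
      MK.Sym ⟨mfOf H, sc, m, h⟩ s' (F.p t)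

theorem good (hL : LAT) (A : Api) (hO : ORI) (F : PF Y s w p0 k0 b) (hs : Y.Sym s p0) :
    ∀ᶠ t in 𝓝 (0 : Cm b), Good F t := by
  obtain ⟨h1, -, h2, h3⟩ := A.om F
  have hN := F.opn.mem_nhds F.mem
  filter_upwards [hN, hO F.Om F.N s hN h1 (fun t ht => ⟨(h3 t ht).1, (h3 t ht).2.1⟩) hs.1.1 h2
    hs.2] with t ht ho
  refine ⟨ht, fun H => ?_⟩
  obtain ⟨sc, m, h, hm⟩ := hL.tr Y (mfOf H) (idOf H).symm (smo_idOf_symm H) (smo_idOf H) (ho H)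
  obtain ⟨T, hT⟩ := ex_pb H
  obtain ⟨s', k1, k2, k3⟩ := A.re.sym H hT (h3 t ht).1 (h3 t ht).2.1
  exact ⟨sc, m, h, s', hm, ⟨k1, _, k2, cl_pb (smo_idOf_symm H) hT (h3 t ht).1,
    (hm.2 T hT _ (h3 t ht).1).trans (h3 t ht).2.2⟩, k3⟩

end TopH

open TopH in
/-- **DEF** from the rows -/
theorem def_of (hL : LAT) (hN : An.CNN) (hK : KUR) (A : Api) (hO : ORI) (hFT : FT) (hLO : LOC)
    (hB : BALL) (hKO : KOP) (h0 : L0) (hLQ : LQ) (hFC : FC) (hBU : BUN) (hBC : BUNC) (hCF : CF)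
    (hH : H0T) : DEF := by
  intro n r B X s w p k hHK ι L ρ l hC _ hlk
  obtain ⟨w', b0, F0, hw', hF0⟩ := hK n r B X s w p k hHK
  have h1 : qC B.q p (star p) ≠ 0 := (hL.rel.ppb hHK).ne'
  obtain ⟨F1, G1, hF1, hG1⟩ := hFT F0 hF0 ((good hL A hO F0 hHK.1).mono fun t ht => by
    obtain ⟨sc, m, h, s', -, hs⟩ := ht.2 (cov hN A F0 ht.1)
    exact hL.rel.pp hs.1 hs.1) h1 (hL.rel.p11 hHK.1.1 hHK.2.1.2)
  have h3 : qC B.q p (rc (zr l)) = 0 := by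
    have k := hL.rel.p11 hHK.1.1 hC.2
    rw [qC_smul] at k
    exact (mul_eq_zero.1 k).resolve_left (ofReal_ne_zero.2 Real.two_pi_pos.ne')
  obtain ⟨b, F, G, hG, hp, hS⟩ := hLO F1 G1 (rc (zr l)) hF1 hG1 h1 h3 (by
    rw [qC_rc]
    exact ofReal_ne_zero.2 hlk.ne')
  obtain ⟨ρ', η, a, hc, hη⟩ := h0 F G L ρ l hHK hG hp (cov hN A F F.mem) hC
  obtain ⟨R₀, hR₀, hb⟩ := hB r b B.q F.p _ hS
  obtain ⟨o1, o2, o3, o4⟩ := A.om F
  obtain ⟨r₁, hr₁, hg⟩ := Metric.eventually_nhds_iff_ball.1 (good hL A hO F hHK.1)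
  obtain ⟨R, N, hR, hle, ⟨D⟩⟩ := hFC F.Om L ρ' a (hLQ F.Om L ρ' η a F.N F.opn F.mem o1 o2
    (fun t ht => ⟨(o4 t ht).1, (o4 t ht).2.1⟩) hc) _ (lt_min hR₀ hr₁)
  obtain ⟨hinj, N₀, χ, c1, c2, c3, c4, c5⟩ := hb R hR (hle.trans (min_le_left _ _))
  replace hg : ∀ t ∈ ball (0 : Cm b) R, Good F t := fun t ht =>
    hg t (ball_subset_ball (hle.trans (min_le_right _ _)) ht)
  obtain ⟨π, hπ, hπ'⟩ : ∃ π : Cm b → Cm b, (∀ t, π t ∈ ball (0 : Cm b) R) ∧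
      ∀ t ∈ ball (0 : Cm b) R, π t = t := by
    classical
    refine ⟨fun t => if t ∈ ball (0 : Cm b) R then t else 0, fun t => ?_, fun t ht => if_pos ht⟩
    by_cases ht : t ∈ ball (0 : Cm b) R
    · simpa only [if_pos ht] using ht
    · simpa only [if_neg ht] using mem_ball_self hR
  have hm : ∀ t, π t ∈ F.N := fun t => (hg _ (hπ t)).1
  have H : ∀ t, Cov (F.Om (π t)) := fun t => cov hN A F (hm t)
  choose sc m fj s' hmo hs' using fun t => (hg _ (hπ t)).2 (H t)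
  choose M hM hMe using fun t => hBU D hc.met (π t) (hπ t) (H t)
  choose T hT using fun t => ex_pb (H t)
  rw [F.p0] at c2 c4
  refine ⟨{
    b := b
    R := R
    pos := hR
    Y := fun t => ⟨mfOf (H t), sc t, m t, fj t⟩
    κ := fun _ => Fin N
    M := M
    ρ := fun t => D.wt (π t)
    N := N
    fam := (hCF D π H M hπ' hM).some
    c1 := fun t _ => ?_
    h0 := hH D s hR hHK.1.1.1 o3 hHK.1.2 hc.lin _ (hπ' 0 (mem_ball_self hR)) (H 0) (M 0) (hM 0)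
    s := s'
    per := F.p
    sym := fun t ht => ?_
    quad := fun t ht => ⟨hG.pq t (hg t ht).1, hp t (hg t ht).1⟩
    cont := fun t ht => (F.pan t (hg t ht).1).continuousAt.continuousWithinAt
    inj := hinj
    N₀ := N₀
    χ := χ
    opn := c1
    mem := c2
    dχ := c3
    χ0 := c4
    inv := c5
    kop := ?_ }⟩
  · have hcs := (o4 _ (hm t)).2.1
    obtain ⟨θ, hθ⟩ := A.px1.ex hcs (a (π t) - (dR X.V).cj (a (π t)))
    obtain ⟨k1, -, -, k2⟩ := A.px2.rl (H t) hcs hc.cl hc.re (hc.d1 _ (hm t)) (hc.f1 _ (hm t)) hθ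
    exact ⟨hMe t, (hL.d11.curv (hMe t)).1, _,
      hBC D η θ hc.met hc.cur _ (hπ t) hcs hθ k1 (H t) (M t) (T t) (hM t) (hMe t) (hT t),
      cl_pb (smo_idOf_symm (H t)) (hT t) k1, (((hmo t).2 _ (hT t) _ k1).trans (k2 X.m)).trans hη⟩
  · rw [← congrArg F.p (hπ' t ht)]
    exact hs' t
  · have k : ∀ᶠ z in 𝓝 ((0 : Cm b), k), z.1 ∈ ball (0 : Cm b) R :=
      continuousAt_fst.eventually_mem (ball_mem_nhds _ hR)
    filter_upwards [k, hKO F G hHK.1 hw' hG] with z hz h hq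
    obtain ⟨u, k1, k2, k3, k4, k5⟩ := h hq (cov hN A F (hg _ hz).1)
    rw [← hπ' _ hz] at k4 k5
    obtain ⟨a', j1, j2, j3⟩ := A.re.r11 (H z.1) (hT z.1) k1 k2 k4
    exact ⟨a', j3 k5, j1, _, j2, cl_pb (smo_idOf_symm (H z.1)) (hT z.1) k1,
      ((hmo z.1).2 _ (hT z.1) _ k1).trans k3⟩

end Vale.Agent.P301Z.Dg
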